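import Vale.Agent.P193.Full.Calc.Restrict

/-! The base fields: the trivial-coefficient group is generated by the conjugates of one swap,
so a generator carried by an idempotent gives, eventually, a field over that idempotent, and
two fields over sets with all generator relations true are eventually compatible. -/

namespace Vale.Agent.P193.Calc

open Classical
open scoped commutatorElement

variable {S : Type}

/-! ### Generation of the trivial-coefficient group -/

theorem inMon_empty {m : Set (Sp S × Sp S)} (h : InMon (∅ : Set (Set (S × S))) m) :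
    m = gid Set.univ ∨ m = ∅ := by
  induction h with
  | one => exact Or.inl rfl
  | of h _ => exact absurd h (Set.notMem_empty _)
  | inv _ ih =>
    rcases ih with rfl | rfl
    · left; ext ⟨x, y⟩; simp [ginv, gid, eq_comm]
    · right; ext ⟨x, y⟩; simp [ginv]
  | comp _ _ ihm ihn =>
    rcases ihm with rfl | rfl
    · rcases ihn with rfl | rfl
      · left; rw [gcomp_gid, Set.inter_self]
      · right; ext ⟨x, y⟩; simp [gcomp]
    · right; ext ⟨x, y⟩; simp [gcomp]
  | compl _ ih =>
    rcases ih with rfl | rfl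
    · right; ext ⟨x, y⟩; simp [gid, gdom]
    · left; ext ⟨x, y⟩; simp [gid, gdom]
  | union _ _ _ _ ihm ihn =>
    rcases ihm with rfl | rfl
    · left; rcases ihn with rfl | rfl <;> simp
    · rcases ihn with rfl | rfl
      · left; simp
      · right; simp

theorem vswap_coe {p q : List Bool} (h : Apart p q) :
    ((vswap (S := S) h : Vgrp S) : Equiv.Perm (Sp S)) =
      swapPerm (simpleBis (M := coeffOf (S := S) ∅) h (coeffOf ∅).one_mem) := rfl

theorem vswap_pre_off {p q r : List Bool} (h : Apart p q) (hp : Apart r p) (hq : Apart r q)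
    (x : Sp S) : (vswap (S := S) h : Equiv.Perm (Sp S)) ((hv S).pre r x) = (hv S).pre r x :=
  vswap_fix h (fun _ e => hp.incomp _ _ e) (fun _ e => hq.incomp _ _ e)

theorem vswap_symm {p q : List Bool} (h : Apart p q) :
    vswap (S := S) h.symm = vswap h := by
  refine Subtype.ext ?_
  rw [vswap_coe, vswap_coe]
  refine swap_ginv _ _ ?_
  ext ⟨x, y⟩
  constructor
  · intro h1
    obtain ⟨a, b, hab, e⟩ := mem_piece.1 h1
    obtain ⟨rfl, rfl⟩ := Prod.mk.inj e
    obtain rfl : a = b := hab.1
    exact piece_mem ⟨rfl, trivial⟩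
  · intro h1
    obtain ⟨a, b, hab, e⟩ := mem_piece.1 (show (y, x) ∈ piece (hv S) _ _ _ from h1)
    obtain ⟨rfl, rfl⟩ := Prod.mk.inj e
    obtain rfl : a = b := hab.1
    exact piece_mem ⟨rfl, trivial⟩

theorem vswap_move {p q r : List Bool} (hpq : Apart p q) (hpr : Apart p r) (hrq : Apart r q) :
    vswap (S := S) hrq = vswap hpr * vswap hpq * (vswap hpr)⁻¹ := by
  refine Subtype.ext ?_
  rw [Subgroup.coe_mul, Subgroup.coe_mul, Subgroup.coe_inv]
  refine (swap_conj _ _ _ ?_).symm
  simp only [simpleBis, piece, Set.image_image]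
  refine Set.image_congr ?_
  rintro ⟨x, y⟩ -
  refine Prod.ext ?_ ?_
  · exact (vswap_fwd hpr x).symm
  · exact (vswap_pre_off hpr hpq.symm hrq.symm y).symm

theorem vswap_split {p q : List Bool} (h : Apart p q) :
    vswap (S := S) h = vswap (h.append [false] [false]) * vswap (h.append [true] [true]) := by
  refine Subtype.ext ?_
  rw [Subgroup.coe_mul, vswap_coe, vswap_coe, vswap_coe]
  have e := congrArg (schemaHom (coeffOf (S := S) ∅))
    (tau_split h (coeffOf (S := S) ∅).one_mem)
  rw [map_mul, schemaHom_tau, schemaHom_tau, schemaHom_tau] at e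
  exact e.symm

variable (S) in
/-- The subgroup generated by the conjugates of the standard swap. -/
noncomputable def conjGen : Subgroup (Vgrp S) :=
  Subgroup.closure (Set.range fun k : Vgrp S => k * vswap colAB * k⁻¹)

theorem conjGen_conj (k : Vgrp S) {g : Vgrp S} (hg : g ∈ conjGen S) :
    k * g * k⁻¹ ∈ conjGen S := by
  unfold conjGen at hg ⊢
  induction hg using Subgroup.closure_induction with
  | mem x hx =>
    obtain ⟨l, rfl⟩ := hx
    exact Subgroup.subset_closure ⟨k * l, by simp only [mul_inv_rev, mul_assoc]⟩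
  | one => simp
  | mul a b _ _ ha hb =>
    have := mul_mem ha hb
    simpa [mul_assoc] using this
  | inv a _ ha =>
    have := inv_mem ha
    simpa [mul_assoc] using this

theorem move_mem {p q r : List Bool} (hpq : Apart p q) (hpr : Apart p r) (hrq : Apart r q)
    (h : vswap hpq ∈ conjGen S) : vswap hrq ∈ conjGen S := by
  rw [vswap_move hpq hpr hrq]; exact conjGen_conj _ h

theorem vswap_mem_two (a b : Bool) (v w : List Bool) :
    vswap (S := S) (apart_heads (c := false) (d := true) (by decide) (a :: v) (b :: w)) ∈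
      conjGen S := by
  have h0 : vswap (S := S) colAB ∈ conjGen S :=
    Subgroup.subset_closure ⟨1, by simp⟩
  have a1 : Apart colA [true, !b] := apart_heads (by decide) _ _
  have a2 : Apart [true, !b] colB := apart_heads (by decide) _ _
  have h1 := move_mem colAB a1 a2 h0
  have a3 : Apart [true, !b] (true :: b :: w) := by
    constructor <;> intro e <;> simp [List.cons_prefix_cons] at e
  have a4 : Apart (true :: b :: w) colB := apart_heads (by decide) _ _
  have h2 := move_mem a2 a3 a4 h1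
  rw [← vswap_symm a4] at h2
  cases a with
  | false =>
    have a5 : Apart colB (false :: false :: v) := by
      constructor <;> intro e <;> simp [colB, List.cons_prefix_cons] at e
    have a6 : Apart (false :: false :: v) (true :: b :: w) := apart_heads (by decide) _ _
    exact move_mem a4.symm a5 a6 h2
  | true =>
    have a5 : Apart colB colA := colAB.symm
    have a6 : Apart colA (true :: b :: w) := apart_heads (by decide) _ _
    have h3 := move_mem a4.symm a5 a6 h2
    have a7 : Apart colA (false :: true :: v) := by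
      constructor <;> intro e <;> simp [colA, List.cons_prefix_cons] at e
    have a8 : Apart (false :: true :: v) (true :: b :: w) := apart_heads (by decide) _ _
    exact move_mem a6 a7 a8 h3

theorem vswap_mem_conjGen (c : Bool) (v w : List Bool) :
    vswap (S := S) (apart_heads (c := c) (d := !c) (by cases c <;> decide) v w) ∈ conjGen S := by
  cases c with
  | false =>
    rw [vswap_split]
    refine mul_mem ?_ ?_ <;> cases v <;> cases w <;> exact vswap_mem_two _ _ _ _
  | true =>
    rw [← vswap_symm, vswap_split]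
    refine mul_mem ?_ ?_ <;> cases v <;> cases w <;> exact vswap_mem_two _ _ _ _

theorem vswap_conj_generate : conjGen S = ⊤ := by
  let H : Subgroup (Equiv.Perm (Sp S)) := (conjGen S).map (Subgroup.subtype _)
  have hle : swapGroup (coeffOf (S := S) ∅) ≤ H := by
    rw [← schemaHom_range, MonoidHom.range_eq_map, ← closure_simples, MonoidHom.map_closure,
      Subgroup.closure_le]
    rintro _ ⟨g, ⟨c, v, w, m, hm, rfl⟩, rfl⟩
    rw [schemaHom_tau, SetLike.mem_coe]
    rcases inMon_empty hm with rfl | rfl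
    · exact ⟨_, vswap_mem_conjGen c v w, rfl⟩
    · rw [← schemaHom_tau, tau_empty _ (by simp [simpleBis, piece]), map_one]
      exact one_mem H
  refine eq_top_iff.2 fun g _ => ?_
  obtain ⟨x, hx, e⟩ := hle g.2
  rwa [← Subtype.ext (show (x : Equiv.Perm (Sp S)) = g.1 from e)]

/-! ### Restrictions -/

/-- A restriction conjugates the restrictions to smaller sets as the inner action does. -/
theorem restr_conj_sub {e e' : Set S} (h : e' ⊆ e) (v w : Vgrp S) :
    restr e v * restr e' w * (restr e v)⁻¹ = restr e' (v * w * v⁻¹) := by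
  have hd : Commute (restr e v * (v : Equiv.Perm (Sp S))⁻¹) (restr e' (v * w * v⁻¹)) := by
    have he : restr e v * (v : Equiv.Perm (Sp S))⁻¹ = restr eᶜ v⁻¹ := by
      have hc := restr_commute (disjoint_compl_right (a := e)) v v
      rw [map_inv, ← restr_compl e v, mul_inv_rev, ← mul_assoc, hc.inv_right.eq,
        mul_inv_cancel_right]
    rw [he]
    exact restr_commute (e := eᶜ) (f := e') (Set.disjoint_left.2 fun s hs hs' => hs (h hs')) _ _
  calc restr e v * restr e' w * (restr e v)⁻¹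
      = (restr e v * (v : Equiv.Perm (Sp S))⁻¹) *
          ((v : Equiv.Perm (Sp S)) * restr e' w * (v : Equiv.Perm (Sp S))⁻¹) *
          (restr e v * (v : Equiv.Perm (Sp S))⁻¹)⁻¹ := by simp [mul_assoc]
    _ = restr e' (v * w * v⁻¹) := by rw [restr_conj, hd.eq, mul_inv_cancel_right]

theorem restr_sdiff {e e' : Set S} (h : e' ⊆ e) (v : Vgrp S) :
    restr e v = restr e' v * restr (e \ e') v := by
  rw [restr_split e e', Set.inter_eq_right.2 h]

theorem gswap_gid {e : Set S} (he : IsPB (gid e)) :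
    gswap he colAB = restr e (vswap (S := S) colAB) := by
  refine Equiv.ext fun z => ?_
  rcases gswap_cases colA colB z with ⟨f, s, rfl⟩ | ⟨f, t, rfl⟩ | ⟨h1, h2⟩
  · by_cases hs : s ∈ e
    · rw [gswap_fwd colAB (show (s, s) ∈ gid e from ⟨rfl, hs⟩),
        restr_in (by rw [hv_pre_snd]; exact hs), vswap_fwd]
    · rw [gswap_fix_dom colAB (fun ⟨y, hy⟩ => hs hy.2),
        restr_out (by rw [hv_pre_snd]; exact hs)]
  · by_cases hs : t ∈ e
    · rw [gswap_bwd colAB (show (t, t) ∈ gid e from ⟨rfl, hs⟩),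
        restr_in (by rw [hv_pre_snd]; exact hs), vswap_bwd]
    · rw [gswap_fix_ran colAB (fun ⟨y, hy⟩ => hs (by obtain rfl : y = t := hy.1; exact hy.2)),
        restr_out (by rw [hv_pre_snd]; exact hs)]
  · rw [gswap_fix_out colAB h1 h2, restr_apply]
    split_ifs
    · rw [vswap_fix _ h1 h2]
    · rfl

/-! ### Complements of equivariant homomorphisms -/

/-- The part of `k` outside `h`, when `k` conjugates `h` as the inner action does. -/
def quo {W K : Type*} [Group W] [Group K] (k h : W →* K)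
    (e : ∀ v w, k v * h w * (k v)⁻¹ = h (v * w * v⁻¹)) : W →* K where
  toFun v := (h v)⁻¹ * k v
  map_one' := by simp
  map_mul' v w := by
    have e' : k v * (h w)⁻¹ = h (v * w⁻¹ * v⁻¹) * k v := by
      rw [← e, map_inv, inv_mul_cancel_right]
    simp only [map_mul, mul_inv_rev]
    calc (h w)⁻¹ * (h v)⁻¹ * (k v * k w) = (h v)⁻¹ * h (v * w⁻¹ * v⁻¹) * (k v * k w) := by
          simp [map_mul, mul_assoc]
      _ = (h v)⁻¹ * (h (v * w⁻¹ * v⁻¹) * k v) * k w := by simp [mul_assoc]
      _ = (h v)⁻¹ * k v * ((h w)⁻¹ * k w) := by rw [← e']; simp [mul_assoc]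

theorem quo_apply {W K : Type*} [Group W] [Group K] (k h : W →* K)
    (e : ∀ v w, k v * h w * (k v)⁻¹ = h (v * w * v⁻¹)) (v : W) :
    quo k h e v = (h v)⁻¹ * k v := rfl

theorem mul_quo {W K : Type*} [Group W] [Group K] (k h : W →* K)
    (e : ∀ v w, k v * h w * (k v)⁻¹ = h (v * w * v⁻¹)) (v : W) :
    k v = h v * quo k h e v := by
  rw [quo_apply, mul_inv_cancel_left]

theorem quo_disj {W K : Type*} [Group W] [Group K] {k h : W →* K}
    (e : ∀ v w, k v * h w * (k v)⁻¹ = h (v * w * v⁻¹)) : Disj h (quo k h e) := by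
  intro v w
  show h v * ((h w)⁻¹ * k w) = (h w)⁻¹ * k w * h v
  have e1 := e w v
  rw [map_mul, map_mul, map_inv, mul_inv_eq_iff_eq_mul] at e1
  rw [mul_assoc, e1]
  simp [mul_assoc]

/-- A field over a set is compatible with the full field when it is equivariant. -/
theorem compat_full {W K : Type*} [Group W] [Group K] {one h : W →* K}
    (e : ∀ v w, one v * h w * (one v)⁻¹ = h (v * w * v⁻¹)) : Compat one h one :=
  ⟨{ a := h
     b := 1
     c := quo one h e
     o := 1
     ab := fun _ _ => Commute.one_right _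
     ac := quo_disj e
     ao := fun _ _ => Commute.one_right _
     bc := fun _ _ => Commute.one_left _
     bo := fun _ _ => Commute.one_left _
     co := fun _ _ => Commute.one_right _
     he := fun v => (mul_one _).symm
     hf := fun v => mul_quo one h e v
     hone := fun v => by simp [← mul_quo one h e v] }⟩

/-! ### Eventual fields -/

namespace Frame

variable {F : Frame S}

/-- The map from words in the generators of the trivial-coefficient group. -/
noncomputable def vword : FreeGroup (Fin F.m) →* F.Free :=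
  FreeGroup.lift fun j => FreeGroup.of (Sum.inl j)

theorem eval_vword (x : FreeGroup (Fin F.m)) :
    F.eval (vword x) = (FreeGroup.lift F.vgen x : Equiv.Perm (Sp S)) := by
  have : F.eval.comp (vword (F := F)) =
      (Subgroup.subtype _).comp (FreeGroup.lift F.vgen) :=
    FreeGroup.ext_hom _ _ fun j => by simp [vword, Frame.eval_inl]
  exact DFunLike.congr_fun this x

theorem vgen_surjective : Function.Surjective (FreeGroup.lift F.vgen) := by
  rw [← MonoidHom.range_eq_top, FreeGroup.range_lift_eq_closure]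
  exact F.vgen_top

theorem hom_ext {K : Type*} [Group K] {a b : Vgrp S →* K}
    (h : ∀ j, a (F.vgen j) = b (F.vgen j)) : a = b :=
  MonoidHom.eq_of_eqOn_dense F.vgen_top (by rintro _ ⟨j, rfl⟩; exact h j)

theorem hom_eq_word (M : F.Model) {Ψ : Vgrp S →* M.P} {w : Fin F.m → F.Free}
    (h : ∀ j, Ψ (F.vgen j) = M.f (w j)) (x : FreeGroup (Fin F.m)) :
    Ψ (FreeGroup.lift F.vgen x) = M.f (FreeGroup.lift w x) := by
  have : Ψ.comp (FreeGroup.lift F.vgen) = M.f.comp (FreeGroup.lift w) :=
    FreeGroup.ext_hom _ _ fun j => by simp [h]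
  exact DFunLike.congr_fun this x

theorem eval_lift_eq (ψ : Vgrp S →* Equiv.Perm (Sp S)) (w : Fin F.m → F.Free)
    (hw : ∀ j, F.eval (w j) = ψ (F.vgen j)) (x : FreeGroup (Fin F.m)) :
    F.eval (FreeGroup.lift w x) = ψ (FreeGroup.lift F.vgen x) := by
  have : F.eval.comp (FreeGroup.lift w) = ψ.comp (FreeGroup.lift F.vgen) :=
    FreeGroup.ext_hom _ _ fun j => by simp [hw]
  exact DFunLike.congr_fun this x

/-- Eventually one homomorphism conjugates another as the inner action does, when it is so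
in the permutations. -/
theorem ev_normalizes (ψ₁ ψ₂ : Vgrp S →* Equiv.Perm (Sp S)) (w₁ w₂ : Fin F.m → F.Free)
    (h₁ : ∀ j, F.eval (w₁ j) = ψ₁ (F.vgen j)) (h₂ : ∀ j, F.eval (w₂ j) = ψ₂ (F.vgen j))
    (hc : ∀ v w, ψ₁ v * ψ₂ w * (ψ₁ v)⁻¹ = ψ₂ (v * w * v⁻¹)) :
    F.Ev fun M => ∀ (Ψ₁ Ψ₂ : Vgrp S →* M.P), (∀ j, Ψ₁ (F.vgen j) = M.f (w₁ j)) →
      (∀ j, Ψ₂ (F.vgen j) = M.f (w₂ j)) →
      ∀ v w, Ψ₁ v * Ψ₂ w * (Ψ₁ v)⁻¹ = Ψ₂ (v * w * v⁻¹) := by
  let x : Fin F.m × Fin F.m → FreeGroup (Fin F.m) :=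
    fun p => FreeGroup.of p.1 * FreeGroup.of p.2 * (FreeGroup.of p.1)⁻¹
  refine (Ev.all fun p : Fin F.m × Fin F.m => Ev.rel
    (a := w₁ p.1 * w₂ p.2 * (w₁ p.1)⁻¹) (b := FreeGroup.lift w₂ (x p)) ?_).mono ?_
  · rw [map_mul, map_mul, map_inv, h₁, h₂, hc, eval_lift_eq ψ₂ w₂ h₂]
    simp [x]
  intro M hM Ψ₁ Ψ₂ e₁ e₂
  have key : ∀ j, ∀ w, Ψ₁ (F.vgen j) * Ψ₂ w * (Ψ₁ (F.vgen j))⁻¹ =
      Ψ₂ (F.vgen j * w * (F.vgen j)⁻¹) := by
    intro j
    have h : (MulAut.conj (Ψ₁ (F.vgen j))).toMonoidHom.comp Ψ₂ =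
        Ψ₂.comp (MulAut.conj (F.vgen j)).toMonoidHom := by
      refine hom_ext (F := F) fun k => ?_
      have hr := hM (j, k)
      rw [map_mul, map_mul, map_inv, ← e₁, ← e₂, ← hom_eq_word M e₂] at hr
      simpa [x] using hr
    exact fun w => by simpa using DFunLike.congr_fun h w
  let N : Subgroup (Vgrp S) :=
    { carrier := {v | ∀ w, Ψ₁ v * Ψ₂ w * (Ψ₁ v)⁻¹ = Ψ₂ (v * w * v⁻¹)}
      one_mem' := fun w => by simp
      mul_mem' := fun {a b} ha hb w => by
        rw [show a * b * w * (a * b)⁻¹ = a * (b * w * b⁻¹) * a⁻¹ by simp [mul_assoc],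
          ← ha, ← hb, map_mul Ψ₁]
        simp [mul_assoc]
      inv_mem' := fun {a} ha w => by
        have e := ha (a⁻¹ * w * a)
        rw [show a * (a⁻¹ * w * a) * a⁻¹ = w by simp [mul_assoc]] at e
        rw [← e, map_inv, show a⁻¹ * w * a⁻¹⁻¹ = a⁻¹ * w * a by rw [inv_inv]]
        simp [mul_assoc] }
  intro v
  have hv : v ∈ N := by
    have hle : Subgroup.closure (Set.range F.vgen) ≤ N :=
      (Subgroup.closure_le N).2 (by rintro _ ⟨j, rfl⟩; exact key j)
    exact hle (F.vgen_top ▸ Subgroup.mem_top v)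
  exact hv

/-- Eventually two homomorphisms with commuting images in the permutations have commuting
images. -/
theorem ev_homDisj (ψ₁ ψ₂ : Vgrp S →* Equiv.Perm (Sp S)) (w₁ w₂ : Fin F.m → F.Free)
    (h₁ : ∀ j, F.eval (w₁ j) = ψ₁ (F.vgen j)) (h₂ : ∀ j, F.eval (w₂ j) = ψ₂ (F.vgen j))
    (hc : ∀ v w, Commute (ψ₁ v) (ψ₂ w)) :
    F.Ev fun M => ∀ (Ψ₁ Ψ₂ : Vgrp S →* M.P), (∀ j, Ψ₁ (F.vgen j) = M.f (w₁ j)) →
      (∀ j, Ψ₂ (F.vgen j) = M.f (w₂ j)) → Disj Ψ₁ Ψ₂ := by
  refine (Ev.all fun p : Fin F.m × Fin F.m => Ev.rel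
    (a := w₁ p.1 * w₂ p.2) (b := w₂ p.2 * w₁ p.1) ?_).mono ?_
  · rw [map_mul, map_mul, h₁, h₂]; exact hc _ _
  intro M hM Ψ₁ Ψ₂ e₁ e₂ v w
  have hv : v ∈ Subgroup.closure (Set.range F.vgen) := F.vgen_top ▸ Subgroup.mem_top v
  induction hv using Subgroup.closure_induction with
  | mem x hx =>
    obtain ⟨j, rfl⟩ := hx
    have hw : w ∈ Subgroup.closure (Set.range F.vgen) := F.vgen_top ▸ Subgroup.mem_top w
    induction hw using Subgroup.closure_induction with
    | mem y hy =>
      obtain ⟨k, rfl⟩ := hy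
      show Ψ₁ _ * Ψ₂ _ = Ψ₂ _ * Ψ₁ _
      rw [e₁, e₂, ← map_mul, ← map_mul]
      exact hM (j, k)
    | one => simp
    | mul a b _ _ ha hb => rw [map_mul]; exact ha.mul_right hb
    | inv a _ ha => rw [map_inv]; exact ha.inv_right
  | one => simp
  | mul a b _ _ ha hb => rw [map_mul]; exact ha.mul_left hb
  | inv a _ ha => rw [map_inv]; exact ha.inv_left

/-! ### The full field -/

/-- The words of the full field. -/
noncomputable def fullWord (j : Fin F.m) : F.Free := FreeGroup.of (Sum.inl j)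

theorem eval_fullWord (j : Fin F.m) :
    F.eval (fullWord j) = restr (Set.univ : Set S) (F.vgen j) := by
  rw [restr_univ, fullWord, Frame.eval_inl]

theorem ev_full : F.Ev fun M => ∃ φ : Vgrp S →* M.P,
    (∀ j, φ (F.vgen j) = M.f (FreeGroup.of (Sum.inl j))) ∧
      ∀ v, M.π (φ v) = (v : Equiv.Perm (Sp S)) :=
  exists_hom (F := F) (Subgroup.subtype _) (fun j => FreeGroup.of (Sum.inl j)) fun j =>
    F.eval_inl j

theorem full_apply (M : F.Model) {φ : Vgrp S →* M.P}
    (h : ∀ j, φ (F.vgen j) = M.f (FreeGroup.of (Sum.inl j))) (x : FreeGroup (Fin F.m)) :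
    φ (FreeGroup.lift F.vgen x) = M.f (vword x) :=
  hom_eq_word M h x

/-- Every model is generated by the full field and the generators. -/
theorem generated (M : F.Model) {φ : Vgrp S →* M.P}
    (h : ∀ j, φ (F.vgen j) = M.f (FreeGroup.of (Sum.inl j))) :
    Subgroup.closure (Set.range φ ∪
      Set.range fun i => M.f (FreeGroup.of (Sum.inr i))) = ⊤ := by
  refine eq_top_iff.2 fun p hp => ?_
  clear hp
  obtain ⟨x, rfl⟩ := M.f_surj p
  induction x using FreeGroup.induction_on with
  | C1 => rw [map_one]; exact one_mem _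
  | of s =>
    rcases s with j | i
    · exact Subgroup.subset_closure (Or.inl ⟨F.vgen j, h j⟩)
    · exact Subgroup.subset_closure (Or.inr ⟨i, rfl⟩)
  | inv_of s hs => rw [map_inv]; exact inv_mem hs
  | mul a b ha hb => rw [map_mul]; exact mul_mem ha hb

/-- Every element is the value of a word in conjugates of the standard swap. -/
theorem exists_restrict_word {e : Set S} {t : F.Free}
    (ht : F.eval t = restr e (vswap colAB)) (v : Vgrp S) :
    ∃ w : F.Free, F.eval w = restr e v := by
  have hv : v ∈ conjGen S := vswap_conj_generate (S := S) ▸ Subgroup.mem_top v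
  unfold conjGen at hv
  induction hv using Subgroup.closure_induction with
  | mem x hx =>
    obtain ⟨k, rfl⟩ := hx
    obtain ⟨y, rfl⟩ := vgen_surjective (F := F) k
    exact ⟨vword y * t * (vword y)⁻¹, by
      rw [map_mul, map_mul, map_inv, eval_vword, ht, restr_conj]⟩
  | one => exact ⟨1, by simp⟩
  | mul a b _ _ ha hb =>
    obtain ⟨wa, ha⟩ := ha
    obtain ⟨wb, hb⟩ := hb
    exact ⟨wa * wb, by rw [map_mul, map_mul, ha, hb]⟩
  | inv a _ ha =>
    obtain ⟨wa, ha⟩ := ha
    exact ⟨wa⁻¹, by rw [map_inv, map_inv, ha]⟩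

/-- The generator of an idempotent evaluates to the restricted standard swap. -/
theorem eval_gid {i : F.ι} {e : Set S} (hi : F.g i = gid e) :
    F.eval (FreeGroup.of (Sum.inr i)) = restr e (vswap colAB) := by
  have he : IsPB (gid e) := hi ▸ F.g_pb i
  rw [F.eval_inr, ← gswap_gid he]
  congr 1

/-- A word for each generator of the base field of an idempotent generator. -/
noncomputable def baseWord {i : F.ι} {e : Set S} (hi : F.g i = gid e) (j : Fin F.m) : F.Free :=
  (exists_restrict_word (eval_gid hi) (F.vgen j)).choose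

theorem eval_baseWord {i : F.ι} {e : Set S} (hi : F.g i = gid e) (j : Fin F.m) :
    F.eval (baseWord hi j) = restr e (F.vgen j) :=
  (exists_restrict_word (eval_gid hi) (F.vgen j)).choose_spec

/-- The base field of an idempotent generator. -/
theorem ev_baseField {i : F.ι} {e : Set S} (hi : F.g i = gid e) :
    F.Ev fun M => ∀ φ : Vgrp S →* M.P,
      (∀ j, φ (F.vgen j) = M.f (FreeGroup.of (Sum.inl j))) →
      ∃ Ψ : Vgrp S →* M.P, (∀ j, Ψ (F.vgen j) = M.f (baseWord hi j)) ∧
        (∀ v : Vgrp S, ActsOn e v.1 (M.π (Ψ v))) ∧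
        Ψ (vswap colAB) = M.f (FreeGroup.of (Sum.inr i)) ∧
        (∀ v w, φ v * Ψ w * (φ v)⁻¹ = Ψ (v * w * v⁻¹)) ∧ Compat φ Ψ φ := by
  obtain ⟨y, hy⟩ := vgen_surjective (F := F) (vswap colAB)
  refine (((exists_hom (F := F) (restr e) (baseWord hi) (eval_baseWord hi)).and
    (Ev.rel (F := F) (a := FreeGroup.lift (baseWord hi) y)
      (b := FreeGroup.of (Sum.inr i)) ?_)).and
    (ev_normalizes (restr (Set.univ : Set S)) (restr e) fullWord (baseWord hi)
      eval_fullWord (eval_baseWord hi) ?_)).mono ?_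
  · rw [eval_lift_eq _ _ (eval_baseWord hi), hy, eval_gid hi]
  · intro v w
    rw [restr_univ]
    exact restr_conj e v w
  rintro M ⟨⟨⟨Ψ, hΨ, hπ⟩, hrel⟩, hconj⟩ φ hφ
  refine ⟨Ψ, hΨ, fun v => ?_, ?_, hconj φ Ψ hφ hΨ, compat_full (hconj φ Ψ hφ hΨ)⟩
  · rw [hπ]; exact actsOn_restr e v
  · rw [← hy, hom_eq_word M hΨ, hrel]

/-- Compatibility of two fields given by words on the generators of the trivial-coefficient
group, whenever the meet of their sets has some field given by words. -/
theorem ev_compat {e e' : Set S} (w w' wa : Fin F.m → F.Free)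
    (hw : ∀ j, F.eval (w j) = restr e (F.vgen j))
    (hw' : ∀ j, F.eval (w' j) = restr e' (F.vgen j))
    (hwa : ∀ j, F.eval (wa j) = restr (e ∩ e') (F.vgen j)) :
    F.Ev fun M => ∀ φ Ψ Ψ' : Vgrp S →* M.P,
      (∀ j, φ (F.vgen j) = M.f (FreeGroup.of (Sum.inl j))) →
      (∀ j, Ψ (F.vgen j) = M.f (w j)) → (∀ j, Ψ' (F.vgen j) = M.f (w' j)) →
      Compat φ Ψ Ψ' := by
  have hb : ∀ j, F.eval ((wa j)⁻¹ * w j) = restr (e \ (e ∩ e')) (F.vgen j) := fun j => by
    rw [map_mul, map_inv, hwa, hw, restr_sdiff (e := e) (e' := e ∩ e') Set.inter_subset_left,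
      inv_mul_cancel_left]
  have hc : ∀ j, F.eval ((wa j)⁻¹ * w' j) = restr (e' \ (e ∩ e')) (F.vgen j) := fun j => by
    rw [map_mul, map_inv, hwa, hw', restr_sdiff (e := e') (e' := e ∩ e') Set.inter_subset_right,
      inv_mul_cancel_left]
  have heq : ∀ f : Set S, ∀ v u : Vgrp S,
      restr (Set.univ : Set S) v * restr f u * (restr (Set.univ : Set S) v)⁻¹ =
        restr f (v * u * v⁻¹) := fun f v u => by
    rw [restr_univ]; exact restr_conj f v u
  refine (((exists_hom (F := F) (restr (e ∩ e')) wa hwa).and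
    ((ev_normalizes (restr e) (restr (e ∩ e')) w wa hw hwa
      (restr_conj_sub Set.inter_subset_left)).and
    (ev_normalizes (restr e') (restr (e ∩ e')) w' wa hw' hwa
      (restr_conj_sub Set.inter_subset_right)))).and
    (((ev_normalizes (restr (Set.univ : Set S)) (restr (e ∩ e')) fullWord wa
      eval_fullWord hwa (heq _)).and
    ((ev_normalizes (restr (Set.univ : Set S)) (restr e) fullWord w
      eval_fullWord hw (heq _)).and
    (ev_normalizes (restr (Set.univ : Set S)) (restr e') fullWord w'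
      eval_fullWord hw' (heq _)))).and
    (ev_homDisj (restr (e \ (e ∩ e'))) (restr (e' \ (e ∩ e')))
      (fun j => (wa j)⁻¹ * w j) (fun j => (wa j)⁻¹ * w' j) hb hc
      (restr_commute (Set.disjoint_left.2 fun s hs hs' =>
        hs.2 ⟨hs.1, hs'.1⟩))))).mono ?_
  rintro M ⟨⟨⟨a, ha, -⟩, hea, hfa⟩, ⟨hoa, hoe, hof⟩, hbc⟩ φ Ψ Ψ' hφ hΨ hΨ'
  let b := quo Ψ a (hea Ψ a hΨ ha)
  let c := quo Ψ' a (hfa Ψ' a hΨ' ha)
  have dab : Disj a b := quo_disj _
  have dac : Disj a c := quo_disj _
  have dbc : Disj b c := hbc b c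
    (fun j => by rw [map_mul, map_inv, ← ha, ← hΨ]; rfl)
    (fun j => by rw [map_mul, map_inv, ← ha, ← hΨ']; rfl)
  have dabc : Disj (join a b dab) c := fun v u => (dac v u).mul_left (dbc v u)
  let t := join (join a b dab) c dabc
  have oa := hoa φ a hφ ha
  have ob : ∀ v u, φ v * b u * (φ v)⁻¹ = b (v * u * v⁻¹) := fun v u => by
    simp only [b, quo_apply]
    rw [← oa, ← hoe φ Ψ hφ hΨ]
    simp [mul_assoc]
  have oc : ∀ v u, φ v * c u * (φ v)⁻¹ = c (v * u * v⁻¹) := fun v u => by
    simp only [c, quo_apply]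
    rw [← oa, ← hof φ Ψ' hφ hΨ']
    simp [mul_assoc]
  have ot : ∀ v u, φ v * t u * (φ v)⁻¹ = t (v * u * v⁻¹) := fun v u => by
    simp only [t, join_apply]
    rw [← oa, ← ob, ← oc]
    simp [mul_assoc]
  let o := quo φ t ot
  have inner : ∀ (h : Vgrp S →* M.P), (∀ v u, φ v * h u * (φ v)⁻¹ = h (v * u * v⁻¹)) →
      (∀ v u, t v * h u * (t v)⁻¹ = h (v * u * v⁻¹)) → Disj h o := by
    intro h h1 h2 v u
    show h v * ((t u)⁻¹ * φ u) = (t u)⁻¹ * φ u * h v
    have e1 := (h1 u v).trans (h2 u v).symm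
    calc h v * ((t u)⁻¹ * φ u) = (t u)⁻¹ * (t u * h v * (t u)⁻¹) * φ u := by simp [mul_assoc]
      _ = (t u)⁻¹ * φ u * h v := by rw [← e1]; simp [mul_assoc]
  refine ⟨{ a := a, b := b, c := c, o := o, ab := dab, ac := dac, bc := dbc
            ao := inner a oa ?_
            bo := inner b ob ?_
            co := inner c oc ?_
            he := mul_quo Ψ a _
            hf := mul_quo Ψ' a _
            hone := fun v => mul_quo φ t ot v }⟩
  · intro v u
    show a v * b v * c v * a u * (a v * b v * c v)⁻¹ = a (v * u * v⁻¹)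
    have k1 : Commute (b v * c v) (a u) := ((dab u v).symm).mul_left (dac u v).symm
    calc a v * b v * c v * a u * (a v * b v * c v)⁻¹
        = a v * ((b v * c v) * a u) * (a v * b v * c v)⁻¹ := by simp [mul_assoc]
      _ = a (v * u * v⁻¹) := by rw [k1.eq]; simp [mul_assoc]
  · intro v u
    show a v * b v * c v * b u * (a v * b v * c v)⁻¹ = b (v * u * v⁻¹)
    calc a v * b v * c v * b u * (a v * b v * c v)⁻¹
        = a v * (b v * (c v * b u) * (b v * c v)⁻¹) * (a v)⁻¹ := by simp [mul_assoc]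
      _ = a v * b (v * u * v⁻¹) * (a v)⁻¹ := by rw [← (dbc u v).eq]; simp [mul_assoc]
      _ = b (v * u * v⁻¹) := by rw [(dab v _).eq, mul_inv_cancel_right]
  · intro v u
    show a v * b v * c v * c u * (a v * b v * c v)⁻¹ = c (v * u * v⁻¹)
    calc a v * b v * c v * c u * (a v * b v * c v)⁻¹
        = (a v * b v) * c (v * u * v⁻¹) * (a v * b v)⁻¹ := by simp [mul_assoc]
      _ = c (v * u * v⁻¹) := by
          rw [((dac v _).mul_left (dbc v _)).eq, mul_inv_cancel_right]

/-- Words for the meet of two sets whose standard swaps are realised by words. -/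
theorem exists_meet_word {e e' : Set S} (w w' : Fin F.m → F.Free)
    (hw : ∀ j, F.eval (w j) = restr e (F.vgen j))
    (hw' : ∀ j, F.eval (w' j) = restr e' (F.vgen j))
    (hp : commutator (Vgrp S) = ⊤) (v : Vgrp S) :
    ∃ x : F.Free, F.eval x = restr (e ∩ e') v := by
  have hv : v ∈ commutator (Vgrp S) := hp ▸ Subgroup.mem_top v
  rw [commutator_eq_closure] at hv
  induction hv using Subgroup.closure_induction with
  | mem x hx =>
    obtain ⟨p, q, rfl⟩ := hx
    obtain ⟨yp, rfl⟩ := vgen_surjective (F := F) p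
    obtain ⟨yq, rfl⟩ := vgen_surjective (F := F) q
    refine ⟨⁅FreeGroup.lift w yp, FreeGroup.lift w' yq⁆, ?_⟩
    rw [map_commutatorElement, eval_lift_eq _ _ hw, eval_lift_eq _ _ hw', restr_commutator]
  | one => exact ⟨1, by simp⟩
  | mul a b _ _ ha hb =>
    obtain ⟨wa, ha⟩ := ha
    obtain ⟨wb, hb⟩ := hb
    exact ⟨wa * wb, by rw [map_mul, map_mul, ha, hb]⟩
  | inv a _ ha =>
    obtain ⟨wa, ha⟩ := ha
    exact ⟨wa⁻¹, by rw [map_inv, map_inv, ha]⟩

/-- Two fields given by words are eventually compatible with each other. -/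
theorem ev_compat_fields {e e' : Set S} (w w' : Fin F.m → F.Free)
    (hw : ∀ j, F.eval (w j) = restr e (F.vgen j))
    (hw' : ∀ j, F.eval (w' j) = restr e' (F.vgen j))
    (hp : commutator (Vgrp S) = ⊤) :
    F.Ev fun M => ∀ φ Ψ Ψ' : Vgrp S →* M.P,
      (∀ j, φ (F.vgen j) = M.f (FreeGroup.of (Sum.inl j))) →
      (∀ j, Ψ (F.vgen j) = M.f (w j)) → (∀ j, Ψ' (F.vgen j) = M.f (w' j)) →
      Compat φ Ψ Ψ' :=
  ev_compat w w' (fun j => (exists_meet_word w w' hw hw' hp (F.vgen j)).choose) hw hw'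
    fun j => (exists_meet_word w w' hw hw' hp (F.vgen j)).choose_spec

/-- The base fields of two idempotent generators are eventually compatible. -/
theorem ev_compat_base {i i' : F.ι} {e e' : Set S} (hi : F.g i = gid e) (hi' : F.g i' = gid e')
    (hp : commutator (Vgrp S) = ⊤) :
    F.Ev fun M => ∀ φ Ψ Ψ' : Vgrp S →* M.P,
      (∀ j, φ (F.vgen j) = M.f (FreeGroup.of (Sum.inl j))) →
      (∀ j, Ψ (F.vgen j) = M.f (baseWord hi j)) →
      (∀ j, Ψ' (F.vgen j) = M.f (baseWord hi' j)) → Compat φ Ψ Ψ' :=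
  ev_compat_fields _ _ (eval_baseWord hi) (eval_baseWord hi') hp

end Frame

end Vale.Agent.P193.Calc
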