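import Vale.Agent.P193.Full.Calc.Meet

/-! Pairwise compatible fields generate a Boolean algebra of fields. -/

namespace Vale.Agent.P193.Calc

open scoped commutatorElement

variable {W K : Type} [Group W] [Group K]

/-- Exchange the two fields. -/
def Atoms.flip {one e f : W →* K} (t : Atoms one e f) : Atoms one f e where
  a := t.a
  b := t.c
  c := t.b
  o := t.o
  ab := t.ac
  ac := t.ab
  ao := t.ao
  bc := t.bc.symm
  bo := t.co
  co := t.bo
  he := t.hf
  hf := t.he
  hone v := by rw [t.hone, mul_assoc (t.a v) (t.b v), (t.bc v v).eq, ← mul_assoc]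

/-- The complement of the second field. -/
def Atoms.cofield {one e f : W →* K} (t : Atoms one e f) : W →* K := join t.b t.o t.bo

/-- Replace the second field by its complement. -/
def Atoms.coflip {one e f : W →* K} (t : Atoms one e f) : Atoms one e t.cofield where
  a := t.b
  b := t.a
  c := t.o
  o := t.c
  ab := t.ab.symm
  ac := t.bo
  ao := t.bc
  bc := t.ao
  bo := t.ac
  co := t.co.symm
  he v := by rw [t.he, (t.ab v v).eq]
  hf _ := rfl
  hone v := by
    rw [t.hone, (t.ab v v).eq, mul_assoc (t.b v * t.a v), (t.co v v).eq, ← mul_assoc]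

theorem cofield_unique {one e e' f : W →* K} (t : Atoms one e f) (t' : Atoms one e' f) :
    t.cofield = t'.cofield := by
  ext v
  show t.b v * t.o v = t'.b v * t'.o v
  rw [t.outside, t'.outside]

theorem atoms_a_unique (hp : commutator W = ⊤) {one one' e f : W →* K} (t : Atoms one e f)
    (t' : Atoms one' e f) : t.a = t'.a :=
  hom_ext_commutators hp fun v w => by rw [t.a_comm, t'.a_comm]

theorem Compat.symm {one e f : W →* K} (h : Compat one e f) : Compat one f e :=
  h.elim fun t => ⟨t.flip⟩

/-- Closure of a set of fields under meets and differences. -/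
inductive Gen (one : W →* K) (A : Set (W →* K)) : (W →* K) → Prop
  | base {h} : h ∈ A → Gen one A h
  | meet {e f} (t : Atoms one e f) : Gen one A e → Gen one A f → Gen one A t.a
  | diff {e f} (t : Atoms one e f) : Gen one A e → Gen one A f → Gen one A t.b

variable (hc : CentralSplit W) (hp : commutator W = ⊤) (hav : Avoids W)

include hc hp hav in
/-- The meet and the difference stay compatible with a third field. -/
theorem meet_diff_compat {one e f g : W →* K} (hf1 : Compat one f one) (he1 : Compat one e one)
    (t : Atoms one e f) (heg : Compat one e g) (hfg : Compat one f g) :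
    Compat one t.a g ∧ Compat one t.b g := by
  obtain ⟨teg⟩ := heg
  obtain ⟨tfg⟩ := hfg
  obtain ⟨tf1⟩ := hf1
  refine ⟨meet_compat hc hp hav he1 ⟨tf1⟩ t t.flip teg tfg, ?_⟩
  have e1 : tfg.flip.coflip.flip = tfg.flip.coflip.flip := rfl
  have cg : Compat one t.cofield g := by
    have h := tfg.flip.coflip.flip
    rw [cofield_unique tfg.flip t] at h
    exact ⟨h⟩
  have c1 : Compat one t.cofield one := by
    have h := tf1.flip.coflip.flip
    rw [cofield_unique tf1.flip t] at h
    exact ⟨h⟩
  obtain ⟨tcg⟩ := cg
  exact meet_compat hc hp hav he1 c1 t.coflip t.coflip.flip teg tcg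

include hc hp hav in
/-- All generated fields are pairwise compatible. -/
theorem gen_compat {one : W →* K} {A : Set (W →* K)} (h1 : one ∈ A)
    (hA : ∀ h ∈ A, ∀ k ∈ A, Compat one h k) {h k : W →* K} (hh : Gen one A h) (hk : Gen one A k) :
    Compat one h k := by
  induction hh generalizing k with
  | base hm =>
    induction hk with
    | base km => exact hA _ hm _ km
    | meet t he hf ihe ihf =>
      refine (meet_diff_compat hc hp hav ?_ ?_ t ihe.symm ihf.symm).1.symm
      all_goals
        first
          | exact (gen_base hc hp hav h1 hA hf).symm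
          | exact (gen_base hc hp hav h1 hA he).symm
    | diff t he hf ihe ihf =>
      refine (meet_diff_compat hc hp hav ?_ ?_ t ihe.symm ihf.symm).2.symm
      all_goals
        first
          | exact (gen_base hc hp hav h1 hA hf).symm
          | exact (gen_base hc hp hav h1 hA he).symm
  | meet t he hf ihe ihf =>
    exact (meet_diff_compat hc hp hav (ihf (.base h1)) (ihe (.base h1)) t (ihe hk) (ihf hk)).1
  | diff t he hf ihe ihf =>
    exact (meet_diff_compat hc hp hav (ihf (.base h1)) (ihe (.base h1)) t (ihe hk) (ihf hk)).2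
where
  gen_base {one : W →* K} {A : Set (W →* K)} (hc : CentralSplit W) (hp : commutator W = ⊤)
      (hav : Avoids W) (h1 : one ∈ A) (hA : ∀ h ∈ A, ∀ k ∈ A, Compat one h k) {k : W →* K}
      (hk : Gen one A k) : Compat one one k := by
    induction hk with
    | base km => exact hA _ h1 _ km
    | meet t _ _ ihe ihf => exact (meet_diff_compat hc hp hav ihf.symm ihe.symm t ihe.symm ihf.symm).1.symm
    | diff t _ _ ihe ihf => exact (meet_diff_compat hc hp hav ihf.symm ihe.symm t ihe.symm ihf.symm).2.symm

include hp hav in
/-- Meets are associative. -/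
theorem meet_assoc {one e f g : W →* K} (he1 : Compat one e one) (hg1 : Compat one g one)
    (tef : Atoms one e f) (tfg : Atoms one f g) (teg : Atoms one e g)
    (l : Atoms one tef.a g) (r : Atoms one e tfg.a) : l.a = r.a := by
  refine hom_ext_commutators hp fun v w => ?_
  rw [l.a_comm, r.a_comm, tef.he v, tfg.hf w]
  have c2 : Disj tef.a tfg.c := by
    intro x y
    have h : Disj tef.a tfg.flip.b := cross hav tef tfg.flip teg he1
    exact h x y
  have c1 : Disj tef.b tfg.a := by
    intro x y
    have h : Disj tfg.flip.a tef.b := cross hav tfg.flip tef teg.flip hg1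
    exact (h y x).symm
  have d1 : tfg.a w * tfg.c w = tfg.c w * tfg.a w := (tfg.ac w w).eq
  simp only [commutatorElement_def, mul_inv_rev]
  calc tef.a v * (tfg.a w * tfg.c w) * (tef.a v)⁻¹ * ((tfg.c w)⁻¹ * (tfg.a w)⁻¹)
      = tef.a v * tfg.a w * (tfg.c w * (tef.a v)⁻¹ * (tfg.c w)⁻¹) * (tfg.a w)⁻¹ := by group
    _ = tef.a v * tfg.a w * (tef.a v)⁻¹ * (tfg.a w)⁻¹ := by
        rw [← ((c2 v w).inv_left).eq]; group
    _ = tef.a v * (tef.b v * tfg.a w * (tef.b v)⁻¹) * (tef.a v)⁻¹ * (tfg.a w)⁻¹ := by
        rw [(c1 v w).eq]; group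
    _ = _ := by group

end Vale.Agent.P193.Calc
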