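import Vale.Agent.P193.Full.Calc.Order

/-! Arguments supported in separate cones with room are far apart: the independence relation of
the trivial-coefficient group. -/

namespace Vale.Agent.P193.Calc

open scoped commutatorElement
open Classical

variable {S : Type}

theorem apart_cc {c d : Bool} (h : c ≠ d) (v w u : List Bool) :
    Apart (u ++ c :: v) (u ++ d :: w) := by
  constructor <;> intro e <;> rw [List.prefix_append_right_inj, List.cons_prefix_cons] at e
  · exact h e.1
  · exact h e.1.symm

theorem colAC : Apart colA colC := apart_heads (by decide) _ _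

/-- An element supported in a cone, seen as a map of the cone, moves to another cone. -/
theorem InCone.conj {u w : List Bool} {k v : Vgrp S} (hI : InCone u v) (hk : MapsCone u w k) :
    InCone w (k * v * k⁻¹) := by
  intro y hy
  have h1 : ¬ ∃ x, ((k⁻¹ : Vgrp S) : Equiv.Perm (Sp S)) y = (hv S).pre u x := by
    rintro ⟨x, hx⟩
    exact hy ⟨x, by rw [← hk x, ← hx, vgrp_inv_apply]⟩
  show (k.1 * v.1 * ((k⁻¹ : Vgrp S) : Equiv.Perm (Sp S))) y = y
  rw [Equiv.Perm.mul_apply, Equiv.Perm.mul_apply, hI _ h1, vgrp_inv_apply]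

theorem inCone_vswap {p q u : List Bool} (h : Apart p q) (hp : u <+: p) (hq : u <+: q) :
    InCone u (vswap (S := S) h) := by
  intro y hy
  refine vswap_fix h (fun x e => ?_) fun x e => ?_
  · obtain ⟨r, rfl⟩ := hp
    exact hy ⟨(hv S).pre r x, by rw [e, pre_append]⟩
  · obtain ⟨r, rfl⟩ := hq
    exact hy ⟨(hv S).pre r x, by rw [e, pre_append]⟩

/-- Elements in apart cones commute. -/
theorem inCone_commute {p q : List Bool} (h : Apart p q) {x y : Vgrp S} (hx : InCone p x)
    (hy : InCone q y) : Commute x y := by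
  refine Subtype.ext (Equiv.Perm.Disjoint.commute fun z => ?_).eq
  by_cases hz : ∃ w, z = (hv S).pre p w
  · obtain ⟨w, rfl⟩ := hz
    exact Or.inr (hy _ fun ⟨_, e⟩ => h.incomp _ _ e)
  · exact Or.inl (hx _ hz)

/-- Far apart: carried by one element into two separate cones with room. -/
def Far (x y : Vgrp S) : Prop :=
  ∃ k : Vgrp S, InCone colA (k * x * k⁻¹) ∧ InCone colC (k * y * k⁻¹)

theorem Far.conj {x y : Vgrp S} (h : Far x y) (l : Vgrp S) :
    Far (l * x * l⁻¹) (l * y * l⁻¹) := by
  obtain ⟨k, h1, h2⟩ := h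
  refine ⟨k * l⁻¹, ?_, ?_⟩
  · simpa [mul_assoc] using h1
  · simpa [mul_assoc] using h2

theorem Far.symm {x y : Vgrp S} (h : Far x y) : Far y x := by
  obtain ⟨k, h1, h2⟩ := h
  refine ⟨vswap colAC * k, ?_, ?_⟩
  · have := h2.conj (w := colA) (k := vswap colAC) fun z => vswap_bwd colAC z
    simpa [mul_assoc] using this
  · have := h1.conj (w := colC) (k := vswap colAC) fun z => vswap_fwd colAC z
    simpa [mul_assoc] using this

theorem Far.commute {x y : Vgrp S} (h : Far x y) : Commute x y := by
  obtain ⟨k, h1, h2⟩ := h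
  have := (inCone_commute colAC h1 h2).map (MulAut.conj k⁻¹).toMonoidHom
  simpa [mul_assoc] using this

theorem inCone_far {x y : Vgrp S} (hx : InCone colA x) (hy : InCone colC y) : Far x y :=
  ⟨1, by simpa using hx, by simpa using hy⟩

/-- Two swaps with one leg moved are conjugate. -/
theorem vswap_conjugate {p q r : List Bool} (hpq : Apart p q) (hpr : Apart p r) (hrq : Apart r q) :
    ∃ k : Vgrp S, vswap hrq = k * vswap hpq * k⁻¹ :=
  ⟨vswap hpr, vswap_move hpq hpr hrq⟩

/-- A subgroup with all conjugates of one small swap inside its coset contains the standard one. -/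
theorem conjGen_le_of_small {N : Subgroup (Vgrp S)} (hN : ∀ k, ∀ g ∈ N, k * g * k⁻¹ ∈ N)
    (ha : ∀ k : Vgrp S, vswap (S := S) (apart_cc (c := false) (d := true) (by decide) [] [] colA) *
      (k * vswap (apart_cc (c := false) (d := true) (by decide) [] [] colA) * k⁻¹) ∈ N) :
    N = ⊤ := by
  let a0 := apart_cc (c := false) (d := true) (by decide) [] [] colA
  let a : Vgrp S := vswap a0
  have b0 : Apart (colB ++ [false]) (colA ++ [false]) := colAB.symm.append _ _
  have b1 : Apart (colA ++ [true]) (colB ++ [true]) := colAB.append _ _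
  -- moves from the small swap to the two halves of the standard one
  obtain ⟨k0, hk0⟩ : ∃ k : Vgrp S, vswap b0 = k * a * k⁻¹ := by
    obtain ⟨k, hk⟩ := vswap_conjugate (S := S) a0.symm (colAB.append [true] [false]) b0
    exact ⟨k, by rw [hk, vswap_symm]⟩
  obtain ⟨k1, hk1⟩ : ∃ k : Vgrp S, vswap b1 = k * a * k⁻¹ := by
    obtain ⟨k, hk⟩ := vswap_conjugate (S := S) a0 (colAB.append [false] [true]) b1.symm
    exact ⟨k, by rw [← vswap_symm b1, hk]⟩
  have h0 : k0 * a * k0⁻¹ * (k1 * a * k1⁻¹) ∈ N := by
    have e0 := hN (k0 * a * k0⁻¹) _ (ha k0)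
    have e1 := ha k1
    have e2 : a * a = 1 := by
      have := inv_mul_cancel a
      rwa [show a⁻¹ = a from vswap_inv a0] at this
    have := mul_mem e0 e1
    have e3 : k0 * a * k0⁻¹ * (a * (k0 * a * k0⁻¹)) * (k0 * a * k0⁻¹)⁻¹ * (a * (k1 * a * k1⁻¹)) =
        k0 * a * k0⁻¹ * (a * a) * (k1 * a * k1⁻¹) := by simp only [mul_assoc, mul_inv_rev, inv_inv,
          mul_inv_cancel_left, inv_mul_cancel_left]
    rw [e3, e2, mul_one] at this
    exact this
  rw [← hk0, ← hk1, vswap_symm (colAB.append [false] [false]), ← vswap_split colAB] at h0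
  rw [eq_top_iff, ← vswap_conj_generate (S := S), conjGen, Subgroup.closure_le]
  rintro _ ⟨k, rfl⟩
  exact hN k _ h0

/-- The commutators with first entry in a cone generate. -/
theorem closure_comm_inCone :
    Subgroup.closure {x : Vgrp S | ∃ a b : Vgrp S, x = ⁅a, b⁆ ∧ InCone colA a} = ⊤ := by
  refine conjGen_le_of_small ?_ fun k => ?_
  · intro k g hg
    induction hg using Subgroup.closure_induction with
    | mem x hx =>
      obtain ⟨a, b, rfl, ha⟩ := hx
      have e : k * ⁅a, b⁆ * k⁻¹ = ⁅a, k⁆⁻¹ * ⁅a, k * b⁆ := by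
        simp only [commutatorElement_def]; group
      rw [e]
      exact mul_mem (inv_mem (Subgroup.subset_closure ⟨a, k, rfl, ha⟩))
        (Subgroup.subset_closure ⟨a, k * b, rfl, ha⟩)
    | one => simp
    | mul a b _ _ ha hb => simpa [mul_assoc] using mul_mem ha hb
    | inv a _ ha => simpa [mul_assoc] using inv_mem ha
  · set a0 := apart_cc (c := false) (d := true) (by decide) [] [] colA
    have hin : InCone colA (vswap (S := S) a0) :=
      inCone_vswap a0 (List.prefix_append _ _) (List.prefix_append _ _)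
    refine Subgroup.subset_closure ⟨vswap a0, k, ?_, hin⟩
    rw [commutatorElement_def, vswap_inv]
    simp [mul_assoc]

theorem far_gen : Subgroup.closure
    {y : Vgrp S | Subgroup.closure {x : Vgrp S | ∃ a b, x = ⁅a, b⁆ ∧ Far a y} = ⊤} = ⊤ := by
  let G : Set (Vgrp S) :=
    {y | Subgroup.closure {x : Vgrp S | ∃ a b, x = ⁅a, b⁆ ∧ Far a y} = ⊤}
  show Subgroup.closure G = ⊤
  have conjG : ∀ k y, y ∈ G → k * y * k⁻¹ ∈ G := by
    intro k y hy
    refine eq_top_iff.2 fun g _ => ?_
    have hg : k⁻¹ * g * k ∈ Subgroup.closure {x : Vgrp S | ∃ a b, x = ⁅a, b⁆ ∧ Far a y} :=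
      (hy : _ = ⊤) ▸ Subgroup.mem_top _
    have := Subgroup.mem_map_of_mem (MulAut.conj k).toMonoidHom hg
    rw [MonoidHom.map_closure] at this
    have e : (MulAut.conj k).toMonoidHom (k⁻¹ * g * k) = g := by simp [mul_assoc]
    rw [e] at this
    refine Subgroup.closure_mono ?_ this
    rintro _ ⟨_, ⟨a, b, rfl, hab⟩, rfl⟩
    exact ⟨k * a * k⁻¹, k * b * k⁻¹, map_commutatorElement _ a b, hab.conj k⟩
  set a0 := apart_cc (c := false) (d := true) (by decide) [] [] colA
  have hin : InCone colA (vswap (S := S) a0) :=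
    inCone_vswap a0 (List.prefix_append _ _) (List.prefix_append _ _)
  have ha : vswap (S := S) a0 ∈ G := by
    refine eq_top_iff.2 ?_
    have hc : InCone colC (vswap colAC * vswap (S := S) a0 * (vswap colAC)⁻¹) :=
      hin.conj fun z => vswap_fwd colAC z
    intro g _
    have := conjG (vswap colAC)⁻¹ (vswap colAC * vswap (S := S) a0 * (vswap colAC)⁻¹) (by
      refine eq_top_iff.2 ?_
      rw [← closure_comm_inCone (S := S)]
      refine Subgroup.closure_mono ?_
      rintro _ ⟨a, b, rfl, hab⟩
      exact ⟨a, b, rfl, inCone_far hab hc⟩)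
    rw [show (vswap colAC : Vgrp S)⁻¹ * (vswap colAC * vswap (S := S) a0 * (vswap colAC)⁻¹) *
      (vswap colAC : Vgrp S)⁻¹⁻¹ = vswap a0 by simp [mul_assoc]] at this
    exact (this : _ = ⊤) ▸ Subgroup.mem_top g
  refine conjGen_le_of_small (fun k g hg => ?_) fun k =>
    mul_mem (Subgroup.subset_closure ha) (Subgroup.subset_closure (conjG k _ ha))
  induction hg using Subgroup.closure_induction with
  | mem x hx => exact Subgroup.subset_closure (conjG k x hx)
  | one => simp
  | mul a b _ _ ha hb => simpa [mul_assoc] using mul_mem ha hb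
  | inv a _ ha => simpa [mul_assoc] using inv_mem ha

variable (S) in
/-- The independence relation of the trivial-coefficient group. -/
def farRel : FarRel (Vgrp S) where
  far := Far
  symm := Far.symm
  comm := Far.commute
  gen := far_gen

end Vale.Agent.P193.Calc
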