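import Mathlib.GroupTheory.Abelianization.Defs
import Mathlib.GroupTheory.Commutator.Basic
import Mathlib.GroupTheory.Subgroup.Center
import Mathlib.GroupTheory.Subgroup.Simple
import Mathlib.Tactic.Group

/-! Idempotent fields as homomorphisms from a group without perfect central extensions:
pairwise compatible fields generate a Boolean algebra of fields. -/

namespace Vale.Agent.P193.Calc

open scoped commutatorElement

variable {W K : Type*} [Group W] [Group K]

/-- Every perfect central extension of `W` is trivial. -/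
def CentralSplit (W : Type*) [Group W] : Prop :=
  ∀ (E : Type) [Group E] (π : E →* W), Function.Surjective π → π.ker ≤ Subgroup.center E →
    commutator E = ⊤ → Function.Injective π

/-- Commutators with a first entry centralising a given pair generate. -/
def Avoids (W : Type*) [Group W] : Prop :=
  Subgroup.closure {y : W | ∃ y₁ y₂, y = ⁅y₁, y₂⁆ ∧
    Subgroup.closure {x : W | ∃ x₁ x₂, x = ⁅x₁, x₂⁆ ∧ Commute x₁ y₁ ∧ Commute x₁ y₂} = ⊤} = ⊤

/-- Two fields with commuting images. -/
def Disj (h k : W →* K) : Prop := ∀ v w, Commute (h v) (k w)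

theorem Disj.symm {h k : W →* K} (d : Disj h k) : Disj k h := fun v w => (d w v).symm

/-- The join of two disjoint fields. -/
def join (h k : W →* K) (d : Disj h k) : W →* K where
  toFun v := h v * k v
  map_one' := by simp
  map_mul' v w := by simp only [map_mul]; exact (d w v).mul_mul_mul_comm _ _

@[simp] theorem join_apply (h k : W →* K) (d : Disj h k) (v : W) : join h k d v = h v * k v := rfl

/-- Four pairwise disjoint fields cut out by two fields inside a full one. -/
structure Atoms (one e f : W →* K) where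
  a : W →* K
  b : W →* K
  c : W →* K
  o : W →* K
  ab : Disj a b
  ac : Disj a c
  ao : Disj a o
  bc : Disj b c
  bo : Disj b o
  co : Disj c o
  he : ∀ v, e v = a v * b v
  hf : ∀ v, f v = a v * c v
  hone : ∀ v, one v = a v * b v * c v * o v

/-- Two fields generate a Boolean algebra of fields. -/
def Compat (one e f : W →* K) : Prop := Nonempty (Atoms one e f)

theorem hom_ext_commutators (hW : commutator W = ⊤) {h k : W →* K}
    (e : ∀ v w : W, h ⁅v, w⁆ = k ⁅v, w⁆) : h = k := by
  refine MonoidHom.eq_of_eqOn_top fun x hx => ?_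
  rw [← hW, commutator_eq_closure] at hx
  exact MonoidHom.eqOn_closure (by rintro _ ⟨v, w, rfl⟩; exact e v w) hx

theorem Atoms.a_comm {one e f : W →* K} (t : Atoms one e f) (v w : W) :
    t.a ⁅v, w⁆ = ⁅e v, f w⁆ := by
  rw [map_commutatorElement, t.he, t.hf]
  simp only [commutatorElement_def, mul_inv_rev]
  symm
  calc t.a v * t.b v * (t.a w * t.c w) * ((t.b v)⁻¹ * (t.a v)⁻¹) * ((t.c w)⁻¹ * (t.a w)⁻¹)
      = t.a v * (t.b v * t.a w) * t.c w * (t.b v)⁻¹ * (t.a v)⁻¹ * (t.c w)⁻¹ * (t.a w)⁻¹ := by
        group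
    _ = t.a v * t.a w * (t.b v * t.c w * (t.b v)⁻¹) * (t.a v)⁻¹ * (t.c w)⁻¹ * (t.a w)⁻¹ := by
        rw [← (t.ab w v).eq]; group
    _ = t.a v * t.a w * (t.c w * (t.a v)⁻¹ * (t.c w)⁻¹) * (t.a w)⁻¹ := by
        rw [(t.bc v w).eq]; group
    _ = _ := by
        rw [← ((t.ac v w).inv_left).eq]; group

/-- Fields of commuting elements commute. -/
theorem Atoms.commute {one e f : W →* K} (t : Atoms one e f) {v w : W} (h : Commute v w) :
    Commute (e v) (f w) := by
  rw [t.he, t.hf]
  exact ((show Commute (t.a v) (t.a w) by rw [commute_iff_eq, ← map_mul, h.eq, map_mul]).mul_right (t.ac v w)).mul_left ((t.ab w v).symm.mul_right (t.bc v w))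

/-- The join of the two fields outside `f`, as a function of one and `f`. -/
theorem Atoms.outside {one e f : W →* K} (t : Atoms one e f) (v : W) :
    t.b v * t.o v = (f v)⁻¹ * one v := by
  rw [t.hone, t.hf]
  simp only [mul_inv_rev, mul_assoc, inv_mul_cancel_left]
  rw [← mul_assoc (t.b v) (t.c v), (t.bc v v).eq, mul_assoc, inv_mul_cancel_left]

/-- Lift a relation with central ambiguity to a homomorphism. -/
theorem exists_lift {W K : Type} [Group W] [Group K] (hc : CentralSplit W)
    (hp : commutator W = ⊤) (S : Subgroup (W × K)) (hsurj : ∀ v, ∃ x, (v, x) ∈ S)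
    (hker : ∀ x, (1, x) ∈ S → ∀ q ∈ S, Commute x q.2) :
    ∃ s : W →* K, ∀ v, (v, s v) ∈ S := by
  let π : S →* W := (MonoidHom.fst W K).comp S.subtype
  have πsurj : Function.Surjective π := fun v =>
    let ⟨x, hx⟩ := hsurj v
    ⟨⟨(v, x), hx⟩, rfl⟩
  have πker : π.ker ≤ Subgroup.center S := by
    intro q hq
    rw [Subgroup.mem_center_iff]
    intro r
    obtain ⟨⟨q1, q2⟩, hq'⟩ := q
    change q1 = 1 at hq
    subst hq
    apply Subtype.ext
    exact Prod.ext (by simp) (hker q2 hq' r.1 r.2).symm.eq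
  let D : Subgroup S := commutator S
  let ρ : D →* W := π.comp D.subtype
  have dmap : D.map π = ⊤ := by
    show (commutator S).map π = ⊤
    rw [commutator_def, Subgroup.map_commutator, Subgroup.map_top_of_surjective π πsurj,
      ← commutator_def, hp]
  have ρsurj : Function.Surjective ρ := fun v => by
    have : v ∈ D.map π := dmap ▸ Subgroup.mem_top v
    obtain ⟨x, hx, rfl⟩ := this
    exact ⟨⟨x, hx⟩, rfl⟩
  have ρker : ρ.ker ≤ Subgroup.center D := by
    intro q hq
    rw [Subgroup.mem_center_iff]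
    intro r
    have := Subgroup.mem_center_iff.1 (πker (show q.1 ∈ π.ker from hq)) r.1
    exact Subtype.ext this
  have split : ∀ x : S, ∃ y ∈ D, ∃ z ∈ Subgroup.center S, x = y * z := fun x => by
    obtain ⟨y, hy⟩ := ρsurj (π x)
    refine ⟨y.1, y.2, y.1⁻¹ * x, πker ?_, by group⟩
    show π (y.1⁻¹ * x) = 1
    rw [map_mul, map_inv, show π y.1 = π x from hy, inv_mul_cancel]
  have dperf : commutator D = ⊤ := by
    rw [eq_top_iff]
    intro q _
    have hle : D ≤ (commutator D).map D.subtype := by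
      show commutator S ≤ _
      rw [commutator_def, Subgroup.commutator_le]
      intro x _ y _
      obtain ⟨x', hx', z, hz, rfl⟩ := split x
      obtain ⟨y', hy', w, hw, rfl⟩ := split y
      have e : ⁅x' * z, y' * w⁆ = ⁅x', y'⁆ := by
        have hz' := Subgroup.mem_center_iff.1 hz
        have hw' := Subgroup.mem_center_iff.1 hw
        simp only [commutatorElement_def, mul_inv_rev]
        calc x' * z * (y' * w) * (z⁻¹ * x'⁻¹) * (w⁻¹ * y'⁻¹)
            = x' * (z * (y' * w) * z⁻¹) * x'⁻¹ * w⁻¹ * y'⁻¹ := by group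
          _ = x' * y' * (w * x'⁻¹ * w⁻¹) * y'⁻¹ := by rw [← hz' (y' * w)]; group
          _ = _ := by rw [← hw' x'⁻¹]; group
      rw [e]
      refine ⟨⁅(⟨x', hx'⟩ : D), (⟨y', hy'⟩ : D)⁆, ?_, rfl⟩
      rw [commutator_def]
      exact Subgroup.commutator_mem_commutator (Subgroup.mem_top _) (Subgroup.mem_top _)
    obtain ⟨r, hr, e⟩ := hle q.2
    rwa [← Subtype.ext e]
  have ρinj : Function.Injective ρ := hc D ρ ρsurj ρker dperf
  let e := MulEquiv.ofBijective ρ ⟨ρinj, ρsurj⟩
  refine ⟨((MonoidHom.snd W K).comp S.subtype).comp (D.subtype.comp e.symm.toMonoidHom), fun v => ?_⟩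
  have h1 : ρ (e.symm v) = v := e.apply_symm_apply v
  have h2 : (v, ((e.symm v).1.1).2) = (e.symm v).1.1 := Prod.ext h1.symm rfl
  change (v, ((e.symm v).1.1).2) ∈ S
  rw [h2]
  exact (e.symm v).1.2

/-- The part of `e` in `g` commutes with the part of `f` outside `g`. -/
theorem cross (hav : Avoids W) {one e f g : W →* K} (teg : Atoms one e g) (tfg : Atoms one f g)
    (tef : Atoms one e f) (hone : Compat one e one) : Disj teg.a tfg.b := by
  obtain ⟨te1⟩ := hone
  intro x y
  have key : ∀ y ∈ {y : W | ∃ y₁ y₂, y = ⁅y₁, y₂⁆ ∧ Subgroup.closure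
      {x : W | ∃ x₁ x₂, x = ⁅x₁, x₂⁆ ∧ Commute x₁ y₁ ∧ Commute x₁ y₂} = ⊤},
      ∀ x, Commute (teg.a x) (tfg.b y) := by
    rintro _ ⟨y₁, y₂, rfl, hcl⟩ x
    have hx : x ∈ Subgroup.closure {x : W | ∃ x₁ x₂, x = ⁅x₁, x₂⁆ ∧
        Commute x₁ y₁ ∧ Commute x₁ y₂} := hcl ▸ Subgroup.mem_top x
    induction hx using Subgroup.closure_induction with
    | mem x hx =>
      obtain ⟨x₁, x₂, rfl, h1, h2⟩ := hx
      rw [teg.a_comm]
      have hg : Commute (g x₂) (tfg.b ⁅y₁, y₂⁆) := by
        rw [tfg.hf]
        exact (tfg.ab x₂ _).mul_left (tfg.bc _ x₂).symm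
      have hb : tfg.b ⁅y₁, y₂⁆ = ⁅f y₁, (g y₂)⁻¹ * one y₂⁆ := by
        rw [← tfg.outside]
        let t' : Atoms one f (join tfg.b tfg.o tfg.bo) :=
          { a := tfg.b, b := tfg.a, c := tfg.o, o := tfg.c
            ab := tfg.ab.symm, ac := tfg.bo, ao := tfg.bc, bc := tfg.ao, bo := tfg.ac
            co := tfg.co.symm
            he := fun v => by rw [tfg.he, (tfg.ab v v).eq]
            hf := fun v => rfl
            hone := fun v => by
              rw [tfg.hone, (tfg.ab v v).eq, mul_assoc (tfg.b v * tfg.a v), (tfg.co v v).eq,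
                ← mul_assoc] }
        exact t'.a_comm y₁ y₂
      have he : Commute (e x₁) (tfg.b ⁅y₁, y₂⁆) := by
        rw [hb, commutatorElement_def]
        have c1 := tef.commute h1
        have c2 := ((teg.commute h2).inv_right).mul_right (te1.commute h2)
        exact ((c1.mul_right c2).mul_right c1.inv_right).mul_right c2.inv_right
      rw [commutatorElement_def]
      exact ((he.mul_left hg).mul_left he.inv_left).mul_left hg.inv_left
    | one => simp
    | mul a b _ _ ha hb => rw [map_mul]; exact ha.mul_left hb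
    | inv a _ ha => rw [map_inv]; exact ha.inv_left
  have hy : y ∈ Subgroup.closure {y : W | ∃ y₁ y₂, y = ⁅y₁, y₂⁆ ∧ Subgroup.closure
      {x : W | ∃ x₁ x₂, x = ⁅x₁, x₂⁆ ∧ Commute x₁ y₁ ∧ Commute x₁ y₂} = ⊤} := by
    rw [show Subgroup.closure _ = ⊤ from hav]; exact Subgroup.mem_top y
  induction hy using Subgroup.closure_induction with
  | mem y hy => exact key y hy x
  | one => simp
  | mul a b _ _ ha hb => rw [map_mul]; exact ha.mul_right hb
  | inv a _ ha => rw [map_inv]; exact ha.inv_right

end Vale.Agent.P193.Calc
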