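import Vale.Agent.P193.Full.VFP.Calc
import Vale.Agent.P193.Full.Lift.Prepend
import Vale.Agent.P193.Full.Lift.Split
import Vale.Agent.P193.Full.Calc.Maps.Cones
import Vale.Agent.P193.Full.Calc.Far
import Vale.Agent.P193.Full.Core.CovFinite
import Vale.Agent.P193.Full.Calc.Far
import Mathlib.GroupTheory.Finiteness

/-! Facts on the trivial-coefficient group `Vgrp S` of a nonempty `S`: it is perfect and finitely
generated, every roomy transposition generates it normally, commutators with room around them
generate (`vgrp_avoids`), and the subgroups supported in a cone (in particular `fixBoth`) are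
finitely generated. -/

namespace Vale.Agent.P193.Calc

open Classical
open scoped commutatorElement

variable {S : Type}

/-- The trivial-coefficient group is perfect. -/
theorem vgrp_perfect : commutator (Vgrp S) = ⊤ := swapGroup_schurPerfect _

/-- The trivial-coefficient group has the splitting of perfect central extensions. -/
theorem vgrp_centralSplit : CentralSplit (Vgrp S) := swapGroup_centralSplit _

theorem nonempty_sp [Nonempty S] : Nonempty (Sp S) :=
  ⟨(⟨fun _ => false, 0, fun _ _ => rfl⟩, Classical.arbitrary S)⟩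

/-- The trivial-coefficient group is finitely generated. -/
theorem vgrp_fg [Nonempty S] : Group.FG (Vgrp S) := by
  obtain ⟨m, vgen, -, htop, -⟩ := exists_vgrp_presentation (S := S)
  exact Group.fg_iff.2 ⟨Set.range vgen, htop, Set.finite_range vgen⟩

/-! ### Cones -/

theorem sp_cases (x : Sp S) : ∃ c z, x = (hv S).pre [c] z :=
  ⟨((hv S).cons.symm x).1, ((hv S).cons.symm x).2, ((hv S).cons.apply_symm_apply x).symm⟩

theorem inCone_conj {u w : List Bool} {k v : Vgrp S} (hk : MapsCone u w k) (hv' : InCone u v) :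
    InCone w (k * v * k⁻¹) := fun y hy => by
  have h1 : ((k⁻¹ : Vgrp S) : Equiv.Perm (Sp S)) y = (v : Equiv.Perm (Sp S))
      (((k⁻¹ : Vgrp S) : Equiv.Perm (Sp S)) y) := by
    refine (hv' _ fun ⟨x, hx⟩ => hy ⟨x, ?_⟩).symm
    rw [← hk x, ← hx, vgrp_inv_apply]
  rw [Subgroup.coe_mul, Subgroup.coe_mul, Equiv.Perm.mul_apply, Equiv.Perm.mul_apply, ← h1,
    vgrp_inv_apply]

theorem mem_fixBoth_iff {v : Vgrp S} : v ∈ Frame.fixBoth S ↔ InCone [true] v := by
  constructor
  · rintro ⟨ha, hb⟩ y hy
    obtain ⟨c, z, rfl⟩ := sp_cases y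
    cases c with
    | true => exact absurd ⟨z, rfl⟩ hy
    | false =>
      obtain ⟨d, z, rfl⟩ := sp_cases z
      cases d with
      | false => exact ha z
      | true => exact hb z
  · exact fun h => ⟨h.fixCone (apart_heads (by decide) [] _), h.fixCone (apart_heads (by decide) [] _)⟩

/-- The elements supported in a proper cone form the image of a homomorphism. -/
theorem exists_cone_hom [Nonempty S] {u : List Bool} (hu : u ≠ []) :
    ∃ f : Vgrp S →* Vgrp S, ∀ v, v ∈ f.range ↔ InCone u v := by
  have := nonempty_sp (S := S)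
  obtain ⟨k, hk⟩ := exists_maps_one (S := S) hu (List.cons_ne_nil false [])
  refine ⟨(MulAut.conj k⁻¹).toMonoidHom.comp (iMap _ false), fun v => ⟨?_, fun h => ?_⟩⟩
  · rintro ⟨g, rfl⟩
    refine inCone_conj hk.inv fun y hy => ?_
    obtain ⟨c, z, rfl⟩ := sp_cases y
    cases c with
    | false => exact absurd ⟨z, rfl⟩ hy
    | true =>
      show (hv S).behind false (g : Equiv.Perm (Sp S)) ((hv S).cons (true, z)) = _
      rw [Halving.behind_apply_cons]
      rfl
  · have h' : InCone [false] (k * v * k⁻¹) := inCone_conj hk h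
    obtain ⟨g, hg, he⟩ := VFP.exists_lp (coeffOf_empty_trivial (S := S))
      (k * v * k⁻¹).2 (h'.fixCone (apart_heads (by decide) [] []))
    have e : iMap (coeffOf (S := S) ∅) false ⟨g, hg⟩ = k * v * k⁻¹ := by
      refine Subtype.ext (Equiv.ext fun x => ?_)
      rw [he, iMap_val]
      obtain ⟨c, z, rfl⟩ := sp_cases x
      show (hv S).behind false g ((hv S).cons (c, z)) = _
      rw [Halving.behind_apply_cons]
      cases c with
      | false => rw [if_pos rfl, lp_pre]; rfl
      | true =>
        rw [if_neg (by decide), lp_out]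
        · rfl
        · rintro ⟨z', hz⟩
          exact incomp_bits z' z hz.symm
    refine ⟨⟨g, hg⟩, ?_⟩
    rw [MonoidHom.comp_apply, e]
    simp [mul_assoc]

/-- The subgroup supported in a proper cone is finitely generated. -/
theorem inCone_fg [Nonempty S] {K : Subgroup (Vgrp S)} {u : List Bool} (hu : u ≠ [])
    (hK : ∀ v, v ∈ K ↔ InCone u v) : K.FG := by
  obtain ⟨f, hf⟩ := exists_cone_hom (S := S) hu
  have := vgrp_fg (S := S)
  rw [show K = f.range by ext v; rw [hK, hf]]
  exact (Group.fg_iff_subgroup_fg _).1 (Group.fg_of_surjective f.rangeRestrict_surjective)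

/-- The elements fixing the first two colours are finitely generated. -/
theorem fixBoth_fg [Nonempty S] : (Frame.fixBoth S).FG :=
  inCone_fg (List.cons_ne_nil true []) fun _ => mem_fixBoth_iff

/-! ### Normal generation -/

/-- A normal subgroup containing a roomy transposition is everything. -/
theorem normal_eq_top [Nonempty S] {N : Subgroup (Vgrp S)} (hN : N.Normal) {p q : List Bool}
    (h : Apart p q) (hf : Free [p, q]) (hm : vswap h ∈ N) : N = ⊤ := by
  have := nonempty_sp (S := S)
  have hgen : ∀ σ ∈ swapGroup (coeffOf (S := S) ∅), ∃ v ∈ N, (v : Equiv.Perm (Sp S)) = σ := by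
    intro σ hσ
    have hle : swapGroup (coeffOf (S := S) ∅) ≤ N.map (swapGroup (coeffOf (S := S) ∅)).subtype := by
      refine (VFP.swapGroup_le_deep (coeffOf_empty_trivial (S := S)) 2).trans
        ((Subgroup.closure_le _).2 ?_)
      rintro _ ⟨a, b, hab, ha, hb, rfl⟩
      obtain ⟨z, hza, hzb⟩ : ∃ z : List Bool, Apart z a ∧ Apart z b := by
        obtain ⟨z, hz, h1, h2⟩ : ∃ z : List Bool, z.length = 2 ∧ z ≠ a.take 2 ∧ z ≠ b.take 2 := by
          generalize a.take 2 = a'
          generalize b.take 2 = b'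
          by_contra hc
          push Not at hc
          have h1 := hc [false, false] rfl
          have h2 := hc [false, true] rfl
          have h3 := hc [true, false] rfl
          by_cases e1 : [false, false] = a'
          · subst e1
            exact absurd ((h2 (by simp)).trans (h3 (by simp)).symm) (by simp)
          · by_cases e2 : [false, true] = a'
            · subst e2
              exact absurd ((h1 (by simp)).trans (h3 (by simp)).symm) (by simp)
            · exact absurd ((h1 e1).trans (h2 e2).symm) (by simp)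
        exact ⟨z, (apart_of_len (by simp [hz, ha]) h1).ext_right (a.drop 2) |>.of_prefix
            List.prefix_rfl (by rw [List.take_append_drop]),
          (apart_of_len (by simp [hz, hb]) h2).ext_right (b.drop 2) |>.of_prefix
            List.prefix_rfl (by rw [List.take_append_drop])⟩
      obtain ⟨k, hk⟩ := exists_maps (S := S) (ps := [p, q]) (qs := [a, b]) rfl
        ⟨by simp [h], hf⟩ ⟨by simp [hab], z, by simp [hza, hzb]⟩
      refine ⟨k * vswap h * k⁻¹, hN.conj_mem _ hm k, ?_⟩
      rw [vswap_conj h hab (hk 0 (by simp)) (hk 1 (by simp))]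
      rfl
    exact hle hσ
  refine eq_top_iff.2 fun v _ => ?_
  obtain ⟨w, hw, e⟩ := hgen v v.2
  rwa [← Subtype.ext e]

/-- Any roomy transposition generates normally. -/
theorem normalClosure_vswap [Nonempty S] {p q : List Bool} (h : Apart p q) (hf : Free [p, q]) :
    Subgroup.normalClosure {(vswap h : Vgrp S)} = ⊤ :=
  normal_eq_top Subgroup.normalClosure_normal h hf (Subgroup.subset_normalClosure rfl)

/-- Elements supported in apart cones commute. -/
theorem commute_of_inCone {u w : List Bool} {v v' : Vgrp S} (h : InCone u v) (h' : InCone w v')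
    (huw : Apart u w) : Commute v v' := by
  refine Subtype.ext (Equiv.ext fun x => ?_)
  show (v : Equiv.Perm (Sp S)) ((v' : Equiv.Perm (Sp S)) x) =
    (v' : Equiv.Perm (Sp S)) ((v : Equiv.Perm (Sp S)) x)
  by_cases hu : ∃ y, x = (hv S).pre u y
  · obtain ⟨y, rfl⟩ := hu
    obtain ⟨y', hy'⟩ := h.maps y
    rw [h'.fixCone huw.symm y, hy', h'.fixCone huw.symm y']
  · rw [h x hu, h]
    rintro ⟨y, hy⟩
    have := h'.fixCone huw.symm y
    rw [← hy] at this
    exact hu ⟨y, ((v' : Equiv.Perm (Sp S)).injective this).symm.trans hy⟩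

/-- Commutators whose entries leave room generate, together with enough commuting commutators. -/
theorem vgrp_avoids [Nonempty S] : Avoids (Vgrp S) := by
  set Q : Vgrp S → Vgrp S → Prop := fun y₁ y₂ =>
    Subgroup.closure {x : Vgrp S | ∃ x₁ x₂, x = ⁅x₁, x₂⁆ ∧ Commute x₁ y₁ ∧ Commute x₁ y₂} = ⊤
  let u : List Bool := [false, false]
  let z : List Bool := [true, false]
  obtain ⟨fu, hfu⟩ := exists_cone_hom (S := S) (u := u) (List.cons_ne_nil _ _)
  obtain ⟨fz, hfz⟩ := exists_cone_hom (S := S) (u := z) (List.cons_ne_nil _ _)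
  have hQ : ∀ y₁ y₂, InCone u y₁ → InCone u y₂ → Q y₁ y₂ := by
    intro y₁ y₂ h1 h2
    set T := {x : Vgrp S | ∃ x₁ x₂, x = ⁅x₁, x₂⁆ ∧ Commute x₁ y₁ ∧ Commute x₁ y₂}
    have hle : ⁅fz.range, (⊤ : Subgroup (Vgrp S))⁆ ≤ Subgroup.closure T := by
      refine Subgroup.commutator_le.2 fun x hx y _ => Subgroup.subset_closure ⟨x, y, rfl, ?_, ?_⟩
      · exact commute_of_inCone ((hfz x).1 hx) h1 (apart_heads (by decide) _ _)
      · exact commute_of_inCone ((hfz x).1 hx) h2 (apart_heads (by decide) _ _)
    have hn : (⁅fz.range, (⊤ : Subgroup (Vgrp S))⁆).Normal := by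
      exact Subgroup.normalizer_eq_top_iff.1 (eq_top_iff.2 (Subgroup.normalizer_commutator_ge_right _ _))
    have hsw : (vswap (show Apart [true, false, false] [true, false, true] from
        apart_bits [true, false]) : Vgrp S) ∈ ⁅fz.range, (⊤ : Subgroup (Vgrp S))⁆ := by
      refine Subgroup.commutator_mono le_rfl le_top (?_ : _ ∈ ⁅fz.range, fz.range⁆)
      have hp : ⁅fz.range, fz.range⁆ = fz.range := by
        rw [MonoidHom.range_eq_map, ← Subgroup.map_commutator, ← commutator_def, vgrp_perfect]
      rw [hp, hfz]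
      exact inCone_vswap _ ⟨[false], rfl⟩ ⟨[true], rfl⟩
    exact eq_top_iff.2 ((normal_eq_top hn _ ⟨[false], by simp [Apart]⟩ hsw).ge.trans hle)
  set Y := {y : Vgrp S | ∃ y₁ y₂, y = ⁅y₁, y₂⁆ ∧ Q y₁ y₂}
  have hconj : ∀ y ∈ Y, ∀ g : Vgrp S, g * y * g⁻¹ ∈ Y := by
    rintro _ ⟨y₁, y₂, rfl, hy⟩ g
    refine ⟨g * y₁ * g⁻¹, g * y₂ * g⁻¹, conjugate_commutatorElement _ _ _, ?_⟩
    refine eq_top_iff.2 ?_
    rw [← Subgroup.map_top_of_surjective (MulAut.conj g).toMonoidHom (MulAut.conj g).surjective,
      ← hy]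
    refine (MonoidHom.map_closure (MulAut.conj g).toMonoidHom _).le.trans
      (Subgroup.closure_mono ?_)
    rintro _ ⟨_, ⟨x₁, x₂, rfl, c1, c2⟩, rfl⟩
    exact ⟨g * x₁ * g⁻¹, g * x₂ * g⁻¹, conjugate_commutatorElement _ _ _,
      (c1.map (MulAut.conj g).toMonoidHom), (c2.map (MulAut.conj g).toMonoidHom)⟩
  have hn : (Subgroup.closure Y).Normal := ⟨fun x hx g => by
    induction hx using Subgroup.closure_induction with
    | mem y hy => exact Subgroup.subset_closure (hconj y hy g)
    | one => simp
    | mul a b _ _ ha hb => rw [show g * (a * b) * g⁻¹ = (g * a * g⁻¹) * (g * b * g⁻¹) by group]; exact mul_mem ha hb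
    | inv a _ ha => rw [show g * a⁻¹ * g⁻¹ = (g * a * g⁻¹)⁻¹ by group]; exact inv_mem ha⟩
  refine normal_eq_top hn (show Apart [false, false, false] [false, false, true] from
    apart_bits [false, false]) ⟨[true], by simp [Apart]⟩ ?_
  have hle : ⁅fu.range, fu.range⁆ ≤ Subgroup.closure Y :=
    Subgroup.commutator_le.2 fun y₁ h1 y₂ h2 =>
      Subgroup.subset_closure ⟨y₁, y₂, rfl, hQ _ _ ((hfu _).1 h1) ((hfu _).1 h2)⟩
  refine hle ?_
  rw [MonoidHom.range_eq_map, ← Subgroup.map_commutator, ← commutator_def, vgrp_perfect,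
    ← MonoidHom.range_eq_map, hfu]
  exact inCone_vswap _ ⟨[false], rfl⟩ ⟨[true], rfl⟩

end Vale.Agent.P193.Calc
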