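import Vale.Agent.P193.Full.Calc.Setup

/-! Properties that hold in every group in which some finite set of true relators holds.
The finite sets are combined by union, so modules can use new true relations freely. -/

namespace Vale.Agent.P193.Calc

open Classical

/-- A finite generating system over points `S`: generators of the trivial-coefficient group
with finitely many defining relators, and finitely many graphs. -/
structure Frame (S : Type) where
  m : ℕ
  vgen : Fin m → Vgrp S
  vrels : Finset (FreeGroup (Fin m))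
  vgen_top : Subgroup.closure (Set.range vgen) = ⊤
  vrels_ok : Subgroup.normalClosure (vrels : Set (FreeGroup (Fin m))) =
    (FreeGroup.lift vgen).ker
  ι : Type
  fin_ι : Finite ι
  g : ι → Set (S × S)
  g_pb : ∀ i, IsPB (g i)

variable {S : Type} (F : Frame S)

namespace Frame

/-- The coefficient monoid of a frame. -/
abbrev M : Coeff (hv S) := coeffOf (Set.range F.g)

/-- The free group on the generators. -/
abbrev Free := FreeGroup (Fin F.m ⊕ F.ι)

/-- The permutation of a generator. -/
noncomputable def genPerm : Fin F.m ⊕ F.ι → Equiv.Perm (Sp S)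
  | .inl j => F.vgen j
  | .inr i =>
    if h : ∃ b : Bis F.M, b.1 = piece (hv S) colA colB (lift (F.g i)) then swapPerm h.choose
    else 1

/-- Evaluation in permutations. -/
noncomputable def eval : F.Free →* Equiv.Perm (Sp S) := FreeGroup.lift F.genPerm

/-- A group over the permutations, generated by the generators. -/
structure Model where
  P : Type
  group : Group P
  f : F.Free →* P
  f_surj : Function.Surjective f
  π : P →* Equiv.Perm (Sp S)
  comm : π.comp f = F.eval

attribute [instance] Model.group

/-- The property holds in every model of some finite set of true relators. -/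
def Ev (prop : F.Model → Prop) : Prop :=
  ∃ R : Finset F.Free, (∀ r ∈ R, F.eval r = 1) ∧
    ∀ M : F.Model, (∀ r ∈ R, M.f r = 1) → prop M

variable {F}

theorem Ev.of_forall {prop : F.Model → Prop} (h : ∀ M, prop M) : F.Ev prop :=
  ⟨∅, by simp, fun M _ => h M⟩

theorem Ev.mono {a b : F.Model → Prop} (ha : F.Ev a) (h : ∀ M, a M → b M) : F.Ev b := by
  obtain ⟨R, h1, h2⟩ := ha
  exact ⟨R, h1, fun M hM => h M (h2 M hM)⟩

theorem Ev.and {a b : F.Model → Prop} (ha : F.Ev a) (hb : F.Ev b) :
    F.Ev fun M => a M ∧ b M := by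
  obtain ⟨R, h1, h2⟩ := ha
  obtain ⟨R', h1', h2'⟩ := hb
  exact ⟨R ∪ R', fun r hr => (Finset.mem_union.1 hr).elim (h1 r) (h1' r),
    fun M hM => ⟨h2 M fun r hr => hM r (Finset.mem_union_left _ hr),
      h2' M fun r hr => hM r (Finset.mem_union_right _ hr)⟩⟩

theorem Ev.all {β : Type*} [Finite β] {a : β → F.Model → Prop} (h : ∀ x, F.Ev (a x)) :
    F.Ev fun M => ∀ x, a x M := by
  choose R h1 h2 using h
  have := Fintype.ofFinite β
  exact ⟨Finset.univ.biUnion R, fun r hr => by
      obtain ⟨x, -, hx⟩ := Finset.mem_biUnion.1 hr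
      exact h1 x r hx,
    fun M hM x => h2 x M fun r hr => hM r (Finset.mem_biUnion.2 ⟨x, Finset.mem_univ x, hr⟩)⟩

/-- A true identity between two words holds eventually. -/
theorem Ev.rel {a b : F.Free} (h : F.eval a = F.eval b) : F.Ev fun M => M.f a = M.f b := by
  refine ⟨{a * b⁻¹}, ?_, fun M hM => ?_⟩
  · intro r hr
    rw [Finset.mem_singleton.1 hr, map_mul, map_inv, h, mul_inv_cancel]
  · have := hM _ (Finset.mem_singleton_self _)
    rwa [map_mul, map_inv, mul_inv_eq_one] at this

/-- A homomorphism from the trivial-coefficient group with prescribed lifts exists eventually. -/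
theorem exists_hom (ψ : Vgrp S →* Equiv.Perm (Sp S)) (w : Fin F.m → F.Free)
    (hw : ∀ j, F.eval (w j) = ψ (F.vgen j)) :
    F.Ev fun M => ∃ Ψ : Vgrp S →* M.P,
      (∀ j, Ψ (F.vgen j) = M.f (w j)) ∧ ∀ v, M.π (Ψ v) = ψ v := by
  let wl : FreeGroup (Fin F.m) →* F.Free := FreeGroup.lift w
  have hwl : ∀ x, F.eval (wl x) = ψ (FreeGroup.lift F.vgen x) := by
    intro x
    have : F.eval.comp wl = ψ.comp (FreeGroup.lift F.vgen) :=
      FreeGroup.ext_hom _ _ fun j => by simp [wl, hw]
    exact DFunLike.congr_fun this x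
  refine ⟨F.vrels.image wl, ?_, fun M hM => ?_⟩
  · intro r hr
    obtain ⟨x, hx, rfl⟩ := Finset.mem_image.1 hr
    have : x ∈ (FreeGroup.lift F.vgen).ker := by
      rw [← F.vrels_ok]; exact Subgroup.subset_normalClosure hx
    rw [hwl, MonoidHom.mem_ker.1 this, map_one]
  · have hle : (FreeGroup.lift F.vgen).ker ≤ (M.f.comp wl).ker := by
      rw [← F.vrels_ok]
      exact Subgroup.normalClosure_le_normal fun x hx =>
        hM _ (Finset.mem_image_of_mem wl hx)
    have surj : Function.Surjective (FreeGroup.lift F.vgen) := by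
      rw [← MonoidHom.range_eq_top, FreeGroup.range_lift_eq_closure]
      exact F.vgen_top
    obtain ⟨Ψ, hΨ⟩ : ∃ Ψ : Vgrp S →* M.P, ∀ x, Ψ (FreeGroup.lift F.vgen x) = M.f (wl x) := by
      refine ⟨(FreeGroup.lift F.vgen).liftOfSurjective surj ⟨M.f.comp wl, hle⟩, fun x => ?_⟩
      exact MonoidHom.liftOfRightInverse_comp_apply _ _ _ _ x
    refine ⟨Ψ, fun j => ?_, fun v => ?_⟩
    · simpa [wl] using hΨ (FreeGroup.of j)
    · obtain ⟨x, rfl⟩ := surj v
      rw [hΨ, ← hwl]
      exact DFunLike.congr_fun M.comm (wl x)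

end Frame

end Vale.Agent.P193.Calc
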