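import Vale.Agent.P193.Full.Calc.Setup

/-! The swap group of the coefficients generated by finitely many graphs is generated by the swap
group with trivial coefficients and one swap for each generating graph. -/

open Classical
open scoped commutatorElement

noncomputable section

namespace Vale.Agent.P193

universe u

variable {X : Type u} {H : Halving X} {M : Coeff H}

/-- The swap of one piece. -/
def pswap {p q : List Bool} {m : Set (X × X)} (h : Apart p q) (hm : M.mem m) : Equiv.Perm X :=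
  swapPerm (simpleBis h hm)

theorem pswap_sq {p q : List Bool} {m : Set (X × X)} (h : Apart p q) (hm : M.mem m) :
    pswap h hm * pswap h hm = 1 :=
  Equiv.ext fun x => swap_invol _ x

theorem pswap_inv {p q : List Bool} {m : Set (X × X)} (h : Apart p q) (hm : M.mem m) :
    (pswap h hm)⁻¹ = pswap h hm := swap_inv _

theorem pswap_congr {p q : List Bool} {m n : Set (X × X)} (h : Apart p q) (hm : M.mem m)
    (hn : M.mem n) (e : m = n) : pswap h hm = pswap h hn := by
  subst e; rfl

theorem pswap_split {p q : List Bool} {m : Set (X × X)} (h : Apart p q) (hm : M.mem m) :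
    pswap (h.append [false] [false]) hm * pswap (h.append [true] [true]) hm = pswap h hm := by
  have e := congrArg (schemaHom M) (tau_split h hm)
  simpa only [pswap, map_mul, schemaHom_tau] using e

theorem pswap_ginv {p q : List Bool} {m : Set (X × X)} (h : Apart p q) (hm : M.mem m) :
    pswap h.symm (M.inv_mem _ hm) = pswap h hm :=
  (swap_ginv _ _ (ginv_piece _ _ _).symm).symm

theorem supp_pswap_comm {a b : Bis M} (hd : Disjoint (supp a.1) (supp b.1)) :
    Commute (swapPerm a) (swapPerm b) := by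
  have e := congrArg (schemaHom M) (tau_comm a b hd).eq
  simpa only [map_mul, schemaHom_tau, Commute, SemiconjBy] using e

theorem pswap_union {p q : List Bool} {m n : Set (X × X)} (h : Apart p q) (hm : M.mem m)
    (hn : M.mem n) (hmn : M.mem (m ∪ n)) (hd : Disjoint (gdom m) (gdom n))
    (hr : Disjoint (gran m) (gran n)) : pswap h hm * pswap h hn = pswap h hmn := by
  refine swap_union _ _ _ (Set.disjoint_left.2 fun z hz hz' => ?_) (Set.image_union _ _ _)
  rcases supp_piece hz with ⟨x, hx, rfl⟩ | ⟨x, hx, rfl⟩ <;>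
    rcases supp_piece hz' with ⟨y, hy, e⟩ | ⟨y, hy, e⟩
  · exact Set.disjoint_left.1 hd hx (pre_injective p e ▸ hy)
  · exact h.incomp _ _ e
  · exact h.incomp _ _ e.symm
  · exact Set.disjoint_left.1 hr hx (pre_injective q e ▸ hy)

/-- Conjugation of the swap of a piece, from the images of its points. -/
theorem pswap_conj (σ : Equiv.Perm X) {p q p' q' : List Bool} {m m' : Set (X × X)}
    (h : Apart p q) (hm : M.mem m) (h' : Apart p' q') (hm' : M.mem m')
    (hto : ∀ x y, (x, y) ∈ m → ∃ x' y', (x', y') ∈ m' ∧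
      σ (H.pre p x) = H.pre p' x' ∧ σ (H.pre q y) = H.pre q' y')
    (hfrom : ∀ x' y', (x', y') ∈ m' → ∃ x y, (x, y) ∈ m ∧
      σ (H.pre p x) = H.pre p' x' ∧ σ (H.pre q y) = H.pre q' y') :
    σ * pswap h hm * σ⁻¹ = pswap h' hm' := by
  refine swap_conj σ _ _ (Set.ext fun z => ⟨fun hz => ?_, ?_⟩)
  · obtain ⟨x', y', hxy', rfl⟩ := mem_piece.1 hz
    obtain ⟨x, y, hxy, e1, e2⟩ := hfrom x' y' hxy'
    exact ⟨_, piece_mem hxy, Prod.ext e1 e2⟩
  · rintro ⟨w, hw, rfl⟩
    obtain ⟨x, y, hxy, rfl⟩ := mem_piece.1 hw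
    obtain ⟨x', y', hxy', e1, e2⟩ := hto x y hxy
    show (σ (H.pre p x), σ (H.pre q y)) ∈ piece H p' q' m'
    rw [e1, e2]
    exact piece_mem hxy'

theorem pswap_apply {p q : List Bool} {m : Set (X × X)} (h : Apart p q) (hm : M.mem m) {x y : X}
    (hxy : (x, y) ∈ m) :
    pswap h hm (H.pre p x) = H.pre q y ∧ pswap h hm (H.pre q y) = H.pre p x :=
  ⟨swap_fwd _ (piece_mem hxy), swap_bwd _ (piece_mem hxy)⟩

theorem pswap_off {p q r : List Bool} {m : Set (X × X)} (h : Apart p q) (hm : M.mem m)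
    (hp : Apart r p) (hq : Apart r q) (x : X) : pswap h hm (H.pre r x) = H.pre r x := by
  refine swap_fix _ fun hs => ?_
  rcases supp_piece hs with ⟨y, -, e⟩ | ⟨y, -, e⟩
  · exact hp.incomp _ _ e
  · exact hq.incomp _ _ e

theorem pswap_not_ran {p q : List Bool} {m : Set (X × X)} (h : Apart p q) (hm : M.mem m) {y : X}
    (hy : y ∉ gran m) : pswap h hm (H.pre q y) = H.pre q y := by
  refine swap_fix _ fun hs => ?_
  rcases supp_piece hs with ⟨x, -, e⟩ | ⟨x, hx, e⟩
  · exact h.incomp _ _ e.symm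
  · exact hy (pre_injective q e ▸ hx)

theorem gcomp_gdom {m : Set (X × X)} (hm : IsPB m) : gcomp m (ginv m) = gid (gdom m) := by
  ext ⟨x, y⟩
  constructor
  · rintro ⟨z, h1, h2⟩
    exact ⟨hm.2 _ _ _ h1 h2, z, h1⟩
  · rintro ⟨e, z, hz⟩
    simp only at e
    subst e
    exact ⟨z, hz, hz⟩

theorem exists_apart_pair {p q : List Bool} (hp : 2 ≤ p.length) (hq : 2 ≤ q.length) :
    ∃ r : List Bool, Apart r p ∧ Apart r q := by
  match p, q, hp, hq with
  | a :: b :: p', c :: d :: q', _, _ =>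
    have key : ∀ a b c d : Bool, ∃ e f : Bool, ¬(e = a ∧ f = b) ∧ ¬(e = c ∧ f = d) := by decide
    obtain ⟨e, f, h1, h2⟩ := key a b c d
    refine ⟨[e, f], ?_, ?_⟩ <;> constructor <;> intro hh <;>
      simp only [List.cons_prefix_cons, List.prefix_nil] at hh
    · exact h1 ⟨hh.1, hh.2.1⟩
    · exact h1 ⟨hh.1.symm, hh.2.1.symm⟩
    · exact h2 ⟨hh.1, hh.2.1⟩
    · exact h2 ⟨hh.1.symm, hh.2.1.symm⟩

section
variable (K : Subgroup (Equiv.Perm X))

/-- All swaps of pieces with this coefficient lie in the subgroup. -/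
def AllIn (m : Set (X × X)) : Prop :=
  ∀ (hm : M.mem m) (p q : List Bool) (h : Apart p q), pswap h hm ∈ K

variable {K}

/-- It suffices to look at long prefixes. -/
theorem allIn_of_long {m : Set (X × X)} : ∀ n : ℕ,
    (∀ (hm : M.mem m) (p q : List Bool) (h : Apart p q), n ≤ p.length → n ≤ q.length →
      pswap h hm ∈ K) → AllIn (M := M) K m
  | 0, hl => fun hm p q h => hl hm p q h (Nat.zero_le _) (Nat.zero_le _)
  | n + 1, hl => allIn_of_long n fun hm p q h h1 h2 => by
      rw [← pswap_split h hm]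
      exact mul_mem (hl hm _ _ _ (by simp; omega) (by simp; omega))
        (hl hm _ _ _ (by simp; omega) (by simp; omega))

theorem AllIn.ginv {m : Set (X × X)} (hm : M.mem m) (ha : AllIn (M := M) K m) :
    AllIn (M := M) K (P193.ginv m) := by
  intro hm' p q h
  have := ha hm q p h.symm
  rwa [← pswap_ginv h.symm hm] at this

theorem AllIn.union {m n : Set (X × X)} (hm : M.mem m) (hn : M.mem n)
    (hd : Disjoint (gdom m) (gdom n)) (hr : Disjoint (gran m) (gran n))
    (ha : AllIn (M := M) K m) (hb : AllIn (M := M) K n) : AllIn (M := M) K (m ∪ n) := by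
  intro hmn p q h
  rw [← pswap_union h hm hn hmn hd hr]
  exact mul_mem (ha hm p q h) (hb hn p q h)

/-- The product of two swaps along a composite that comes from a commutator. -/
theorem pair_mem {m n : Set (X × X)} (hm : M.mem m) (hn : M.mem n) (ha : AllIn (M := M) K m)
    (hb : AllIn (M := M) K n) {a c b r : List Bool} (hab : Apart a b) (hcb : Apart c b)
    (har : Apart a r) (hcr : Apart c r) (hrb : Apart r b) :
    pswap hab (M.comp_mem _ _ hm hn) * pswap hcb (M.comp_mem _ _ hm hn) ∈ K := by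
  set n₁ := gcomp (gid (gran m)) n with hn₁d
  set n₂ := gcomp (gid (gran m)ᶜ) n with hn₂d
  have hn₁ : M.mem n₁ := M.comp_mem _ _ (idem_gran hm) hn
  have hn₂ : M.mem n₂ := M.comp_mem _ _ (idem_compl (idem_gran hm)) hn
  have mem₁ : ∀ {x y}, (x, y) ∈ n₁ ↔ x ∈ gran m ∧ (x, y) ∈ n := by
    intro x y
    constructor
    · rintro ⟨z, ⟨e, hx⟩, hz⟩; obtain rfl : x = z := e; exact ⟨hx, hz⟩
    · rintro ⟨hx, hxy⟩; exact ⟨x, ⟨rfl, hx⟩, hxy⟩
  have mem₂ : ∀ {x y}, (x, y) ∈ n₂ ↔ x ∉ gran m ∧ (x, y) ∈ n := by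
    intro x y
    constructor
    · rintro ⟨z, ⟨e, hx⟩, hz⟩; obtain rfl : x = z := e; exact ⟨hx, hz⟩
    · rintro ⟨hx, hxy⟩; exact ⟨x, ⟨rfl, hx⟩, hxy⟩
  have he : n = n₂ ∪ n₁ := by
    ext ⟨x, y⟩
    simp only [Set.mem_union, mem₁, mem₂]
    tauto
  have hd : Disjoint (gdom n₂) (gdom n₁) :=
    Set.disjoint_left.2 fun x ⟨y, hy⟩ ⟨y', hy'⟩ => (mem₂.1 hy).1 (mem₁.1 hy').1
  have hr : Disjoint (gran n₂) (gran n₁) := Set.disjoint_left.2 fun z ⟨x, hx⟩ ⟨x', hx'⟩ => by
    obtain ⟨g1, g2⟩ := mem₂.1 hx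
    obtain ⟨g3, g4⟩ := mem₁.1 hx'
    exact g1 ((M.pb n hn).2 _ _ _ g2 g4 ▸ g3)
  have key : ∀ p (hpr : Apart p r) (hpb : Apart p b),
      pswap hpb (M.comp_mem _ _ hm hn) * pswap hrb hn₁ ∈ K := by
    intro p hpr hpb
    have t := mul_mem (mul_mem (mul_mem (ha hm p r hpr) (hb hn r b hrb)) (ha hm p r hpr))
      (hb hn r b hrb)
    have et : pswap hrb hn = pswap hrb hn₂ * pswap hrb hn₁ := by
      rw [pswap_union hrb hn₂ hn₁ (he ▸ hn) hd hr]
      exact pswap_congr _ _ _ he
    have c1 : pswap hpr hm * pswap hrb hn₁ * (pswap hpr hm)⁻¹ =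
        pswap hpb (M.comp_mem _ _ hm hn) := by
      refine pswap_conj _ _ _ _ _ (fun y z h => ?_) fun x z h => ?_
      · obtain ⟨⟨x, hx⟩, hyz⟩ := mem₁.1 h
        exact ⟨x, z, ⟨y, hx, hyz⟩, (pswap_apply hpr hm hx).2,
          pswap_off hpr hm hpb.symm hrb.symm z⟩
      · obtain ⟨y, hx, hyz⟩ := h
        exact ⟨y, z, mem₁.2 ⟨⟨x, hx⟩, hyz⟩, (pswap_apply hpr hm hx).2,
          pswap_off hpr hm hpb.symm hrb.symm z⟩
    have c2 : pswap hpr hm * pswap hrb hn₂ * (pswap hpr hm)⁻¹ = pswap hrb hn₂ := by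
      refine pswap_conj _ _ _ _ _ (fun y z h => ?_) fun y z h => ?_ <;>
        exact ⟨y, z, h, pswap_not_ran hpr hm (mem₂.1 h).1,
          pswap_off hpr hm hpb.symm hrb.symm z⟩
    have c3 : Commute (pswap hrb hn₂) (pswap hrb hn₁) := by
      refine supp_pswap_comm (Set.disjoint_left.2 fun z hz hz' => ?_)
      rcases supp_piece hz with ⟨x, hx, rfl⟩ | ⟨x, hx, rfl⟩ <;>
        rcases supp_piece hz' with ⟨y, hy, e⟩ | ⟨y, hy, e⟩
      · exact Set.disjoint_left.1 hd hx (pre_injective r e ▸ hy)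
      · exact hrb.incomp _ _ e
      · exact hrb.incomp _ _ e.symm
      · exact Set.disjoint_left.1 hr hx (pre_injective b e ▸ hy)
    have : pswap hpr hm * pswap hrb hn * pswap hpr hm * pswap hrb hn =
        pswap hpb (M.comp_mem _ _ hm hn) * pswap hrb hn₁ := by
      have e1 : pswap hpr hm * (pswap hrb hn₂ * pswap hrb hn₁) * (pswap hpr hm)⁻¹ =
          pswap hpb (M.comp_mem _ _ hm hn) * pswap hrb hn₂ := by
        rw [c3.eq, ← conj_mul, c1, c2]
      nth_rw 2 [← pswap_inv hpr hm]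
      rw [et, e1, mul_assoc, ← mul_assoc (pswap hrb hn₂), pswap_sq, one_mul]
    rwa [this] at t
  have := mul_mem (key a har hab) (inv_mem (key c hcr hcb))
  rwa [mul_inv_rev, pswap_inv, pswap_inv, mul_assoc, ← mul_assoc (pswap hrb hn₁), pswap_sq,
    one_mul] at this

/-- Composites. -/
theorem AllIn.comp {m n : Set (X × X)} (hm : M.mem m) (hn : M.mem n) (ha : AllIn (M := M) K m)
    (hb : AllIn (M := M) K n) : AllIn (M := M) K (gcomp m n) := by
  refine allIn_of_long 2 fun hR p q h hp hq => ?_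
  obtain ⟨r, hrp, hrq⟩ := exists_apart_pair hp hq
  let a := p ++ [false]; let c := p ++ [true]; let b := q ++ [false]; let d := q ++ [true]
  have hac : Apart a c := apart_bits p
  have hab : Apart a b := h.append _ _
  have hcd : Apart c d := h.append _ _
  have hcb : Apart c b := h.append _ _
  have had : Apart a d := h.append _ _
  have hr₁ : ∀ e, Apart (p ++ e) r := fun e => by simpa using hrp.symm.append e []
  have hr₂ : ∀ e, Apart r (q ++ e) := fun e => by simpa using hrq.append [] e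
  have hdom : M.mem (gid (gdom (gcomp m n))) := idem_gdom hR
  have h1 := inv_mem (pair_mem hm hn ha hb hab hcb (hr₁ _) (hr₁ _) (hr₂ _))
  have h2 := inv_mem (pair_mem hm hn ha hb had hcd (hr₁ _) (hr₁ _) (hr₂ _))
  rw [mul_inv_rev, pswap_inv, pswap_inv] at h1 h2
  have T1 : pswap hab hR * pswap hcb hR * (pswap hab hR)⁻¹ = pswap hac.symm hdom := by
    refine pswap_conj _ _ _ _ _ (fun x z hxz => ?_) fun x x' hx => ?_
    · exact ⟨x, x, ⟨rfl, z, hxz⟩, pswap_off hab hR hac.symm hcb x, (pswap_apply hab hR hxz).2⟩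
    · obtain ⟨e, z, hxz⟩ := hx
      obtain rfl : x = x' := e
      exact ⟨x, z, hxz, pswap_off hab hR hac.symm hcb x, (pswap_apply hab hR hxz).2⟩
  have T2 : pswap hcd hR * pswap had hR * (pswap hcd hR)⁻¹ = pswap hac hdom := by
    refine pswap_conj _ _ _ _ _ (fun x z hxz => ?_) fun x x' hx => ?_
    · exact ⟨x, x, ⟨rfl, z, hxz⟩, pswap_off hcd hR hac had x, (pswap_apply hcd hR hxz).2⟩
    · obtain ⟨e, z, hxz⟩ := hx
      obtain rfl : x = x' := e
      exact ⟨x, z, hxz, pswap_off hcd hR hac had x, (pswap_apply hcd hR hxz).2⟩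
  have e0 : pswap hac.symm hdom = pswap hac hdom := by
    rw [← pswap_ginv hac hdom]
    refine pswap_congr _ _ _ ?_
    ext ⟨x, y⟩
    constructor <;> rintro ⟨e, hx⟩ <;> simp only at e hx <;> subst e <;> exact ⟨rfl, hx⟩
  rw [← pswap_split h hR]
  have eq1 : pswap hcb hR * pswap hab hR = pswap hab hR * pswap hac hdom := by
    rw [← e0, ← T1, pswap_inv, ← mul_assoc, ← mul_assoc, pswap_sq, one_mul]
  have eq2 : pswap hcd hR * pswap had hR = pswap hac hdom * pswap hcd hR := by
    rw [← T2, pswap_inv, mul_assoc, pswap_sq, mul_one]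
  have := mul_mem h1 h2
  rw [eq1, eq2, mul_assoc, ← mul_assoc (pswap hac hdom), pswap_sq, one_mul] at this
  exact this

theorem AllIn.compl {m : Set (X × X)} (hm : M.mem m) (ha : AllIn (M := M) K m)
    (h1 : AllIn (M := M) K (gid Set.univ)) : AllIn (M := M) K (gid (gdom m)ᶜ) := by
  intro hc p q h
  have hd : AllIn (M := M) K (gid (gdom m)) := by
    rw [← gcomp_gdom (M.pb m hm)]
    exact ha.comp hm (M.inv_mem _ hm) (ha.ginv hm)
  have hu : gid (gdom m) ∪ gid (gdom m)ᶜ = gid (Set.univ : Set X) := by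
    ext ⟨x, y⟩
    simp only [gid, Set.mem_union, Set.mem_ofPred_eq, Set.mem_compl_iff, Set.mem_univ, and_true]
    tauto
  have e : pswap h (idem_gdom hm) * pswap h hc = pswap h M.one_mem := by
    rw [pswap_union h (idem_gdom hm) hc (hu ▸ M.one_mem)
      (by rw [gdom_gid, gdom_gid]; exact disjoint_compl_right)
      (by rw [gran_gid, gran_gid]; exact disjoint_compl_right)]
    exact pswap_congr _ _ _ hu
  have : pswap h hc = (pswap h (idem_gdom hm))⁻¹ * pswap h M.one_mem := by
    rw [← e, inv_mul_cancel_left]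
  rw [this]
  exact mul_mem (inv_mem (hd _ p q h)) (h1 _ p q h)

end

namespace Calc

variable {S : Type} {G : Set (Set (S × S))}

theorem InMon.mono {G' : Set (Set (S × S))} (hG : G ⊆ G') {m : Set (Sp S × Sp S)}
    (h : InMon G m) : InMon G' m := by
  induction h with
  | one => exact .one
  | of hm hp => exact .of (hG hm) hp
  | inv _ ih => exact .inv ih
  | comp _ _ ih ih' => exact .comp ih ih'
  | compl _ ih => exact .compl ih
  | union _ _ hd hr ih ih' => exact .union ih ih' hd hr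

/-- The trivial-coefficient swaps are swaps of every coefficient monoid. -/
theorem vgrp_le : swapGroup (coeffOf (S := S) ∅) ≤ swapGroup (coeffOf G) := by
  refine (Subgroup.closure_le _).2 ?_
  rintro _ ⟨b, rfl⟩
  obtain ⟨h1, h2, l, hl, hb⟩ := b.2
  exact Subgroup.subset_closure
    ⟨⟨b.1, h1, h2, l, fun t ht => InMon.mono (Set.empty_subset G) (hl t ht), hb⟩, rfl⟩

variable {ι : Type} {g : ι → Set (S × S)}

theorem mem_lift_range (hg : ∀ i, IsPB (g i)) (i : ι) :
    (coeffOf (Set.range g)).mem (lift (g i)) :=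
  InMon.of ⟨i, rfl⟩ (hg i)

/-- The swap of a generator between the two colours. -/
def genSwap (hg : ∀ i, IsPB (g i)) (i : ι) : Equiv.Perm (Sp S) :=
  pswap colAB (mem_lift_range hg i)

/-- A subgroup with the trivial-coefficient swaps that contains the swap of a coefficient at two
colours contains it between every two apart prefixes. -/
theorem allIn_of_colours {K : Subgroup (Equiv.Perm (Sp S))}
    (hV : swapGroup (coeffOf (S := S) ∅) ≤ K) {m : Set (Sp S × Sp S)} (hm : (coeffOf G).mem m)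
    (h : pswap colAB hm ∈ K) : AllIn (M := coeffOf G) K m := by
  refine allIn_of_long 3 fun hm' p q hpq hp hq => ?_
  have hid : ∀ {u w : List Bool} (huw : Apart u w),
      pswap (M := coeffOf G) huw (coeffOf G).one_mem ∈ K := fun huw =>
    hV (Subgroup.subset_closure
      ⟨simpleBis (M := coeffOf (S := S) ∅) huw (coeffOf ∅).one_mem, rfl⟩)
  have one : ∀ x : Sp S, (x, x) ∈ gid (Set.univ : Set (Sp S)) := fun x => ⟨rfl, trivial⟩
  -- two spare colours
  obtain ⟨x, y, hxy, hxA, hxB, hyA, hyB, hxp, hxq, hyp, hyq⟩ : ∃ x y : List Bool,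
      Apart x y ∧ Apart x colA ∧ Apart x colB ∧ Apart y colA ∧ Apart y colB ∧
        Apart x p ∧ Apart x q ∧ Apart y p ∧ Apart y q := by
    match p, q, hp, hq with
    | a₀ :: a₁ :: a₂ :: p', b₀ :: b₁ :: b₂ :: q', _, _ =>
      have key : ∀ a₁ a₂ b₁ b₂ : Bool, ∃ c₁ c₂ d₁ d₂ : Bool, ¬(c₁ = d₁ ∧ c₂ = d₂) ∧
          ¬(c₁ = a₁ ∧ c₂ = a₂) ∧ ¬(c₁ = b₁ ∧ c₂ = b₂) ∧ ¬(d₁ = a₁ ∧ d₂ = a₂) ∧
          ¬(d₁ = b₁ ∧ d₂ = b₂) := by decide
      have ap : ∀ {c₁ c₂ e₀ e₁ e₂ : Bool} (l : List Bool), ¬(c₁ = e₁ ∧ c₂ = e₂) →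
          Apart [true, c₁, c₂] (e₀ :: e₁ :: e₂ :: l) := by
        intro c₁ c₂ e₀ e₁ e₂ l hne
        constructor <;> intro e <;>
          simp only [List.cons_prefix_cons, List.prefix_nil] at e
        · exact hne ⟨e.2.1, e.2.2.1⟩
        · exact hne ⟨e.2.1.symm, e.2.2.1.symm⟩
      have apc : ∀ (u w : List Bool), Apart (true :: u) (false :: w) := fun u w =>
        apart_heads (by decide) u w
      obtain ⟨c₁, c₂, d₁, d₂, h1, h2, h3, h4, h5⟩ := key a₁ a₂ b₁ b₂
      exact ⟨[true, c₁, c₂], [true, d₁, d₂], ap [] h1, apc _ _, apc _ _, apc _ _, apc _ _,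
        ap _ h2, ap _ h3, ap _ h4, ap _ h5⟩
  have hAB : Apart colA colB := colAB
  set k₁ := pswap (M := coeffOf G) hxA.symm (coeffOf G).one_mem with hk₁
  set k₂ := pswap (M := coeffOf G) hyB.symm (coeffOf G).one_mem with hk₂
  set k₃ := pswap (M := coeffOf G) hxp (coeffOf G).one_mem with hk₃
  set k₄ := pswap (M := coeffOf G) hyq (coeffOf G).one_mem with hk₄
  have mA : ∀ z, k₄ (k₃ (k₂ (k₁ ((hv S).pre colA z)))) = (hv S).pre p z := fun z => by
    rw [hk₁, (pswap_apply _ _ (one z)).1, hk₂, pswap_off _ _ hxB hxy, hk₃,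
      (pswap_apply _ _ (one z)).1, hk₄, pswap_off _ _ hyp.symm hpq]
  have mB : ∀ z, k₄ (k₃ (k₂ (k₁ ((hv S).pre colB z)))) = (hv S).pre q z := fun z => by
    rw [hk₁, pswap_off _ _ hAB.symm hxB.symm, hk₂, (pswap_apply _ _ (one z)).1, hk₃,
      pswap_off _ _ hxy.symm hyp, hk₄, (pswap_apply _ _ (one z)).1]
  have e := pswap_conj (k₄ * k₃ * k₂ * k₁) colAB hm hpq hm'
    (fun a b hab => ⟨a, b, hab, mA a, mB b⟩) fun a b hab => ⟨a, b, hab, mA a, mB b⟩
  rw [← e]
  have hk : k₄ * k₃ * k₂ * k₁ ∈ K :=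
    mul_mem (mul_mem (mul_mem (hid _) (hid _)) (hid _)) (hid _)
  exact mul_mem (mul_mem hk h) (inv_mem hk)

/-- The swap group is generated by the trivial coefficients and one swap per generator. -/
theorem swapGroup_eq_closure (hg : ∀ i, IsPB (g i)) :
    swapGroup (coeffOf (Set.range g)) =
      Subgroup.closure
        ((swapGroup (coeffOf (S := S) ∅) : Set (Equiv.Perm (Sp S))) ∪ Set.range (genSwap hg)) := by
  refine le_antisymm ?_ ((Subgroup.closure_le _).2 (Set.union_subset vgrp_le ?_))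
  · set K := Subgroup.closure
      ((swapGroup (coeffOf (S := S) ∅) : Set (Equiv.Perm (Sp S))) ∪ Set.range (genSwap hg)) with hK
    have hV : swapGroup (coeffOf (S := S) ∅) ≤ K := fun v hv =>
      Subgroup.subset_closure (Or.inl hv)
    have hone : AllIn (M := coeffOf (Set.range g)) K (gid Set.univ) := fun _ p q h =>
      hV (Subgroup.subset_closure
        ⟨simpleBis (M := coeffOf (S := S) ∅) h (coeffOf ∅).one_mem, rfl⟩)
    have all : ∀ m, InMon (Set.range g) m → AllIn (M := coeffOf (Set.range g)) K m := by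
      intro m h
      induction h with
      | one => exact hone
      | @of m hm hp =>
        obtain ⟨i, rfl⟩ := hm
        exact allIn_of_colours hV (InMon.of ⟨i, rfl⟩ hp)
          (Subgroup.subset_closure (Or.inr ⟨i, rfl⟩))
      | inv h ih => exact ih.ginv h
      | comp h h' ih ih' => exact ih.comp h h' ih'
      | compl h ih => exact ih.compl h hone
      | union h h' hd hr ih ih' => exact ih.union h h' hd hr ih'
    have hle : Subgroup.closure (simples (coeffOf (Set.range g))) ≤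
        K.comap (schemaHom (coeffOf (Set.range g))) := by
      refine (Subgroup.closure_le _).2 ?_
      rintro _ ⟨c, v, w, m, hm, rfl⟩
      show schemaHom _ (tau _) ∈ K
      rw [schemaHom_tau]
      exact all m hm hm _ _ _
    intro σ hσ
    rw [← schemaHom_range] at hσ
    obtain ⟨z, rfl⟩ := hσ
    exact hle (closure_simples.symm ▸ Subgroup.mem_top z)
  · rintro _ ⟨i, rfl⟩
    exact Subgroup.subset_closure ⟨_, rfl⟩

/-- Every element of the swap group is a product of commutators. -/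
theorem mem_commutator_swapGroup (v : swapGroup (coeffOf G)) :
    v ∈ commutator (swapGroup (coeffOf G)) := by
  rw [(swapGroup_perfect (M := coeffOf G)).commutator_eq_top]
  exact Subgroup.mem_top v

/-- The image of a generated calculus is the swap group. -/
theorem Setup.range_π (D : Setup S) (hgen : D.Generated) :
    D.π.range = swapGroup (coeffOf (Set.range D.g)) := by
  have hG : ∀ i, D.π (D.G i) = genSwap D.g_pb i := fun i =>
    D.π_G i (simpleBis colAB (mem_lift_range D.g_pb i)) rfl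
  rw [swapGroup_eq_closure D.g_pb, MonoidHom.range_eq_map, ← hgen, MonoidHom.map_closure]
  congr 1
  ext σ
  simp only [Set.image_union, ← Set.range_comp, Set.mem_union, Set.mem_range, Function.comp_apply,
    D.π_φ, hG, SetLike.mem_coe, Subtype.exists, exists_prop, exists_eq_right]

end Calc

end Vale.Agent.P193
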