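import Vale.Agent.P193.Full.Calc.Setup
import Vale.Agent.P193.Full.Calc.Frame
import Vale.Agent.P193.Full.Calc.Generate
import Mathlib.GroupTheory.Perm.Support

/-! Permutation semantics of the map calculus: restrictions of trivial-coefficient permutations to
fibres, swaps of generators, and the identities behind the hypotheses on fields and generators. -/

open Classical
open scoped commutatorElement

noncomputable section

namespace Vale.Agent.P193.Calc

variable {S : Type}

/-- Prepend a word of bits to a stream. -/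
def cnPre : List Bool → Cn → Cn
  | [], f => f
  | c :: u, f => cnCons c (cnPre u f)

theorem hv_pre (u : List Bool) (f : Cn) (s : S) : (hv S).pre u (f, s) = (cnPre u f, s) := by
  induction u with
  | nil => rfl
  | cons c u ih => simp [Halving.pre, ih, cnPre]

/-! ### Trivial coefficients -/

/-- A trivial coefficient graph keeps the point and does not look at it. -/
theorem inMon_empty_fib {m : Set (Sp S × Sp S)} (hm : InMon (∅ : Set (Set (S × S))) m) :
    ∀ x y, (x, y) ∈ m → x.2 = y.2 ∧ ∀ t, ((x.1, t), (y.1, t)) ∈ m := by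
  induction hm with
  | one =>
    intro x y h
    obtain rfl : x = y := h.1
    exact ⟨rfl, fun t => ⟨rfl, trivial⟩⟩
  | of h _ => exact absurd h (Set.notMem_empty _)
  | inv _ ih => exact fun x y h => ⟨(ih y x h).1.symm, (ih y x h).2⟩
  | comp _ _ i1 i2 =>
    rintro x y ⟨z, h1, h2⟩
    exact ⟨(i1 x z h1).1.trans (i2 z y h2).1, fun t => ⟨(z.1, t), (i1 x z h1).2 t, (i2 z y h2).2 t⟩⟩
  | compl _ ih =>
    rintro x y ⟨e, h⟩
    obtain rfl : x = y := e
    refine ⟨rfl, fun t => ⟨rfl, ?_⟩⟩
    rintro ⟨z, hz⟩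
    exact h ⟨(z.1, x.2), (ih _ z hz).2 x.2⟩
  | union _ _ _ _ i1 i2 =>
    rintro x y (h | h)
    · exact ⟨(i1 x y h).1, fun t => Or.inl ((i1 x y h).2 t)⟩
    · exact ⟨(i2 x y h).1, fun t => Or.inr ((i2 x y h).2 t)⟩

theorem vgrp_reg (G : Set (Set (S × S))) (v : Vgrp S) :
    Reg (coeffOf G) (graphOf (v : Equiv.Perm (Sp S))) := by
  obtain ⟨l, hl, he⟩ := mem_swapGroup_iff.1 v.2
  exact ⟨l, fun t ht => InMon.mono (Set.empty_subset G) (hl t ht), he⟩

theorem vgrp_mem (G : Set (Set (S × S))) (v : Vgrp S) :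
    (v : Equiv.Perm (Sp S)) ∈ swapGroup (coeffOf G) :=
  mem_swapGroup_iff.2 (vgrp_reg G v)

/-- A trivial-coefficient element keeps the point and does not look at it. -/
theorem vgrp_fib (v : Vgrp S) (f : Cn) : ∃ g, ∀ s : S, (v : Equiv.Perm (Sp S)) (f, s) = (g, s) := by
  by_cases hS : Nonempty S
  · obtain ⟨s₀⟩ := hS
    obtain ⟨l, hl, he⟩ := mem_swapGroup_iff.1 v.2
    have h0 : ((f, s₀), (v : Equiv.Perm (Sp S)) (f, s₀)) ∈ unionOf (hv S) l := by rw [← he]; rfl
    obtain ⟨t, ht, hp⟩ := h0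
    obtain ⟨⟨a, p⟩, ⟨b, q⟩, hm, e⟩ := mem_piece.1 hp
    rw [hv_pre, hv_pre, Prod.mk.injEq] at e
    obtain ⟨ha, -⟩ := Prod.mk.injEq .. ▸ e.1
    refine ⟨cnPre t.2.1 b, fun s => ?_⟩
    have h1 := piece_mem (H := hv S) (v := t.1) (w := t.2.1) ((inMon_empty_fib (hl t ht) _ _ hm).2 s)
    rw [hv_pre, hv_pre, ← ha] at h1
    have h2 : ((f, s), (cnPre t.2.1 b, s)) ∈ graphOf (v : Equiv.Perm (Sp S)) := by
      rw [he]; exact ⟨t, ht, h1⟩
    exact h2
  · exact ⟨f, fun s => absurd ⟨s⟩ hS⟩

theorem vgrp_snd (v : Vgrp S) (x : Sp S) : ((v : Equiv.Perm (Sp S)) x).2 = x.2 := by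
  obtain ⟨g, hg⟩ := vgrp_fib v x.1
  rw [show x = (x.1, x.2) from rfl, hg]

theorem vgrp_fst (v : Vgrp S) (f : Cn) (s t : S) :
    ((v : Equiv.Perm (Sp S)) (f, s)).1 = ((v : Equiv.Perm (Sp S)) (f, t)).1 := by
  obtain ⟨g, hg⟩ := vgrp_fib v f
  rw [hg, hg]

/-- If a trivial-coefficient element sends one copy of a stream to a stream, it does so for
every point. -/
theorem vgrp_point (v : Vgrp S) {f g : Cn} {s : S}
    (h : (v : Equiv.Perm (Sp S)) (f, s) = (g, s)) (t : S) :
    (v : Equiv.Perm (Sp S)) (f, t) = (g, t) :=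
  Prod.ext ((vgrp_fst v f t s).trans (by rw [h])) (vgrp_snd v (f, t))

theorem vgrp_inv_apply (v : Vgrp S) (x : Sp S) :
    (v : Equiv.Perm (Sp S)) (((v⁻¹ : Vgrp S) : Equiv.Perm (Sp S)) x) = x :=
  (v : Equiv.Perm (Sp S)).apply_symm_apply x

theorem vgrp_inv_apply' (v : Vgrp S) (x : Sp S) :
    ((v⁻¹ : Vgrp S) : Equiv.Perm (Sp S)) ((v : Equiv.Perm (Sp S)) x) = x :=
  (v : Equiv.Perm (Sp S)).symm_apply_apply x

/-! ### Restriction to fibres -/

/-- The points over `e`. -/
def fib (e : Set S) : Set (Sp S) := {x | x.2 ∈ e}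

/-- The underlying map of a restriction. -/
def restrFun (e : Set S) (v : Vgrp S) (x : Sp S) : Sp S :=
  if x.2 ∈ e then (v : Equiv.Perm (Sp S)) x else x

theorem restrFun_mul (e : Set S) (v w : Vgrp S) (x : Sp S) :
    restrFun e v (restrFun e w x) = restrFun e (v * w) x := by
  unfold restrFun
  by_cases h : x.2 ∈ e
  · rw [if_pos h, if_pos (by rwa [vgrp_snd]), if_pos h]; rfl
  · rw [if_neg h, if_neg h, if_neg h]

theorem restrFun_one (e : Set S) (x : Sp S) : restrFun e 1 x = x := by
  unfold restrFun; split_ifs <;> rfl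

/-- The restriction of a trivial-coefficient element to the fibres over `e`. -/
def restr (e : Set S) : Vgrp S →* Equiv.Perm (Sp S) where
  toFun v :=
    { toFun := restrFun e v
      invFun := restrFun e v⁻¹
      left_inv := fun x => by rw [restrFun_mul, inv_mul_cancel, restrFun_one]
      right_inv := fun x => by rw [restrFun_mul, mul_inv_cancel, restrFun_one] }
  map_one' := Equiv.ext fun x => restrFun_one e x
  map_mul' v w := Equiv.ext fun x => (restrFun_mul e v w x).symm

theorem restr_apply (e : Set S) (v : Vgrp S) (x : Sp S) :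
    restr e v x = if x.2 ∈ e then (v : Equiv.Perm (Sp S)) x else x := rfl

theorem restr_in {e : Set S} {x : Sp S} (h : x.2 ∈ e) (v : Vgrp S) :
    restr e v x = (v : Equiv.Perm (Sp S)) x := if_pos h

theorem restr_out {e : Set S} {x : Sp S} (h : x.2 ∉ e) (v : Vgrp S) : restr e v x = x := if_neg h

theorem restr_snd (e : Set S) (v : Vgrp S) (x : Sp S) : (restr e v x).2 = x.2 := by
  rw [restr_apply]; split_ifs
  · exact vgrp_snd v x
  · rfl

theorem actsOn_restr (e : Set S) (v : Vgrp S) : ActsOn e v (restr e v) := fun _ => rfl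

theorem ActsOn.eq_restr {e : Set S} {v : Vgrp S} {σ : Equiv.Perm (Sp S)} (h : ActsOn e v σ) :
    σ = restr e v := Equiv.ext h

theorem Setup.π_fld_eq (D : Setup S) (k : D.κ) (v : Vgrp S) :
    D.π (D.fld k v) = restr (D.set k) v :=
  ActsOn.eq_restr (D.π_fld k v)

theorem restr_univ (v : Vgrp S) : restr Set.univ v = (v : Equiv.Perm (Sp S)) :=
  Equiv.ext fun x => restr_in (Set.mem_univ x.2) v

theorem restr_empty : restr (∅ : Set S) = 1 :=
  MonoidHom.ext fun v => Equiv.ext fun _ => restr_out (Set.notMem_empty _) v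

/-- Restrictions to disjoint sets move disjoint sets of points. -/
theorem restr_disjoint {e f : Set S} (h : Disjoint e f) (v w : Vgrp S) :
    Equiv.Perm.Disjoint (restr e v) (restr f w) := fun x => by
  by_cases hx : x.2 ∈ e
  · exact Or.inr (restr_out (Set.disjoint_left.1 h hx) w)
  · exact Or.inl (restr_out hx v)

theorem restr_commute {e f : Set S} (h : Disjoint e f) (v w : Vgrp S) :
    Commute (restr e v) (restr f w) :=
  (restr_disjoint h v w).commute

theorem restr_union {e f : Set S} (h : Disjoint e f) (v : Vgrp S) :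
    restr (e ∪ f) v = restr e v * restr f v := by
  ext1 x
  rw [Equiv.Perm.mul_apply]
  by_cases hf : x.2 ∈ f
  · rw [restr_in hf, restr_in (Set.mem_union_right _ hf),
      restr_out (by rw [vgrp_snd]; exact Set.disjoint_right.1 h hf)]
  · rw [restr_out hf]
    by_cases he : x.2 ∈ e
    · rw [restr_in he, restr_in (Set.mem_union_left _ he)]
    · rw [restr_out he, restr_out fun h' => h'.elim he hf]

/-- A restriction splits along any second set. -/
theorem restr_split (e f : Set S) (v : Vgrp S) :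
    restr e v = restr (e ∩ f) v * restr (e \ f) v := by
  rw [← restr_union (Set.disjoint_sdiff_inter.symm), Set.inter_union_sdiff]

theorem restr_compl (e : Set S) (v : Vgrp S) :
    restr e v * restr eᶜ v = (v : Equiv.Perm (Sp S)) := by
  rw [← restr_union disjoint_compl_right, Set.union_compl_self, restr_univ]

theorem restr_compl_eq (e : Set S) (v : Vgrp S) :
    restr eᶜ v = (restr e v)⁻¹ * (v : Equiv.Perm (Sp S)) := by
  rw [← restr_compl e v, inv_mul_cancel_left]

/-- Commutators of restrictions are restrictions to the meet. -/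
theorem restr_commutator (e f : Set S) (v w : Vgrp S) :
    ⁅restr e v, restr f w⁆ = restr (e ∩ f) ⁅v, w⁆ := by
  ext1 x
  rw [commutatorElement_def, commutatorElement_def, ← map_inv (restr e), ← map_inv (restr f)]
  simp only [Equiv.Perm.mul_apply]
  by_cases he : x.2 ∈ e <;> by_cases hf : x.2 ∈ f
  · simp only [restr_apply, vgrp_snd, he, hf, if_true, Set.mem_inter_iff, and_self,
      Subgroup.coe_mul, Equiv.Perm.mul_apply]
  · simp only [restr_apply, vgrp_snd, he, hf, if_true, if_false, Set.mem_inter_iff, and_false,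
      vgrp_inv_apply]
  · simp only [restr_apply, vgrp_snd, he, hf, if_true, if_false, Set.mem_inter_iff, false_and,
      vgrp_inv_apply]
  · simp only [restr_apply, he, hf, if_false, Set.mem_inter_iff, and_self]

/-- Trivial-coefficient elements normalise restrictions. -/
theorem restr_conj (e : Set S) (v w : Vgrp S) :
    (v : Equiv.Perm (Sp S)) * restr e w * (v : Equiv.Perm (Sp S))⁻¹ = restr e (v * w * v⁻¹) := by
  ext1 x
  rw [← Subgroup.coe_inv]
  simp only [Equiv.Perm.mul_apply]
  by_cases he : x.2 ∈ e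
  · simp only [restr_apply, vgrp_snd, he, if_true, Subgroup.coe_mul, Equiv.Perm.mul_apply]
  · simp only [restr_apply, vgrp_snd, he, if_false, vgrp_inv_apply]

theorem idem_fib {G : Set (Set (S × S))} {e : Set S} (h : gid e ∈ G) :
    Idem (coeffOf G) (fib e) := by
  have hp : IsPB (gid e) :=
    ⟨fun x y z h h' => h.1.symm.trans h'.1, fun x y z h h' => h.1.trans h'.1.symm⟩
  have he : gid (fib e) = lift (gid e) := Set.ext fun ⟨⟨f, s⟩, ⟨g, t⟩⟩ =>
    ⟨fun ⟨h1, h2⟩ => ⟨congrArg Prod.fst h1, congrArg Prod.snd h1, h2⟩,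
      fun ⟨h1, h2, h3⟩ => ⟨Prod.ext h1 h2, h3⟩⟩
  show InMon G (gid (fib e))
  rw [he]
  exact .of h hp

/-- Restrictions to sets with a coefficient identity lie in the swap group. -/
theorem restr_mem_of_idem {G : Set (Set (S × S))} {e : Set S} (h : Idem (coeffOf G) (fib e))
    (v : Vgrp S) : restr e v ∈ swapGroup (coeffOf G) := by
  refine mem_swapGroup_iff.2 ?_
  have hid : ∀ s : Set (Sp S), Idem (coeffOf G) s → Reg (coeffOf G) (gid s) := fun s hs => by
    have e : gid s = piece (hv S) [] [] (gid s) := Set.ext fun p =>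
      ⟨fun hp => mem_piece.2 ⟨p.1, p.2, hp, rfl⟩, fun hp => by
        obtain ⟨x, y, hxy, rfl⟩ := mem_piece.1 hp
        exact hxy⟩
    rw [e]
    exact reg_piece hs
  have key : graphOf (restr e v) =
      gcomp (gid (fib e)) (graphOf (v : Equiv.Perm (Sp S))) ∪ gid (fib e)ᶜ := by
    ext ⟨x, y⟩
    constructor
    · intro hxy
      have hxy' : restr e v x = y := hxy
      by_cases hx : x.2 ∈ e
      · rw [restr_in hx] at hxy'
        exact Or.inl ⟨x, ⟨rfl, hx⟩, hxy'⟩
      · rw [restr_out hx] at hxy'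
        exact Or.inr ⟨hxy', hx⟩
    · rintro (⟨z, ⟨h1, hx⟩, h2⟩ | ⟨h1, hx⟩)
      · obtain rfl : x = z := h1
        exact (restr_in hx v).trans h2
      · exact (restr_out hx v).trans h1
  rw [key]
  exact reg_union (reg_gcomp (hid _ h) (vgrp_reg G v)) (hid _ (idem_compl h))

theorem restr_mem {G : Set (Set (S × S))} {e : Set S} (h : gid e ∈ G) (v : Vgrp S) :
    restr e v ∈ swapGroup (coeffOf G) :=
  restr_mem_of_idem (idem_fib h) v

/-! ### Cones -/

theorem InCone.fixCone {u w : List Bool} {v : Vgrp S} (h : InCone u v) (huw : Apart u w) :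
    FixCone w v := fun x => h _ fun ⟨_, hy⟩ => (Apart.incomp huw) _ _ hy.symm

/-- An element supported in a cone maps the cone to itself. -/
theorem InCone.maps {u : List Bool} {v : Vgrp S} (h : InCone u v) (x : Sp S) :
    ∃ y, (v : Equiv.Perm (Sp S)) ((hv S).pre u x) = (hv S).pre u y := by
  by_contra hne
  exact hne ⟨x, (v : Equiv.Perm (Sp S)).injective (h _ hne)⟩

theorem MapsCone.inv {u w : List Bool} {v : Vgrp S} (h : MapsCone u w v) : MapsCone w u v⁻¹ :=
  fun x => by rw [← h x, vgrp_inv_apply']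

theorem vswap_fwd {p q : List Bool} (h : Apart p q) (x : Sp S) :
    (vswap h : Vgrp S).1 ((hv S).pre p x) = (hv S).pre q x :=
  swap_fwd _ (piece_mem ⟨rfl, trivial⟩)

theorem vswap_bwd {p q : List Bool} (h : Apart p q) (x : Sp S) :
    (vswap h : Vgrp S).1 ((hv S).pre q x) = (hv S).pre p x :=
  swap_bwd _ (piece_mem ⟨rfl, trivial⟩)

theorem vswap_fix {p q : List Bool} (h : Apart p q) {x : Sp S} (hp : ∀ y, x ≠ (hv S).pre p y)
    (hq : ∀ y, x ≠ (hv S).pre q y) : (vswap h : Vgrp S).1 x = x := by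
  refine swap_fix _ fun hs => ?_
  rcases supp_piece hs with ⟨y, -, e⟩ | ⟨y, -, e⟩
  exacts [hp y e, hq y e]

theorem vswap_inv {p q : List Bool} (h : Apart p q) : (vswap h : Vgrp S)⁻¹ = vswap h :=
  Subtype.ext (swap_inv _)

/-! ### Swaps of generators -/

theorem isPB_piece_lift {g : Set (S × S)} (hg : IsPB g) (p q : List Bool) :
    IsPB (piece (hv S) p q (lift g)) := by
  constructor
  · intro x y z h h'
    obtain ⟨a, b, h1, e⟩ := mem_piece.1 h
    obtain ⟨c, d, h2, e'⟩ := mem_piece.1 h'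
    simp only [Prod.mk.injEq] at e e'
    obtain rfl : a = c := pre_injective p (e.1.symm.trans e'.1)
    rw [e.2, e'.2, show b = d from Prod.ext (h1.1.symm.trans h2.1) (hg.1 _ _ _ h1.2 h2.2)]
  · intro x y z h h'
    obtain ⟨a, b, h1, e⟩ := mem_piece.1 h
    obtain ⟨c, d, h2, e'⟩ := mem_piece.1 h'
    simp only [Prod.mk.injEq] at e e'
    obtain rfl : b = d := pre_injective q (e.2.symm.trans e'.2)
    rw [e.1, e'.1, show a = c from Prod.ext (h1.1.trans h2.1.symm) (hg.2 _ _ _ h1.2 h2.2)]

theorem disjoint_piece_lift {g : Set (S × S)} {p q : List Bool} (h : Apart p q) :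
    Disjoint (gdom (piece (hv S) p q (lift g))) (gran (piece (hv S) p q (lift g))) := by
  rw [Set.disjoint_left]
  rintro x ⟨y, hy⟩ ⟨z, hz⟩
  obtain ⟨a, b, -, e⟩ := mem_piece.1 hy
  obtain ⟨c, d, -, e'⟩ := mem_piece.1 hz
  simp only [Prod.mk.injEq] at e e'
  exact Apart.incomp h _ _ (e.1.symm.trans e'.2)

/-- The swap of a graph placed at two cones. -/
def gswap {g : Set (S × S)} (hg : IsPB g) {p q : List Bool} (h : Apart p q) :
    Equiv.Perm (Sp S) where
  toFun := swapFun (piece (hv S) p q (lift g))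
  invFun := swapFun (piece (hv S) p q (lift g))
  left_inv := swapFun_invol (isPB_piece_lift hg p q) (disjoint_piece_lift h)
  right_inv := swapFun_invol (isPB_piece_lift hg p q) (disjoint_piece_lift h)

variable {g : Set (S × S)} {hg : IsPB g} {p q : List Bool}

theorem swapPerm_eq_gswap {M : Coeff (hv S)} (hg : IsPB g) (h : Apart p q) (b : Bis M)
    (hb : b.1 = piece (hv S) p q (lift g)) : swapPerm b = gswap hg h :=
  Equiv.ext fun x => congrArg (fun c => swapFun c x) hb

theorem gswap_fwd (h : Apart p q) {s t : S} (hst : (s, t) ∈ g) (f : Cn) :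
    gswap hg h ((hv S).pre p (f, s)) = (hv S).pre q (f, t) := by
  have hm : ((hv S).pre p (f, s), (hv S).pre q (f, t)) ∈ piece (hv S) p q (lift g) :=
    piece_mem ⟨rfl, hst⟩
  have hex : ∃ y, ((hv S).pre p (f, s), y) ∈ piece (hv S) p q (lift g) := ⟨_, hm⟩
  show swapFun _ _ = _
  rw [swapFun, dif_pos hex]
  exact (isPB_piece_lift hg p q).1 _ _ _ hex.choose_spec hm

theorem gswap_bwd (h : Apart p q) {s t : S} (hst : (s, t) ∈ g) (f : Cn) :
    gswap hg h ((hv S).pre q (f, t)) = (hv S).pre p (f, s) := by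
  have := congrArg (gswap hg h) (gswap_fwd (hg := hg) h hst f)
  rw [← this]
  exact (gswap hg h).left_inv _

theorem gswap_fix (h : Apart p q) {x : Sp S}
    (hp : ∀ f s, s ∈ gdom g → x ≠ (hv S).pre p (f, s))
    (hq : ∀ f t, t ∈ gran g → x ≠ (hv S).pre q (f, t)) : gswap hg h x = x := by
  show swapFun _ _ = _
  rw [swapFun, dif_neg, dif_neg]
  · rintro ⟨y, hy⟩
    obtain ⟨⟨a, s⟩, ⟨b, t⟩, hab, e⟩ := mem_piece.1 hy
    exact hq b t ⟨s, hab.2⟩ (congrArg Prod.snd e)
  · rintro ⟨y, hy⟩
    obtain ⟨⟨a, s⟩, ⟨b, t⟩, hab, e⟩ := mem_piece.1 hy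
    exact hp a s ⟨t, hab.2⟩ (congrArg Prod.fst e)

theorem gswap_fix_dom (h : Apart p q) {s : S} (hs : s ∉ gdom g) (f : Cn) :
    gswap hg h ((hv S).pre p (f, s)) = (hv S).pre p (f, s) := by
  refine gswap_fix h (fun f' s' hs' e => ?_) fun f' t _ e => Apart.incomp h _ _ e
  obtain ⟨-, rfl⟩ := Prod.mk.inj (pre_injective p e)
  exact hs hs'

theorem gswap_fix_ran (h : Apart p q) {t : S} (ht : t ∉ gran g) (f : Cn) :
    gswap hg h ((hv S).pre q (f, t)) = (hv S).pre q (f, t) := by
  refine gswap_fix h (fun f' s _ e => Apart.incomp h _ _ e.symm) fun f' t' ht' e => ?_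
  obtain ⟨-, rfl⟩ := Prod.mk.inj (pre_injective q e)
  exact ht ht'

theorem gswap_fix_out (h : Apart p q) {x : Sp S} (hp : ∀ y, x ≠ (hv S).pre p y)
    (hq : ∀ y, x ≠ (hv S).pre q y) : gswap hg h x = x :=
  gswap_fix h (fun _ _ _ => hp _) fun _ _ _ => hq _

theorem gswap_cases (p q : List Bool) (x : Sp S) :
    (∃ f s, x = (hv S).pre p (f, s)) ∨ (∃ f t, x = (hv S).pre q (f, t)) ∨
      ((∀ y, x ≠ (hv S).pre p y) ∧ ∀ y, x ≠ (hv S).pre q y) := by
  by_cases h1 : ∃ y, x = (hv S).pre p y
  · obtain ⟨⟨f, s⟩, rfl⟩ := h1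
    exact Or.inl ⟨f, s, rfl⟩
  · by_cases h2 : ∃ y, x = (hv S).pre q y
    · obtain ⟨⟨f, t⟩, rfl⟩ := h2
      exact Or.inr (Or.inl ⟨f, t, rfl⟩)
    · exact Or.inr (Or.inr ⟨not_exists.1 h1, not_exists.1 h2⟩)

/-- `invol`. -/
theorem gswap_sq (hg : IsPB g) (h : Apart p q) : gswap hg h * gswap hg h = 1 :=
  Equiv.ext (gswap hg h).left_inv

theorem gswap_inv (hg : IsPB g) (h : Apart p q) : (gswap hg h)⁻¹ = gswap hg h := rfl

/-- Moving a placed generator. -/
theorem gswap_conj (hg : IsPB g) {p' q' : List Bool} (h : Apart p q) (h' : Apart p' q')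
    (k : Vgrp S) (hp : MapsCone p p' k) (hq : MapsCone q q' k) :
    (k : Equiv.Perm (Sp S)) * gswap hg h * (k : Equiv.Perm (Sp S))⁻¹ = gswap hg h' := by
  ext1 x
  obtain ⟨z, rfl⟩ := (k : Equiv.Perm (Sp S)).surjective x
  rw [Equiv.Perm.mul_apply, Equiv.Perm.mul_apply,
    show (k : Equiv.Perm (Sp S))⁻¹ (k.1 z) = z from (k : Equiv.Perm (Sp S)).symm_apply_apply z]
  rcases gswap_cases p q z with ⟨f, s, rfl⟩ | ⟨f, t, rfl⟩ | ⟨hzp, hzq⟩
  · rw [hp]
    by_cases hs : s ∈ gdom g
    · obtain ⟨t, hst⟩ := hs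
      rw [gswap_fwd h hst, hq, gswap_fwd h' hst]
    · rw [gswap_fix_dom h hs, hp, gswap_fix_dom h' hs]
  · rw [hq]
    by_cases ht : t ∈ gran g
    · obtain ⟨s, hst⟩ := ht
      rw [gswap_bwd h hst, hp, gswap_bwd h' hst]
    · rw [gswap_fix_ran h ht, hq, gswap_fix_ran h' ht]
  · rw [gswap_fix_out h hzp hzq, gswap_fix_out h']
    · intro y e
      rw [← hp] at e
      exact hzp y ((k : Equiv.Perm (Sp S)).injective e)
    · intro y e
      rw [← hq] at e
      exact hzq y ((k : Equiv.Perm (Sp S)).injective e)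

theorem gswap_swap (hg : IsPB g) (hg' : IsPB (ginv g)) (h : Apart p q) :
    gswap hg' h.symm = gswap hg h := by
  ext1 x
  rcases gswap_cases p q x with ⟨f, s, rfl⟩ | ⟨f, t, rfl⟩ | ⟨hp, hq⟩
  · by_cases hs : s ∈ gdom g
    · obtain ⟨t, hst⟩ := hs
      rw [gswap_fwd h hst, gswap_bwd (g := ginv g) h.symm (s := t) hst]
    · rw [gswap_fix_dom h hs, gswap_fix_ran (g := ginv g) h.symm hs]
  · by_cases ht : t ∈ gran g
    · obtain ⟨s, hst⟩ := ht
      rw [gswap_bwd h hst, gswap_fwd (g := ginv g) h.symm (t := s) hst]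
    · rw [gswap_fix_ran h ht, gswap_fix_dom (g := ginv g) h.symm ht]
  · rw [gswap_fix_out h hp hq, gswap_fix_out h.symm hq hp]

/-- `inv`: the generator of the inverse graph. -/
theorem gswap_ginv (hg : IsPB g) (hg' : IsPB (ginv g)) :
    gswap hg' colAB = (vswap (S := S) colAB).1 * gswap hg colAB * (vswap (S := S) colAB).1⁻¹ := by
  rw [gswap_conj hg colAB colAB.symm (vswap colAB) (fun x => vswap_fwd _ x)
    (fun x => vswap_bwd _ x), ← gswap_swap hg hg' colAB.symm]

/-- `cov`: covariance of restrictions. -/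
theorem gswap_cov (hg : IsPB g) (e : Set S) (v : Vgrp S) (hv' : InCone colA v) :
    gswap hg colAB * restr (e ∩ gdom g) v * (gswap hg colAB)⁻¹ =
      restr {t | ∃ s ∈ e, (s, t) ∈ g} (vswap colAB * v * vswap colAB) := by
  have hB := hv'.fixCone colAB
  ext1 x
  rw [gswap_inv, Equiv.Perm.mul_apply, Equiv.Perm.mul_apply]
  rcases gswap_cases colA colB x with ⟨f, s, rfl⟩ | ⟨f, t, rfl⟩ | ⟨hp, hq⟩
  · have hR : restr {t | ∃ s ∈ e, (s, t) ∈ g} (vswap colAB * v * vswap colAB)
        ((hv S).pre colA (f, s)) = (hv S).pre colA (f, s) := by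
      rw [restr_apply]
      split_ifs
      · simp only [Subgroup.coe_mul, Equiv.Perm.mul_apply]
        rw [vswap_fwd, hB, vswap_bwd]
      · rfl
    rw [hR]
    by_cases hs : s ∈ gdom g
    · obtain ⟨t, hst⟩ := hs
      rw [gswap_fwd colAB hst, restr_apply]
      split_ifs
      · rw [hB, gswap_bwd colAB hst]
      · rw [gswap_bwd colAB hst]
    · rw [gswap_fix_dom colAB hs, restr_out (by rw [hv_pre_snd]; exact fun h => hs h.2),
        gswap_fix_dom colAB hs]
  · by_cases ht : ∃ s ∈ e, (s, t) ∈ g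
    · obtain ⟨s, hs, hst⟩ := ht
      rw [gswap_bwd colAB hst, restr_in (by rw [hv_pre_snd]; exact ⟨hs, t, hst⟩),
        restr_in (by rw [hv_pre_snd]; exact ⟨s, hs, hst⟩)]
      simp only [Subgroup.coe_mul, Equiv.Perm.mul_apply]
      obtain ⟨⟨f', s'⟩, hy⟩ := hv'.maps (f, s)
      have hsnd := congrArg Prod.snd hy
      rw [vgrp_snd, hv_pre_snd, hv_pre_snd] at hsnd
      simp only at hsnd
      subst hsnd
      have hy' : v.1 ((hv S).pre colA (f, t)) = (hv S).pre colA (f', t) := by
        rw [hv_pre, hv_pre] at hy ⊢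
        exact vgrp_point v hy t
      rw [hy, gswap_fwd colAB hst, vswap_bwd, hy', vswap_fwd]
    · rw [restr_out (e := {t | ∃ s ∈ e, (s, t) ∈ g}) (by rw [hv_pre_snd]; exact ht)]
      by_cases hr : t ∈ gran g
      · obtain ⟨s, hst⟩ := hr
        rw [gswap_bwd colAB hst, restr_out (by rw [hv_pre_snd]; exact fun h => ht ⟨s, h.1, hst⟩),
          gswap_fwd colAB hst]
      · rw [gswap_fix_ran colAB hr, restr_apply]
        split_ifs
        · rw [hB, gswap_fix_ran colAB hr]
        · rw [gswap_fix_ran colAB hr]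
  · have hvx : v.1 x = x := hv' x fun ⟨y, hy⟩ => hp y hy
    have hR : restr {t | ∃ s ∈ e, (s, t) ∈ g} (vswap colAB * v * vswap colAB) x = x := by
      rw [restr_apply]
      split_ifs
      · simp only [Subgroup.coe_mul, Equiv.Perm.mul_apply]
        rw [vswap_fix _ hp hq, hvx, vswap_fix _ hp hq]
      · rfl
    rw [hR, gswap_fix_out colAB hp hq, restr_apply]
    split_ifs
    · rw [hvx, gswap_fix_out colAB hp hq]
    · rw [gswap_fix_out colAB hp hq]

/-- `cov_dom`: covariance at the domain. -/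
theorem gswap_cov_dom (hg : IsPB g) (v : Vgrp S) (hv' : InCone colA v) :
    gswap hg colAB * restr (gdom g) v * (gswap hg colAB)⁻¹ =
      restr (gran g) (vswap colAB * v * vswap colAB) := by
  have h := gswap_cov hg Set.univ v hv'
  simp only [Set.univ_inter, Set.mem_univ, true_and] at h
  exact h

/-- A placed generator commutes with restrictions missing its support. -/
theorem gswap_restr_commute (hg : IsPB g) (h : Apart p q) {e : Set S} {v : Vgrp S}
    (hp : Disjoint e (gdom g) ∨ FixCone p v) (hq : Disjoint e (gran g) ∨ FixCone q v) :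
    Commute (gswap hg h) (restr e v) := by
  refine Equiv.Perm.Disjoint.commute fun x => ?_
  by_cases hx : x.2 ∈ e
  swap; exact Or.inr (restr_out hx v)
  rw [restr_in hx]
  rcases gswap_cases p q x with ⟨f, s, rfl⟩ | ⟨f, t, rfl⟩ | ⟨h1, h2⟩
  · rcases hp with hp | hp
    · rw [hv_pre_snd] at hx
      exact Or.inl (gswap_fix_dom h (Set.disjoint_left.1 hp hx) f)
    · exact Or.inr (hp _)
  · rcases hq with hq | hq
    · rw [hv_pre_snd] at hx
      exact Or.inl (gswap_fix_ran h (Set.disjoint_left.1 hq hx) f)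
    · exact Or.inr (hq _)
  · exact Or.inl (gswap_fix_out h h1 h2)

/-- `comm_dom`. -/
theorem gswap_comm_dom (hg : IsPB g) {e : Set S} (he : Disjoint e (gdom g)) {v : Vgrp S}
    (hb : FixCone colB v) : Commute (gswap hg colAB) (restr e v) :=
  gswap_restr_commute hg colAB (Or.inl he) (Or.inr hb)

/-- `comm_ran`. -/
theorem gswap_comm_ran (hg : IsPB g) {e : Set S} (he : Disjoint e (gran g)) {v : Vgrp S}
    (ha : FixCone colA v) : Commute (gswap hg colAB) (restr e v) :=
  gswap_restr_commute hg colAB (Or.inr ha) (Or.inl he)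

/-- `comm_off`. -/
theorem gswap_comm_off (hg : IsPB g) (e : Set S) {v : Vgrp S} (ha : FixCone colA v)
    (hb : FixCone colB v) : Commute (gswap hg colAB) (restr e v) :=
  gswap_restr_commute hg colAB (Or.inr ha) (Or.inr hb)

/-- Placed generators at four separate cones commute. -/
theorem gswap_commute {g' : Set (S × S)} (hg : IsPB g) (hg' : IsPB g') {p' q' : List Bool}
    (h : Apart p q) (h' : Apart p' q') (h1 : Apart p p') (h2 : Apart p q') (h3 : Apart q p')
    (h4 : Apart q q') : Commute (gswap hg h) (gswap hg' h') := by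
  refine Equiv.Perm.Disjoint.commute fun x => ?_
  rcases gswap_cases p q x with ⟨f, s, rfl⟩ | ⟨f, t, rfl⟩ | ⟨hp, hq⟩
  · exact Or.inr (gswap_fix_out h' (fun y => h1.incomp _ y) fun y => h2.incomp _ y)
  · exact Or.inr (gswap_fix_out h' (fun y => h3.incomp _ y) fun y => h4.incomp _ y)
  · exact Or.inl (gswap_fix_out h hp hq)

/-- A placed generator is the product of its two halves. -/
theorem gswap_halves (hg : IsPB g) (h : Apart p q) :
    gswap hg h = gswap hg (h.append [false] [false]) * gswap hg (h.append [true] [true]) := by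
  ext1 x
  rw [Equiv.Perm.mul_apply]
  rcases gswap_cases p q x with ⟨f, s, rfl⟩ | ⟨f, t, rfl⟩ | ⟨hp, hq⟩
  · obtain ⟨c, f', rfl⟩ : ∃ c f', f = cnCons c f' :=
      ⟨(cnSplit.symm f).1, (cnSplit.symm f).2, (cnSplit.apply_symm_apply f).symm⟩
    have e : ∀ (r : List Bool) (a : S),
        (hv S).pre r (cnCons c f', a) = (hv S).pre (r ++ [c]) (f', a) := fun r a => by
      rw [pre_append]; rfl
    have o1 : ∀ (c d : Bool) (z : Sp S) y, c ≠ d →
        (hv S).pre (p ++ [c]) z ≠ (hv S).pre (p ++ [d]) y := fun c d z y hcd he => by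
      rw [pre_append, pre_append] at he
      exact incomp_cons hcd [] [] _ _ (pre_injective p he)
    have o2 : ∀ (c d : Bool) (z : Sp S) y, c ≠ d →
        (hv S).pre (q ++ [c]) z ≠ (hv S).pre (q ++ [d]) y := fun c d z y hcd he => by
      rw [pre_append, pre_append] at he
      exact incomp_cons hcd [] [] _ _ (pre_injective q he)
    by_cases hs : s ∈ gdom g
    · obtain ⟨t, hst⟩ := hs
      rw [gswap_fwd h hst, e, e]
      cases c
      · rw [gswap_fix_out (h.append [true] [true]) (fun y => o1 _ _ _ y (by decide))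
          (fun y => (h.append [false] [true]).incomp _ y), gswap_fwd _ hst]
      · rw [gswap_fwd _ hst, gswap_fix_out (h.append [false] [false])
          (fun y => (h.symm.append [true] [false]).incomp _ y) (fun y => o2 _ _ _ y (by decide))]
    · rw [gswap_fix_dom h hs, e]
      cases c
      · rw [gswap_fix_out (h.append [true] [true]) (fun y => o1 _ _ _ y (by decide))
          (fun y => (h.append [false] [true]).incomp _ y), gswap_fix_dom _ hs]
      · rw [gswap_fix_dom _ hs, gswap_fix_out (h.append [false] [false])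
          (fun y => o1 _ _ _ y (by decide)) (fun y => (h.append [true] [false]).incomp _ y)]
  · obtain ⟨c, f', rfl⟩ : ∃ c f', f = cnCons c f' :=
      ⟨(cnSplit.symm f).1, (cnSplit.symm f).2, (cnSplit.apply_symm_apply f).symm⟩
    have e : ∀ (r : List Bool) (a : S),
        (hv S).pre r (cnCons c f', a) = (hv S).pre (r ++ [c]) (f', a) := fun r a => by
      rw [pre_append]; rfl
    have o1 : ∀ (c d : Bool) (z : Sp S) y, c ≠ d →
        (hv S).pre (p ++ [c]) z ≠ (hv S).pre (p ++ [d]) y := fun c d z y hcd he => by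
      rw [pre_append, pre_append] at he
      exact incomp_cons hcd [] [] _ _ (pre_injective p he)
    have o2 : ∀ (c d : Bool) (z : Sp S) y, c ≠ d →
        (hv S).pre (q ++ [c]) z ≠ (hv S).pre (q ++ [d]) y := fun c d z y hcd he => by
      rw [pre_append, pre_append] at he
      exact incomp_cons hcd [] [] _ _ (pre_injective q he)
    by_cases ht : t ∈ gran g
    · obtain ⟨s, hst⟩ := ht
      rw [gswap_bwd h hst, e, e]
      cases c
      · rw [gswap_fix_out (h.append [true] [true])
          (fun y => (h.symm.append [false] [true]).incomp _ y) (fun y => o2 _ _ _ y (by decide)),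
          gswap_bwd _ hst]
      · rw [gswap_bwd _ hst, gswap_fix_out (h.append [false] [false])
          (fun y => o1 _ _ _ y (by decide)) (fun y => (h.append [true] [false]).incomp _ y)]
    · rw [gswap_fix_ran h ht, e]
      cases c
      · rw [gswap_fix_out (h.append [true] [true])
          (fun y => (h.symm.append [false] [true]).incomp _ y) (fun y => o2 _ _ _ y (by decide)),
          gswap_fix_ran _ ht]
      · rw [gswap_fix_ran _ ht, gswap_fix_out (h.append [false] [false])
          (fun y => (h.symm.append [true] [false]).incomp _ y) (fun y => o2 _ _ _ y (by decide))]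
  · have out : ∀ c, gswap hg (h.append [c] [c]) x = x := fun c =>
      gswap_fix_out _ (fun y e => hp ((hv S).pre [c] y) (by rw [e, pre_append]))
        (fun y e => hq ((hv S).pre [c] y) (by rw [e, pre_append]))
    rw [gswap_fix_out h hp hq, out, out]

/-- `halve`. -/
theorem gswap_halve (hg : IsPB g) (k₀ k₁ : Vgrp S)
    (h0a : MapsCone colA (colA ++ [false]) k₀) (h0b : MapsCone colB (colB ++ [false]) k₀)
    (h1a : MapsCone colA (colA ++ [true]) k₁) (h1b : MapsCone colB (colB ++ [true]) k₁) :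
    gswap hg colAB = k₀.1 * gswap hg colAB * k₀.1⁻¹ * (k₁.1 * gswap hg colAB * k₁.1⁻¹) := by
  rw [gswap_conj hg colAB (colAB.append [false] [false]) k₀ h0a h0b,
    gswap_conj hg colAB (colAB.append [true] [true]) k₁ h1a h1b, ← gswap_halves]

/-- `disj`. -/
theorem gswap_disj {g' : Set (S × S)} (hg : IsPB g) (hg' : IsPB g') (k₀ k₁ : Vgrp S)
    (h0a : MapsCone colA [false, false, false] k₀) (h0b : MapsCone colB [false, false, true] k₀)
    (h1a : MapsCone colA [false, true, false] k₁) (h1b : MapsCone colB [false, true, true] k₁) :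
    Commute (k₀.1 * gswap hg colAB * k₀.1⁻¹) (k₁.1 * gswap hg' colAB * k₁.1⁻¹) := by
  have hL : Apart [false, false, false] [false, false, true] := by simp [Apart]
  have hR : Apart [false, true, false] [false, true, true] := by simp [Apart]
  rw [gswap_conj hg colAB hL k₀ h0a h0b, gswap_conj hg' colAB hR k₁ h1a h1b]
  exact gswap_commute hg hg' hL hR (by simp [Apart]) (by simp [Apart]) (by simp [Apart])
    (by simp [Apart])

/-! ### The two uses -/

theorem Setup.π_G_eq (D : Setup S) (i : D.ι) : D.π (D.G i) = gswap (D.g_pb i) colAB := by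
  have hm : InMon (Set.range D.g) (lift (D.g i)) := .of ⟨i, rfl⟩ (D.g_pb i)
  let b : Bis (coeffOf (Set.range D.g)) := simpleBis colAB hm
  rw [D.π_G i b rfl, swapPerm_eq_gswap (D.g_pb i) colAB b rfl]

theorem Frame.eval_inr (F : Frame S) (i : F.ι) :
    F.eval (FreeGroup.of (Sum.inr i)) = gswap (F.g_pb i) colAB := by
  have hex : ∃ b : Bis F.M, b.1 = piece (hv S) colA colB (lift (F.g i)) :=
    ⟨simpleBis colAB (InMon.of ⟨i, rfl⟩ (F.g_pb i)), rfl⟩
  simp only [Frame.eval, FreeGroup.lift_apply_of, Frame.genPerm, dif_pos hex]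
  exact swapPerm_eq_gswap (F.g_pb i) colAB _ hex.choose_spec

theorem Frame.eval_inl (F : Frame S) (j : Fin F.m) :
    F.eval (FreeGroup.of (Sum.inl j)) = (F.vgen j : Equiv.Perm (Sp S)) := by
  simp [Frame.eval, Frame.genPerm]

end Vale.Agent.P193.Calc
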