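import Vale.Agent.P193.Full.Core.CovFinite
import Vale.Agent.P193.Full.Calc.Restrict

/-! The finite half of the hypotheses of the map calculus holds eventually in every frame:
generators are involutions, inverse graphs give conjugate generators, halving, commutation of
disjointly placed generators and commutation with what fixes the two colours. -/

open Classical

namespace Vale.Agent.P193.Calc

variable {S : Type} (F : Frame S)

namespace Frame

theorem genPerm_inr (i : F.ι) : F.genPerm (.inr i) = gswap (F.g_pb i) colAB := by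
  rw [← F.eval_inr i]
  simp [eval]

theorem genPerm_commute (i : F.ι) {v : Vgrp S} (hv : v ∈ fixBoth S) :
    Commute (F.genPerm (.inr i)) v.1 := by
  rw [F.genPerm_inr, ← restr_univ v]
  exact gswap_comm_off (F.g_pb i) Set.univ hv.1 hv.2

/-- Eventually every generator has the generator of the inverse graph as its conjugate. -/
theorem ev_base_inv (hinv : ∀ i, ∃ j, F.g j = ginv (F.g i)) :
    F.Ev fun M => ∀ φ, IsPhi M φ → ∀ i, ∃ j, F.g j = ginv (F.g i) ∧
      M.f (FreeGroup.of (Sum.inr j)) = φ (vswap colAB) * M.f (FreeGroup.of (Sum.inr i)) *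
        (φ (vswap colAB))⁻¹ := by
  have := F.fin_ι
  choose j hj using hinv
  have h : ∀ i, F.genPerm (.inr (j i)) =
      (vswap (S := S) colAB).1 * F.genPerm (.inr i) * ((vswap (S := S) colAB).1)⁻¹ := fun i => by
    have hp : IsPB (ginv (F.g i)) := hj i ▸ F.g_pb (j i)
    have key : ∀ g (hg : IsPB g), g = ginv (F.g i) → gswap hg colAB = gswap hp colAB := by
      rintro g hg rfl; rfl
    rw [F.genPerm_inr, F.genPerm_inr, key _ (F.g_pb (j i)) (hj i)]
    exact gswap_ginv (F.g_pb i) hp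
  exact (Ev.all fun i => ev_conj i (j i) (vswap colAB) (h i)).mono
    fun M hM φ hφ i => ⟨j i, hj i, hM i φ hφ⟩

/-- Eventually generators commute with the elements fixing both colours. -/
theorem ev_base_comm_off (hK : (fixBoth S).FG) :
    F.Ev fun M => ∀ φ, IsPhi M φ → ∀ i (v : Vgrp S), FixCone colA v → FixCone colB v →
      Commute (M.f (FreeGroup.of (Sum.inr i))) (φ v) := by
  have := F.fin_ι
  exact (Ev.all fun i => ev_commute hK i fun _ hv => F.genPerm_commute i hv).mono
    fun M hM φ hφ i v ha hb => hM i φ hφ v ⟨ha, hb⟩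

/-- Eventually generators are the products of their halves. -/
theorem ev_base_halve (hK : (fixBoth S).FG) :
    F.Ev fun M => ∀ φ, IsPhi M φ → ∀ i (k₀ k₁ : Vgrp S),
      MapsCone colA (colA ++ [false]) k₀ → MapsCone colB (colB ++ [false]) k₀ →
      MapsCone colA (colA ++ [true]) k₁ → MapsCone colB (colB ++ [true]) k₁ →
      M.f (FreeGroup.of (Sum.inr i)) =
        φ k₀ * M.f (FreeGroup.of (Sum.inr i)) * (φ k₀)⁻¹ *
          (φ k₁ * M.f (FreeGroup.of (Sum.inr i)) * (φ k₁)⁻¹) :=
  ev_halve hK (fun i _ hv => F.genPerm_commute i hv) fun i k₀ k₁ h1 h2 h3 h4 => by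
    simp only [F.genPerm_inr]
    exact gswap_halve (F.g_pb i) k₀ k₁ h1 h2 h3 h4

/-- Eventually generators at disjoint cones commute. -/
theorem ev_base_disj (hK : (fixBoth S).FG) :
    F.Ev fun M => ∀ φ, IsPhi M φ → ∀ i j (k₀ k₁ : Vgrp S),
      MapsCone colA [false, false, false] k₀ → MapsCone colB [false, false, true] k₀ →
      MapsCone colA [false, true, false] k₁ → MapsCone colB [false, true, true] k₁ →
      Commute (φ k₀ * M.f (FreeGroup.of (Sum.inr i)) * (φ k₀)⁻¹)
        (φ k₁ * M.f (FreeGroup.of (Sum.inr j)) * (φ k₁)⁻¹) :=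
  ev_disj hK (fun i _ hv => F.genPerm_commute i hv) fun i j k₀ k₁ h1 h2 h3 h4 => by
    simp only [F.genPerm_inr]
    exact gswap_disj (F.g_pb i) (F.g_pb j) k₀ k₁ h1 h2 h3 h4

/-- A map of the trivial-coefficient group over the inclusion exists eventually. -/
theorem ev_exists_phi :
    F.Ev fun M => ∃ φ : Vgrp S →* M.P, IsPhi M φ ∧ ∀ v, M.π (φ v) = v.1 :=
  exists_hom (swapGroup (coeffOf (S := S) ∅)).subtype
    (fun j => FreeGroup.of (Sum.inl j)) fun j => by simp [eval, genPerm]

/-- The finite half of the hypotheses on generators, all at once. -/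
theorem ev_base_finite (hK : (fixBoth S).FG) (hinv : ∀ i, ∃ j, F.g j = ginv (F.g i)) :
    F.Ev fun M => ∃ φ : Vgrp S →* M.P, IsPhi M φ ∧ (∀ v, M.π (φ v) = v.1) ∧
      (∀ i, M.f (FreeGroup.of (Sum.inr i)) * M.f (FreeGroup.of (Sum.inr i)) = 1) ∧
      (∀ i, ∃ j, F.g j = ginv (F.g i) ∧
        M.f (FreeGroup.of (Sum.inr j)) = φ (vswap colAB) * M.f (FreeGroup.of (Sum.inr i)) *
          (φ (vswap colAB))⁻¹) ∧
      (∀ i (v : Vgrp S), FixCone colA v → FixCone colB v →
        Commute (M.f (FreeGroup.of (Sum.inr i))) (φ v)) ∧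
      (∀ i (k₀ k₁ : Vgrp S),
        MapsCone colA (colA ++ [false]) k₀ → MapsCone colB (colB ++ [false]) k₀ →
        MapsCone colA (colA ++ [true]) k₁ → MapsCone colB (colB ++ [true]) k₁ →
        M.f (FreeGroup.of (Sum.inr i)) =
          φ k₀ * M.f (FreeGroup.of (Sum.inr i)) * (φ k₀)⁻¹ *
            (φ k₁ * M.f (FreeGroup.of (Sum.inr i)) * (φ k₁)⁻¹)) ∧
      ∀ i j (k₀ k₁ : Vgrp S),
        MapsCone colA [false, false, false] k₀ → MapsCone colB [false, false, true] k₀ →
        MapsCone colA [false, true, false] k₁ → MapsCone colB [false, true, true] k₁ →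
        Commute (φ k₀ * M.f (FreeGroup.of (Sum.inr i)) * (φ k₀)⁻¹)
          (φ k₁ * M.f (FreeGroup.of (Sum.inr j)) * (φ k₁)⁻¹) := by
  refine ((((F.ev_exists_phi.and ev_invol).and (F.ev_base_inv hinv)).and
    (F.ev_base_comm_off hK)).and ((F.ev_base_halve hK).and (F.ev_base_disj hK))).mono
    fun M hM => ?_
  obtain ⟨⟨⟨⟨⟨φ, hφ, hπ⟩, h1⟩, h2⟩, h3⟩, h4, h5⟩ := hM
  exact ⟨φ, hφ, hπ, h1, h2 φ hφ, h3 φ hφ, h4 φ hφ, h5 φ hφ⟩

end Frame

end Vale.Agent.P193.Calc
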