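import Vale.Agent.P193.Full.Calc.Fields
import Vale.Agent.P193.Full.Calc.EvBase
import Vale.Agent.P193.Full.Calc.Generate
import Vale.Agent.P193.Full.Lift.Split
import Mathlib.GroupTheory.FinitelyPresentedGroup

/-! The generic closing of the map calculus: what remains for the hypotheses on a setup once the
finitely many true relations are imposed, and finite presentation of the swap group from an
eventually central kernel. -/

open Classical

namespace Vale.Agent.P193.Calc

variable {S : Type}

namespace Frame

variable {F : Frame S}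

/-! ### Definability without a model -/

/-- The set of a term of a field system. -/
def FieldSys.tset (K : F.FieldSys) : Ctx.Term K.κ → Set S
  | .full => Set.univ
  | .var i => K.set i
  | .inter a b => K.tset a ∩ K.tset b
  | .diff a b => K.tset a \ K.tset b

/-- The sets definable from the sets of a field system. -/
def FieldSys.Def (K : F.FieldSys) (e : Set S) : Prop := ∃ t, K.tset t = e

variable {K : F.FieldSys} {M : F.Model}

theorem Fields.setup_tset (Φ : Fields K M) (hp : commutator (Vgrp S) = ⊤)
    (hav : Avoids (Vgrp S)) (t : Ctx.Term K.κ) :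
    (Φ.setup hp hav).ctx.tset t = K.tset t := by
  induction t with
  | full => rfl
  | var i => rfl
  | inter a b ha hb => exact congrArg₂ (· ∩ ·) ha hb
  | diff a b ha hb => exact congrArg₂ (· \ ·) ha hb

theorem Fields.setup_def (Φ : Fields K M) (hp : commutator (Vgrp S) = ⊤)
    (hav : Avoids (Vgrp S)) (e : Set S) : (Φ.setup hp hav).Def e ↔ K.Def e :=
  ⟨fun ⟨t, h⟩ => ⟨t, (Φ.setup_tset hp hav t).symm.trans h⟩,
    fun ⟨t, h⟩ => ⟨t, (Φ.setup_tset hp hav t).trans h⟩⟩

/-- The semantic conditions: domains, ranges and images of the sets are definable. -/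
structure FieldSys.Closed (K : F.FieldSys) : Prop where
  dom : ∀ i, K.Def (gdom (F.g i))
  ran : ∀ i, K.Def (gran (F.g i))
  img : ∀ i k, K.Def {t | ∃ s ∈ K.set k, (s, t) ∈ F.g i}

end Frame

namespace Setup

/-- The hypotheses on a setup that concern fields. -/
structure FieldBase (D : Setup S) : Prop where
  empty : D.ctx.EmptyTrivial
  cov : ∀ i k (v : Vgrp S), InCone colA v →
    D.G i * D.h (D.set k ∩ gdom (D.g i)) v * (D.G i)⁻¹ =
      D.h (D.img i (D.set k)) (vswap colAB * v * vswap colAB)
  cov_dom : ∀ i (v : Vgrp S), InCone colA v →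
    D.G i * D.h (gdom (D.g i)) v * (D.G i)⁻¹ =
      D.h (gran (D.g i)) (vswap colAB * v * vswap colAB)
  comm_dom : ∀ i (e : Set S), D.Def e → Disjoint e (gdom (D.g i)) → ∀ v, FixCone colB v →
    Commute (D.G i) (D.h e v)
  comm_ran : ∀ i (e : Set S), D.Def e → Disjoint e (gran (D.g i)) → ∀ v, FixCone colA v →
    Commute (D.G i) (D.h e v)
  comm_off : ∀ i (e : Set S), D.Def e → ∀ v, FixCone colA v → FixCone colB v →
    Commute (D.G i) (D.h e v)

/-- The full field case of `comm_off`. -/
def CommOff (D : Setup S) : Prop :=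
  ∀ i (v : Vgrp S), FixCone colA v → FixCone colB v → Commute (D.G i) (D.φ v)

end Setup

namespace Frame

variable {F : Frame S}

/-- Eventually the generators satisfy their share of the hypotheses: what remains of `Base`
are the statements about fields. -/
theorem ev_base (hK : (fixBoth S).FG) (hinv : ∀ i, ∃ j, F.g j = ginv (F.g i))
    (K : F.FieldSys) (hcl : K.Closed) (hp : commutator (Vgrp S) = ⊤) (hav : Avoids (Vgrp S)) :
    F.Ev fun M => ∀ Φ : Fields K M,
      (Φ.setup hp hav).CommOff ∧
        ((Φ.setup hp hav).FieldBase → (Φ.setup hp hav).Base) := by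
  refine (((ev_invol.and (F.ev_base_inv hinv)).and (F.ev_base_comm_off hK)).and
    ((F.ev_base_halve hK).and (F.ev_base_disj hK))).mono fun M hM Φ => ?_
  obtain ⟨⟨⟨h1, h2⟩, h3⟩, h4, h5⟩ := hM
  exact ⟨h3 Φ.φ Φ.phi, fun H =>
    { empty := H.empty
      dom := fun i => (Φ.setup_def hp hav _).2 (hcl.dom i)
      ran := fun i => (Φ.setup_def hp hav _).2 (hcl.ran i)
      invol := h1
      inv := h2 Φ.φ Φ.phi
      img_def := fun i k => (Φ.setup_def hp hav _).2 (hcl.img i k)
      cov := H.cov
      cov_dom := H.cov_dom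
      comm_dom := H.comm_dom
      comm_ran := H.comm_ran
      comm_off := H.comm_off
      halve := h4 Φ.φ Φ.phi
      disj := h5 Φ.φ Φ.phi }⟩

/-- The calculus from fields, their facts and the loops. -/
theorem ev_calculus (hK : (fixBoth S).FG) (hinv : ∀ i, ∃ j, F.g j = ginv (F.g i))
    (K : F.FieldSys) (hcl : K.Closed) (hp : commutator (Vgrp S) = ⊤) (hav : Avoids (Vgrp S))
    (hex : F.Ev fun M => Nonempty (Fields K M))
    (hfb : F.Ev fun M => ∀ Φ : Fields K M, (Φ.setup hp hav).CommOff →
      (Φ.setup hp hav).FieldBase)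
    (hloop : F.Ev fun M => ∀ Φ : Fields K M, (Φ.setup hp hav).Base → (Φ.setup hp hav).Loops) :
    F.Ev (Calculus K hp hav) := by
  refine ((hex.and (ev_base hK hinv K hcl hp hav)).and (hfb.and hloop)).mono fun M hM => ?_
  obtain ⟨⟨⟨Φ⟩, hb⟩, hf, hl⟩ := hM
  have hB := (hb Φ).2 (hf Φ (hb Φ).1)
  exact ⟨Φ, hB, hl Φ hB⟩

/-! ### Finite presentation -/

/-- The generators of a frame generate the swap group. -/
theorem range_eval : F.eval.range = swapGroup F.M := by
  have hgen : ∀ i, F.genPerm (.inr i) = genSwap F.g_pb i := fun i => by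
    rw [F.genPerm_inr]
    exact (swapPerm_eq_gswap (F.g_pb i) colAB _ rfl).symm
  refine le_antisymm ?_ ?_
  · rintro _ ⟨x, rfl⟩
    induction x using FreeGroup.induction_on with
    | C1 => rw [map_one]; exact one_mem _
    | of x =>
      rcases x with j | i
      · rw [F.eval_inl]; exact vgrp_le (F.vgen j).2
      · rw [F.eval_inr, ← F.genPerm_inr, hgen]
        exact Subgroup.subset_closure ⟨_, rfl⟩
    | inv_of x hx => rw [map_inv]; exact inv_mem hx
    | mul a b ha hb => rw [map_mul]; exact mul_mem ha hb
  · rw [show swapGroup F.M = _ from swapGroup_eq_closure F.g_pb, Subgroup.closure_le]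
    rintro σ (hσ | ⟨i, rfl⟩)
    · exact ⟨word ⟨σ, hσ⟩, eval_word _⟩
    · exact ⟨FreeGroup.of (Sum.inr i), by rw [F.eval_inr, ← F.genPerm_inr, hgen]⟩

theorem eval_mem (x : F.Free) : F.eval x ∈ swapGroup F.M := range_eval (F := F) ▸ ⟨x, rfl⟩

/-- Every model is eventually perfect. -/
theorem ev_perfect : F.Ev fun M => commutator M.P = ⊤ := by
  have := F.fin_ι
  let e : F.Free →* swapGroup F.M := F.eval.codRestrict _ eval_mem
  have he : Function.Surjective e := fun v => by
    obtain ⟨x, hx⟩ : (v : Equiv.Perm (Sp S)) ∈ F.eval.range := by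
      rw [range_eval]; exact v.2
    exact ⟨x, Subtype.ext hx⟩
  have hgen : ∀ s, ∃ c ∈ commutator F.Free, F.eval (FreeGroup.of s) = F.eval c := fun s => by
    have h1 : e (FreeGroup.of s) ∈ (commutator F.Free).map e := by
      rw [commutator_def, Subgroup.map_commutator, Subgroup.map_top_of_surjective e he,
        ← commutator_def]
      exact mem_commutator_swapGroup _
    obtain ⟨c, hc, hce⟩ := h1
    exact ⟨c, hc, congrArg Subtype.val hce.symm⟩
  choose c hc hce using hgen
  refine (Ev.all fun s => Ev.rel (hce s)).mono fun M hM => ?_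
  have hmap : (commutator F.Free).map M.f = commutator M.P := by
    rw [commutator_def, Subgroup.map_commutator, Subgroup.map_top_of_surjective M.f M.f_surj,
      ← commutator_def]
  refine eq_top_iff.2 fun p hp => ?_
  clear hp
  obtain ⟨x, rfl⟩ := M.f_surj p
  induction x using FreeGroup.induction_on with
  | C1 => rw [map_one]; exact one_mem _
  | of s => rw [hM s, ← hmap]; exact Subgroup.mem_map_of_mem _ (hc s)
  | inv_of s hs => rw [map_inv]; exact inv_mem hs
  | mul a b ha hb => rw [map_mul]; exact mul_mem ha hb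

/-- An eventually central kernel makes the swap group finitely presented. -/
theorem fp_of_centralKernel (h : F.Ev fun M => M.π.ker ≤ Subgroup.center M.P) :
    Group.IsFinitelyPresented (swapGroup F.M) := by
  have := F.fin_ι
  obtain ⟨R, hR, hM⟩ := h.and ev_perfect
  have hrel : ∀ r ∈ (R : Set F.Free), FreeGroup.lift F.genPerm r = 1 := hR
  let M₀ : F.Model :=
    { P := PresentedGroup (R : Set F.Free)
      group := inferInstance
      f := PresentedGroup.mk _
      f_surj := PresentedGroup.mk_surjective _
      π := PresentedGroup.toGroup hrel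
      comm := FreeGroup.ext_hom _ _ fun s => by
        rw [MonoidHom.comp_apply]
        exact (PresentedGroup.toGroup.of hrel).trans (FreeGroup.lift_apply_of (f := F.genPerm)).symm }
  obtain ⟨hker, hperf⟩ := hM M₀ fun r hr =>
    PresentedGroup.one_of_mem (Finset.mem_coe.2 hr)
  have hmem : ∀ p : M₀.P, M₀.π p ∈ swapGroup F.M := fun p => by
    obtain ⟨x, rfl⟩ := M₀.f_surj p
    rw [← MonoidHom.comp_apply, M₀.comm]
    exact eval_mem x
  let π' : M₀.P →* swapGroup F.M := M₀.π.codRestrict _ hmem
  have hsurj : Function.Surjective π' := fun v => by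
    obtain ⟨x, hx⟩ : (v : Equiv.Perm (Sp S)) ∈ F.eval.range := by
      rw [range_eval]; exact v.2
    refine ⟨M₀.f x, Subtype.ext ?_⟩
    show M₀.π (M₀.f x) = _
    rw [← MonoidHom.comp_apply, M₀.comm, hx]
  have hinj : Function.Injective π' :=
    swapGroup_centralSplit F.M M₀.P π' hsurj
      (fun p hp => hker (show M₀.π p = 1 from congrArg Subtype.val hp)) hperf
  have : Finite ↥(R : Set F.Free) := R.finite_toSet.to_subtype
  have : Group.IsFinitelyPresented M₀.P :=
    inferInstanceAs (Group.IsFinitelyPresented (PresentedGroup (R : Set F.Free)))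
  exact Group.IsFinitelyPresented.equiv (MulEquiv.ofBijective π' ⟨hinj, hsurj⟩)

/-- The map calculus makes the swap group finitely presented. -/
theorem fp_of_calculus {K : F.FieldSys} {hp : commutator (Vgrp S) = ⊤} {hav : Avoids (Vgrp S)}
    (h : F.Ev (Calculus K hp hav))
    (hkc : ∀ D : Setup S, D.Base → D.Loops → D.Generated → D.KernelCentral) :
    Group.IsFinitelyPresented (swapGroup F.M) :=
  fp_of_centralKernel (Ev.centralKernel h hkc)

end Frame

/-! ### Coefficient monoids generated by equivalent families -/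

/-- Families generating each other give the same coefficients. -/
theorem coeffOf_congr {G G' : Set (Set (S × S))}
    (h1 : ∀ m ∈ G, IsPB m → InMon G' (lift m)) (h2 : ∀ m ∈ G', IsPB m → InMon G (lift m)) :
    coeffOf G = coeffOf G' := by
  have sub : ∀ {A B : Set (Set (S × S))}, (∀ m ∈ A, IsPB m → InMon B (lift m)) →
      ∀ m, InMon A m → InMon B m := by
    intro A B hAB m hm
    induction hm with
    | one => exact .one
    | of hm hp => exact hAB _ hm hp
    | inv _ ih => exact .inv ih
    | comp _ _ i1 i2 => exact .comp i1 i2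
    | compl _ ih => exact .compl ih
    | union _ _ hd hr i1 i2 => exact .union i1 i2 hd hr
  have e : InMon G = InMon G' := funext fun m => propext ⟨sub h1 m, sub h2 m⟩
  simp only [coeffOf, e]

theorem lift_ginv (m : Set (S × S)) : lift (ginv m) = ginv (lift m) :=
  Set.ext fun _ => ⟨fun h => ⟨h.1.symm, h.2⟩, fun h => ⟨h.1.symm, h.2⟩⟩

/-- A frame whose graphs are those of a family or their inverses has the coefficients of that
family. -/
theorem Frame.M_eq (F : Frame S) (G : Set (Set (S × S)))
    (hsub : ∀ m ∈ G, IsPB m → ∃ i, F.g i = m)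
    (hsup : ∀ i, F.g i ∈ G ∨ ginv (F.g i) ∈ G) : F.M = coeffOf G := by
  refine coeffOf_congr ?_ fun m hm hp => ?_
  · rintro _ ⟨i, rfl⟩ hp
    rcases hsup i with h | h
    · exact .of h hp
    · have hp' : IsPB (ginv (F.g i)) :=
        ⟨fun x y z h h' => hp.2 y z x h h', fun x y z h h' => hp.1 z x y h h'⟩
      have h2 := InMon.inv (InMon.of (G := G) h hp')
      rwa [← lift_ginv] at h2
  · obtain ⟨i, rfl⟩ := hsub m hm hp
    exact .of ⟨i, rfl⟩ hp

/-- Finite presentation passes to the family behind a frame. -/
theorem Frame.fp_transfer (F : Frame S) (G : Set (Set (S × S)))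
    (hsub : ∀ m ∈ G, IsPB m → ∃ i, F.g i = m)
    (hsup : ∀ i, F.g i ∈ G ∨ ginv (F.g i) ∈ G)
    (h : Group.IsFinitelyPresented (swapGroup F.M)) :
    Group.IsFinitelyPresented (swapGroup (coeffOf G)) := by
  rw [F.M_eq G hsub hsup] at h
  exact h

end Vale.Agent.P193.Calc
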