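import Vale.Agent.P193.Full.Calc.Algebra

/-! A Boolean algebra of fields indexed by sets: generators that are compatible in pairs and
have trivial fields on empty intersections give a field for every definable set. -/

namespace Vale.Agent.P193.Calc

open scoped commutatorElement
open Classical

variable {W K : Type} [Group W] [Group K]

theorem hom_abelian_eq_one (hp : commutator W = ⊤) {h : W →* K}
    (hh : ∀ v w, Commute (h v) (h w)) : h = 1 := by
  refine hom_ext_commutators hp fun v w => ?_
  rw [map_commutatorElement, MonoidHom.one_apply, commutatorElement_eq_one_iff_mul_comm]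
  exact hh v w

theorem Atoms.one_right (hp : commutator W = ⊤) {one e : W →* K} (t : Atoms one e one) :
    t.a = e ∧ t.b = 1 ∧ t.o = 1 := by
  have hbo : ∀ v, t.b v * t.o v = 1 := fun v => by rw [t.outside, inv_mul_cancel]
  have hb : ∀ v, t.b v = (t.o v)⁻¹ := fun v => eq_inv_of_mul_eq_one_left (hbo v)
  have hb1 : t.b = 1 := hom_abelian_eq_one hp fun v w => by
    rw [hb w]
    exact (t.bo v w).inv_right
  refine ⟨?_, hb1, ?_⟩
  · ext v; rw [t.he, hb1, MonoidHom.one_apply, mul_one]
  · ext v
    have := hbo v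
    rwa [hb1, MonoidHom.one_apply, one_mul] at this

theorem Atoms.self (hp : commutator W = ⊤) {one e : W →* K} (t : Atoms one e e) :
    t.a = e ∧ t.b = 1 := by
  have hbc : t.b = t.c := by
    ext v
    have := (t.he v).symm.trans (t.hf v)
    exact mul_left_cancel this
  have hb1 : t.b = 1 := hom_abelian_eq_one hp fun v w => by
    conv => arg 2; rw [hbc]
    exact t.bc v w
  exact ⟨by ext v; rw [t.he, hb1, MonoidHom.one_apply, mul_one], hb1⟩

/-- Generators of an algebra of fields together with the sets they stand for. -/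
structure Ctx (W K : Type) [Group W] [Group K] where
  one : W →* K
  ι : Type
  x : ι → (W →* K)
  S : Type
  set : ι → Set S
  split : CentralSplit W
  perfect : commutator W = ⊤
  avoids : Avoids W
  one_one : Compat one one one
  x_one : ∀ i, Compat one (x i) one
  pair : ∀ i j, Compat one (x i) (x j)

namespace Ctx

variable (C : Ctx W K)

/-- The generators with the full field. -/
def base : Set (W →* K) := insert C.one (Set.range C.x)

/-- The generated fields. -/
def Fld (h : W →* K) : Prop := Gen C.one C.base h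

theorem compat {h k : W →* K} (hh : C.Fld h) (hk : C.Fld k) : Compat C.one h k := by
  refine gen_compat C.split C.perfect C.avoids (Set.mem_insert _ _) ?_ hh hk
  intro a ha b hb
  rcases ha with rfl | ⟨i, rfl⟩ <;> rcases hb with rfl | ⟨j, rfl⟩
  exacts [C.one_one, (C.x_one j).symm, C.x_one i, C.pair i j]

theorem fld_one : C.Fld C.one := .base (Set.mem_insert _ _)

theorem fld_x (i : C.ι) : C.Fld (C.x i) := .base (Set.mem_insert_of_mem _ ⟨i, rfl⟩)

/-- The meet of two fields. -/
noncomputable def meet (h k : W →* K) : W →* K :=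
  if t : Compat C.one h k then t.some.a else 1

/-- The complement of a field. -/
noncomputable def compl (h : W →* K) : W →* K :=
  if t : Compat C.one C.one h then t.some.b else 1

theorem meet_eq {h k : W →* K} (t : Atoms C.one h k) : C.meet h k = t.a := by
  rw [meet, dif_pos ⟨t⟩]; exact atoms_a_unique C.perfect _ _

theorem compl_eq {h k : W →* K} (hh : C.Fld h) (t : Atoms C.one k h) : C.compl h = t.cofield := by
  have hc := C.compat C.fld_one hh
  rw [compl, dif_pos hc]
  have h1 := hc.some.flip.one_right C.perfect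
  ext v
  have h2 := hc.some.outside v
  rw [show hc.some.o = 1 from h1.2.2, MonoidHom.one_apply, mul_one] at h2
  show _ = t.b v * t.o v
  rw [t.outside, h2]

theorem fld_meet {h k : W →* K} (hh : C.Fld h) (hk : C.Fld k) : C.Fld (C.meet h k) := by
  obtain ⟨t⟩ := C.compat hh hk
  rw [C.meet_eq t]; exact .meet t hh hk

theorem fld_compl {h : W →* K} (hh : C.Fld h) : C.Fld (C.compl h) := by
  have hc := C.compat C.fld_one hh
  rw [compl, dif_pos hc]; exact .diff _ C.fld_one hh

theorem meet_comm {h k : W →* K} (hh : C.Fld h) (hk : C.Fld k) : C.meet h k = C.meet k h := by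
  obtain ⟨t⟩ := C.compat hh hk
  rw [C.meet_eq t, C.meet_eq t.flip]; rfl

theorem meet_assoc' {h k l : W →* K} (hh : C.Fld h) (hk : C.Fld k) (hl : C.Fld l) :
    C.meet (C.meet h k) l = C.meet h (C.meet k l) := by
  obtain ⟨t1⟩ := C.compat hh hk
  obtain ⟨t2⟩ := C.compat hk hl
  obtain ⟨t3⟩ := C.compat hh hl
  obtain ⟨l1⟩ := C.compat (show C.Fld t1.a from .meet t1 hh hk) hl
  obtain ⟨r1⟩ := C.compat hh (show C.Fld t2.a from .meet t2 hk hl)
  rw [C.meet_eq t1, C.meet_eq t2, C.meet_eq l1, C.meet_eq r1]
  exact meet_assoc C.perfect C.avoids (C.compat hh C.fld_one) (C.compat hl C.fld_one) t1 t2 t3 l1 r1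

theorem meet_one {h : W →* K} (hh : C.Fld h) : C.meet h C.one = h := by
  obtain ⟨t⟩ := C.compat hh C.fld_one
  rw [C.meet_eq t]; exact (t.one_right C.perfect).1

theorem meet_self {h : W →* K} (hh : C.Fld h) : C.meet h h = h := by
  obtain ⟨t⟩ := C.compat hh hh
  rw [C.meet_eq t]; exact (t.self C.perfect).1

theorem meet_trivial (h : W →* K) : C.meet h 1 = 1 := by
  by_cases hc : Compat C.one h 1
  · obtain ⟨t⟩ := hc
    rw [C.meet_eq t]
    refine hom_ext_commutators C.perfect fun v w => ?_
    rw [t.a_comm]; simp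
  · rw [meet, dif_neg hc]

theorem meet_compl_self {h : W →* K} (hh : C.Fld h) : C.meet h (C.compl h) = 1 := by
  obtain ⟨t⟩ := C.compat hh hh
  rw [C.compl_eq hh t, C.meet_eq t.coflip]
  exact (t.self C.perfect).2

theorem meet_split {h k : W →* K} (hh : C.Fld h) (hk : C.Fld k) (v : W) :
    h v = C.meet h k v * C.meet h (C.compl k) v := by
  obtain ⟨t⟩ := C.compat hh hk
  rw [C.compl_eq hk t, C.meet_eq t, C.meet_eq t.coflip]
  exact t.he v

theorem meet_disj {h k : W →* K} (hh : C.Fld h) (hk : C.Fld k) :
    Disj (C.meet h k) (C.meet h (C.compl k)) := by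
  obtain ⟨t⟩ := C.compat hh hk
  rw [C.compl_eq hk t, C.meet_eq t, C.meet_eq t.coflip]
  exact t.ab

/-- Boolean terms. -/
inductive Term (ι : Type) where
  | full
  | var (i : ι)
  | inter (a b : Term ι)
  | diff (a b : Term ι)

/-- The set of a term. -/
def tset : Term C.ι → Set C.S
  | .full => Set.univ
  | .var i => C.set i
  | .inter a b => tset a ∩ tset b
  | .diff a b => tset a \ tset b

/-- The field of a term. -/
noncomputable def tfld : Term C.ι → (W →* K)
  | .full => C.one
  | .var i => C.x i
  | .inter a b => C.meet (tfld a) (tfld b)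
  | .diff a b => C.meet (tfld a) (C.compl (tfld b))

theorem fld_tfld (t : Term C.ι) : C.Fld (C.tfld t) := by
  induction t with
  | full => exact C.fld_one
  | var i => exact C.fld_x i
  | inter a b ha hb => exact C.fld_meet ha hb
  | diff a b ha hb => exact C.fld_meet ha (C.fld_compl hb)

/-- The variables of a term. -/
def vars : Term C.ι → List C.ι
  | .full => []
  | .var i => [i]
  | .inter a b => vars a ++ vars b
  | .diff a b => vars a ++ vars b

/-- The field of a signed pattern. -/
noncomputable def atom : List (C.ι × Bool) → (W →* K)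
  | [] => C.one
  | (i, b) :: l => C.meet (if b then C.x i else C.compl (C.x i)) (atom l)

/-- The set of a signed pattern. -/
def aset : List (C.ι × Bool) → Set C.S
  | [] => Set.univ
  | (i, b) :: l => (if b then C.set i else (C.set i)ᶜ) ∩ aset l

theorem fld_lit (i : C.ι) (b : Bool) : C.Fld (if b then C.x i else C.compl (C.x i)) := by
  cases b
  · exact C.fld_compl (C.fld_x i)
  · exact C.fld_x i

theorem fld_atom (l : List (C.ι × Bool)) : C.Fld (C.atom l) := by
  induction l with
  | nil => exact C.fld_one
  | cons p l ih => obtain ⟨i, b⟩ := p; exact C.fld_meet (C.fld_lit i b) ih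

theorem mem_pattern {i : C.ι} {b : Bool} {l : List (C.ι × Bool)} (h : (i, b) ∈ l) :
    C.meet (if b then C.x i else C.compl (C.x i)) (C.atom l) = C.atom l ∧
      C.aset l ⊆ (if b then C.set i else (C.set i)ᶜ) := by
  induction l with
  | nil => simp at h
  | cons p l ih =>
    obtain ⟨j, c⟩ := p
    have hl := C.fld_atom l
    rcases List.mem_cons.1 h with h | h
    · obtain ⟨rfl, rfl⟩ := Prod.mk.inj h
      refine ⟨?_, Set.inter_subset_left⟩
      show C.meet _ (C.meet _ _) = C.meet _ _
      rw [← C.meet_assoc' (C.fld_lit i b) (C.fld_lit i b) hl, C.meet_self (C.fld_lit i b)]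
    · refine ⟨?_, fun s hs => (ih h).2 hs.2⟩
      show C.meet _ (C.meet _ _) = C.meet _ _
      rw [← C.meet_assoc' (C.fld_lit i b) (C.fld_lit j c) hl,
        C.meet_comm (C.fld_lit i b) (C.fld_lit j c),
        C.meet_assoc' (C.fld_lit j c) (C.fld_lit i b) hl, (ih h).1]

theorem term_pattern (t : Term C.ι) {l : List (C.ι × Bool)}
    (h : ∀ i ∈ C.vars t, ∃ b, (i, b) ∈ l) :
    (C.meet (C.tfld t) (C.atom l) = C.atom l ∧ C.aset l ⊆ C.tset t) ∨
      (C.meet (C.tfld t) (C.atom l) = 1 ∧ C.aset l ∩ C.tset t = ∅) := by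
  have hl := C.fld_atom l
  induction t with
  | full =>
    exact Or.inl ⟨by rw [tfld, C.meet_comm C.fld_one hl, C.meet_one hl], Set.subset_univ _⟩
  | var i =>
    obtain ⟨b, hb⟩ := h i (List.mem_singleton.2 rfl)
    obtain ⟨h1, h2⟩ := C.mem_pattern hb
    cases b
    · refine Or.inr ⟨?_, ?_⟩
      · simp only [Bool.false_eq_true, if_false] at h1
        rw [tfld, ← h1, ← C.meet_assoc' (C.fld_x i) (C.fld_compl (C.fld_x i)) hl,
          C.meet_compl_self (C.fld_x i)]
        rw [show C.meet 1 (C.atom l) = 1 from ?_]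
        by_cases hc : Compat C.one 1 (C.atom l)
        · obtain ⟨t⟩ := hc
          rw [C.meet_eq t]
          refine hom_ext_commutators C.perfect fun v w => ?_
          rw [t.a_comm]; simp
        · rw [meet, dif_neg hc]
      · ext s
        simp only [Bool.false_eq_true, if_false] at h2
        exact ⟨fun ⟨a, b⟩ => h2 a b, fun h => h.elim⟩
    · exact Or.inl ⟨h1, h2⟩
  | inter a b iha ihb =>
    have ha := C.fld_tfld a
    have hb := C.fld_tfld b
    rcases ihb fun i hi => h i (List.mem_append_right _ hi) with ⟨h1, h2⟩ | ⟨h1, h2⟩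
    · rcases iha fun i hi => h i (List.mem_append_left _ hi) with ⟨k1, k2⟩ | ⟨k1, k2⟩
      · exact Or.inl ⟨by rw [tfld, C.meet_assoc' ha hb hl, h1, k1], fun s hs => ⟨k2 hs, h2 hs⟩⟩
      · exact Or.inr ⟨by rw [tfld, C.meet_assoc' ha hb hl, h1, k1],
          Set.eq_empty_of_forall_notMem fun s hs => k2.subset ⟨hs.1, hs.2.1⟩⟩
    · exact Or.inr ⟨by rw [tfld, C.meet_assoc' ha hb hl, h1, C.meet_trivial],
        Set.eq_empty_of_forall_notMem fun s hs => h2.subset ⟨hs.1, hs.2.2⟩⟩
  | diff a b iha ihb =>
    have ha := C.fld_tfld a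
    have hb := C.fld_tfld b
    have hcb := C.fld_compl hb
    have hsp : ∀ v, C.atom l v =
        C.meet (C.tfld b) (C.atom l) v * C.meet (C.compl (C.tfld b)) (C.atom l) v := fun v => by
      rw [C.meet_comm hb hl, C.meet_comm hcb hl]; exact C.meet_split hl hb v
    rcases ihb fun i hi => h i (List.mem_append_right _ hi) with ⟨h1, h2⟩ | ⟨h1, h2⟩
    · have h3 : C.meet (C.compl (C.tfld b)) (C.atom l) = 1 := by
        ext v
        have := hsp v
        rw [h1] at this
        exact mul_left_cancel (this.symm.trans (mul_one _).symm)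
      exact Or.inr ⟨by rw [tfld, C.meet_assoc' ha hcb hl, h3, C.meet_trivial],
        Set.eq_empty_of_forall_notMem fun s hs => hs.2.2 (h2 hs.1)⟩
    · have h3 : C.meet (C.compl (C.tfld b)) (C.atom l) = C.atom l := by
        ext v
        have := hsp v
        rw [h1, MonoidHom.one_apply, one_mul] at this
        exact this.symm
      rcases iha fun i hi => h i (List.mem_append_left _ hi) with ⟨k1, k2⟩ | ⟨k1, k2⟩
      · exact Or.inl ⟨by rw [tfld, C.meet_assoc' ha hcb hl, h3, k1],
          fun s hs => ⟨k2 hs, fun hb' => h2.subset ⟨hs, hb'⟩⟩⟩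
      · exact Or.inr ⟨by rw [tfld, C.meet_assoc' ha hcb hl, h3, k1],
          Set.eq_empty_of_forall_notMem fun s hs => k2.subset ⟨hs.1, hs.2.1⟩⟩

/-- The hypothesis: an empty pattern has trivial field. -/
def EmptyTrivial : Prop := ∀ l, C.aset l = ∅ → C.atom l = 1

theorem eq_one_of_empty (hE : C.EmptyTrivial) (t : Term C.ι) (ht : C.tset t = ∅) :
    C.tfld t = 1 := by
  have htf := C.fld_tfld t
  have key : ∀ (L : List C.ι) (l : List (C.ι × Bool)),
      (∀ i ∈ C.vars t, i ∈ L ∨ ∃ b, (i, b) ∈ l) → C.meet (C.tfld t) (C.atom l) = 1 := by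
    intro L
    induction L with
    | nil =>
      intro l hl
      rcases C.term_pattern t (l := l) fun i hi => (hl i hi).resolve_left (by simp) with
        ⟨h1, h2⟩ | ⟨h1, -⟩
      · rw [h1]; exact hE l (Set.subset_eq_empty h2 ht)
      · exact h1
    | cons i L ih =>
      intro l hl
      have hx := C.fld_x i
      have hal := C.fld_atom l
      have step : ∀ b, C.meet (C.tfld t) (C.atom ((i, b) :: l)) = 1 := fun b => ih _ fun j hj => by
        rcases hl j hj with h | ⟨c, hc⟩
        · rcases List.mem_cons.1 h with rfl | h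
          · exact Or.inr ⟨b, List.mem_cons_self⟩
          · exact Or.inl h
        · exact Or.inr ⟨c, List.mem_cons_of_mem _ hc⟩
      have e1 := step true
      have e2 := step false
      simp only [atom, if_true, Bool.false_eq_true, if_false] at e1 e2
      rw [C.meet_comm hx hal, ← C.meet_assoc' htf hal hx] at e1
      rw [C.meet_comm (C.fld_compl hx) hal, ← C.meet_assoc' htf hal (C.fld_compl hx)] at e2
      ext v
      rw [C.meet_split (C.fld_meet htf hal) hx v, e1, e2]
      simp
  have h0 := key (C.vars t) [] fun i hi => Or.inl hi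
  rwa [atom, C.meet_one htf] at h0

/-- Terms with one set have one field. -/
theorem tfld_congr (hE : C.EmptyTrivial) {a b : Term C.ι} (h : C.tset a = C.tset b) :
    C.tfld a = C.tfld b := by
  have ha := C.fld_tfld a
  have hb := C.fld_tfld b
  have d1 := C.eq_one_of_empty hE (.diff a b) (by simp [tset, h])
  have d2 := C.eq_one_of_empty hE (.diff b a) (by simp [tset, h])
  ext v
  rw [C.meet_split ha hb v, show C.meet (C.tfld a) (C.compl (C.tfld b)) = 1 from d1,
    C.meet_split hb ha v, show C.meet (C.tfld b) (C.compl (C.tfld a)) = 1 from d2,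
    C.meet_comm ha hb]

/-- A definable set. -/
def Definable (s : Set C.S) : Prop := ∃ t, C.tset t = s

/-- The field of a definable set. -/
noncomputable def field (s : Set C.S) : W →* K :=
  if h : C.Definable s then C.tfld h.choose else 1

theorem field_eq (hE : C.EmptyTrivial) (t : Term C.ι) : C.field (C.tset t) = C.tfld t := by
  have h : C.Definable (C.tset t) := ⟨t, rfl⟩
  rw [field, dif_pos h]; exact C.tfld_congr hE h.choose_spec

theorem field_inter (hE : C.EmptyTrivial) {s u : Set C.S} (hs : C.Definable s)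
    (hu : C.Definable u) : C.field (s ∩ u) = C.meet (C.field s) (C.field u) := by
  obtain ⟨a, rfl⟩ := hs
  obtain ⟨b, rfl⟩ := hu
  rw [show C.tset a ∩ C.tset b = C.tset (.inter a b) from rfl, C.field_eq hE, C.field_eq hE,
    C.field_eq hE, tfld]

/-- Fields are additive on disjoint sets. -/
theorem field_union (hE : C.EmptyTrivial) {s u : Set C.S} (hs : C.Definable s)
    (hu : C.Definable u) (hd : Disjoint s u) :
    C.Definable (s ∪ u) ∧ Disj (C.field s) (C.field u) ∧
      ∀ v, C.field (s ∪ u) v = C.field s v * C.field u v := by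
  obtain ⟨a, rfl⟩ := hs
  obtain ⟨b, rfl⟩ := hu
  let t : Term C.ι := .diff .full (.inter (.diff .full a) (.diff .full b))
  have ht : C.tset t = C.tset a ∪ C.tset b := by
    ext x; simp [t, tset]; tauto
  have h1 : C.tset (.inter t a) = C.tset a := by
    show C.tset t ∩ C.tset a = _
    rw [ht, Set.union_inter_cancel_left]
  have h2 : C.tset (.diff t a) = C.tset b := by
    show C.tset t \ C.tset a = _
    rw [ht, Set.union_diff_left, hd.symm.sdiff_eq_left]
  have f1 : C.meet (C.tfld t) (C.tfld a) = C.tfld a := C.tfld_congr hE h1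
  have f2 : C.meet (C.tfld t) (C.compl (C.tfld a)) = C.tfld b := C.tfld_congr hE h2
  refine ⟨⟨t, ht⟩, ?_, fun v => ?_⟩
  · rw [C.field_eq hE, C.field_eq hE]
    have hd' := C.meet_disj (C.fld_tfld t) (C.fld_tfld a)
    rwa [f1, f2] at hd'
  · rw [← ht, C.field_eq hE, C.field_eq hE, C.field_eq hE,
      C.meet_split (C.fld_tfld t) (C.fld_tfld a) v, f1, f2]

end Ctx

end Vale.Agent.P193.Calc
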