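import Vale.Agent.P193.Full.Calc.BaseField
import Vale.Agent.P193.Full.Calc.EvBase
import Vale.Agent.P193.Full.Lift.Split

/-! Systems of fields given by words, and the setup they give in a model. -/

namespace Vale.Agent.P193.Calc

open Classical

variable {S : Type}

namespace Frame

/-- Sets whose restrictions are realised by words in the generators. -/
structure FieldSys (F : Frame S) where
  κ : Type
  set : κ → Set S
  word : κ → Fin F.m → F.Free
  eval_word : ∀ k j, F.eval (word k j) = restr (set k) (F.vgen j)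

variable {F : Frame S} (K : F.FieldSys)

/-- The fields of a system in a model. -/
structure Fields (M : F.Model) where
  φ : Vgrp S →* M.P
  phi : IsPhi M φ
  fld : K.κ → (Vgrp S →* M.P)
  fld_eq : ∀ k j, fld k (F.vgen j) = M.f (K.word k j)
  fld_one : ∀ k, Compat φ (fld k) φ
  pair : ∀ k l, Compat φ (fld k) (fld l)

variable {K} {M : F.Model}

theorem IsPhi.comp_π {φ : Vgrp S →* M.P} (h : IsPhi M φ) (v : Vgrp S) :
    M.π (φ v) = (v : Equiv.Perm (Sp S)) := by
  have e : M.π.comp φ = Subgroup.subtype _ := hom_ext (F := F) fun j => by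
    rw [MonoidHom.comp_apply, h j, ← MonoidHom.comp_apply, M.comm, eval_inl]
    rfl
  exact DFunLike.congr_fun e v

theorem Fields.fld_π (Φ : Fields K M) (k : K.κ) (v : Vgrp S) :
    M.π (Φ.fld k v) = restr (K.set k) v := by
  have e : M.π.comp (Φ.fld k) = restr (K.set k) := hom_ext (F := F) fun j => by
    rw [MonoidHom.comp_apply, Φ.fld_eq k j, ← MonoidHom.comp_apply, M.comm, K.eval_word]
  exact DFunLike.congr_fun e v

/-- The setup of a field system in a model. -/
noncomputable def Fields.setup (Φ : Fields K M) (hp : commutator (Vgrp S) = ⊤)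
    (hav : Avoids (Vgrp S)) : Setup S where
  ι := F.ι
  fin_ι := F.fin_ι
  g := F.g
  g_pb := F.g_pb
  P := M.P
  group := M.group
  π := M.π
  φ := Φ.φ
  π_φ := Φ.phi.comp_π
  G i := M.f (FreeGroup.of (Sum.inr i))
  π_G i b hb := by
    rw [swapPerm_eq_gswap (F.g_pb i) colAB b hb, ← MonoidHom.comp_apply, M.comm, eval_inr]
  κ := K.κ
  set := K.set
  fld := Φ.fld
  π_fld k v := by rw [Φ.fld_π]; exact actsOn_restr _ _
  split := swapGroup_centralSplit _
  avoids := hav
  perfectV := hp
  one_one := compat_full fun v w => by simp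
  fld_one := Φ.fld_one
  pair := Φ.pair

theorem Fields.setup_generated (Φ : Fields K M) (hp : commutator (Vgrp S) = ⊤)
    (hav : Avoids (Vgrp S)) : (Φ.setup hp hav).Generated :=
  generated M Φ.phi

/-- Fields satisfying all hypotheses of the map calculus. -/
def Calculus (K : F.FieldSys) (hp : commutator (Vgrp S) = ⊤) (hav : Avoids (Vgrp S))
    (M : F.Model) : Prop :=
  ∃ Φ : Fields K M, (Φ.setup hp hav).Base ∧ (Φ.setup hp hav).Loops

/-- The map calculus makes the kernel eventually central. -/
theorem Ev.centralKernel {hp : commutator (Vgrp S) = ⊤} {hav : Avoids (Vgrp S)}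
    (h : F.Ev (Calculus K hp hav))
    (hK : ∀ D : Setup S, D.Base → D.Loops → D.Generated → D.KernelCentral) :
    F.Ev fun M => M.π.ker ≤ Subgroup.center M.P :=
  h.mono fun _ ⟨Φ, hb, hl⟩ => hK (Φ.setup hp hav) hb hl (Φ.setup_generated hp hav)

end Frame

end Vale.Agent.P193.Calc
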