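import Vale.Agent.P193.Full.Calc.Maps.Chain
import Vale.Agent.P193.Full.Calc.Maps.Track

/-! Rewriting of words of generators: two words are equivalent on a definable set when their
transported transpositions agree. The relation needs the hypotheses `Base` only; with the loop
hypothesis words with one graph on the set are equivalent. -/

open Classical

namespace Vale.Agent.P193.Calc

theorem apartAC : Apart colA colC := by simp [Apart, colA, colC]

theorem apartBC : Apart colB colC := by simp [Apart, colB, colC]

/-- The first, the spare and the second colour leave room. -/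
theorem free_three : Free [colA, colB, colC] :=
  ⟨[true, true], by simp [Apart, colA, colB, colC]⟩

variable {S : Type}

namespace Setup

section Plain

variable {D : Setup S}

/-! ### Words -/

theorem wdef_empty (w : List D.ι) : D.WDef w (∅ : Set S) := by
  induction w with
  | nil => trivial
  | cons i w ih => exact ⟨Set.empty_subset _, by rw [img_empty]; exact ih⟩

theorem wdef_union {w : List D.ι} :
    ∀ {e f : Set S}, D.WDef w e → D.WDef w f → D.WDef w (e ∪ f) := by
  induction w with
  | nil => exact fun _ _ => trivial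
  | cons i w ih =>
    intro e f he hf
    exact ⟨Set.union_subset he.1 hf.1, by rw [img_union]; exact ih he.2 hf.2⟩

/-- Words with one graph on a set have one image of it. -/
theorem wimg_congr {e : Set S} {u v : List D.ι}
    (h : ∀ s ∈ e, ∀ t, (s, t) ∈ D.wgraph u ↔ (s, t) ∈ D.wgraph v) :
    D.wimg u e = D.wimg v e := by
  ext t
  rw [mem_wimg u, mem_wimg v]
  exact ⟨fun ⟨s, hs, g⟩ => ⟨s, hs, (h s hs t).1 g⟩, fun ⟨s, hs, g⟩ => ⟨s, hs, (h s hs t).2 g⟩⟩

end Plain

/-- Two words are equivalent on a set: both are defined there and their chains agree. -/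
structure Rw (D : Setup S) (e : Set S) (u v : List D.ι) : Prop where
  df : D.Def e
  left : D.WDef u e
  right : D.WDef v e
  eq : D.chain colA colC colB e u = D.chain colA colC colB e v

variable {D : Setup S} {e f : Set S} {u v w : List D.ι}

theorem Rw.refl (he : D.Def e) (hu : D.WDef u e) : D.Rw e u u := ⟨he, hu, hu, rfl⟩

theorem Rw.symm (h : D.Rw e u v) : D.Rw e v u := ⟨h.df, h.right, h.left, h.eq.symm⟩

theorem Rw.trans (h : D.Rw e u v) (h' : D.Rw e v w) : D.Rw e u w :=
  ⟨h.df, h.left, h'.right, h.eq.trans h'.eq⟩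

variable (hb : D.Base)
include hb

/-- A word has a word of the inverse generators undoing it. -/
theorem exists_rev (w : List D.ι) : ∀ {e : Set S}, D.WDef w e → ∃ w' : List D.ι,
    D.WDef w' (D.wimg w e) ∧ D.wimg w' (D.wimg w e) = e ∧
      ∀ s ∈ e, ∀ t, (s, t) ∈ D.wgraph w → (t, s) ∈ D.wgraph w' := by
  induction w with
  | nil =>
    intro e _
    refine ⟨[], trivial, rfl, ?_⟩
    rintro s - t ⟨h, -⟩
    exact ⟨h.symm, trivial⟩
  | cons i w ih =>
    intro e h
    obtain ⟨w', h1, h2, h3⟩ := ih h.2
    obtain ⟨j, hj, -⟩ := hb.inv i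
    have hsub : D.img i e ⊆ gdom (D.g j) := by
      rw [gdom_partner hj]; exact img_subset_ran i e
    refine ⟨w' ++ [j], (wdef_append _ _ _).2 ⟨h1, ?_⟩, ?_, ?_⟩
    · show D.WDef [j] (D.wimg w' (D.wimg w (D.img i e)))
      rw [h2]
      exact ⟨hsub, trivial⟩
    · show D.wimg (w' ++ [j]) (D.wimg w (D.img i e)) = e
      rw [wimg_append, h2]
      exact img_partner hj h.1
    · rintro s hs t ⟨m, hm, ht⟩
      refine (mem_wgraph_append _ _).2 ⟨m, h3 m ⟨s, hs, hm⟩ t ht, s, ?_, rfl, trivial⟩
      rw [hj]
      exact hm

theorem chain_cols (he : D.Def e) (hw : D.WDef w e) :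
    D.chain colA colC colB e w = D.echain colA colB e w :=
  chain_eq hb colAB apartAC.symm apartBC.symm
    (free_three.mono (by simp)) he hw

theorem Rw.echain_cols (h : D.Rw e u v) :
    D.echain colA colB e u = D.echain colA colB e v := by
  rw [← chain_cols hb h.df h.left, ← chain_cols hb h.df h.right, h.eq]

/-- Equal chains at one pair of cones with room are equal at every pair. -/
theorem echain_move {p q p' q' : List Bool} (hpq : Apart p q) (hf : Free [p, q])
    (hpq' : Apart p' q') (hf' : Free [p', q']) (he : D.Def e) (hu : D.WDef u e)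
    (hv : D.WDef v e) (h : D.echain p q e u = D.echain p q e v) :
    D.echain p' q' e u = D.echain p' q' e v := by
  obtain ⟨k, hk⟩ := exists_maps (S := S) (ps := [p, q]) (qs := [p', q']) rfl
    (room_pair hpq hf) (room_pair hpq' hf')
  have k0 : MapsCone p p' k := hk 0 (by simp)
  have k1 : MapsCone q q' k := hk 1 (by simp)
  rw [← echain_conj hb hpq hpq' hf hf' k0 k1 he hu,
    ← echain_conj hb hpq hpq' hf hf' k0 k1 he hv, h]

/-- Equivalent words have equal chains at all pairs of cones with room. -/
theorem Rw.echain_eq (h : D.Rw e u v) {p q : List Bool} (hpq : Apart p q) (hf : Free [p, q]) :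
    D.echain p q e u = D.echain p q e v :=
  echain_move hb colAB free_cols hpq hf h.df h.left h.right (h.echain_cols hb)

/-- Equal chains at one pair of cones with room give equivalence. -/
theorem Rw.of_echain {p q : List Bool} (hpq : Apart p q) (hf : Free [p, q]) (he : D.Def e)
    (hu : D.WDef u e) (hv : D.WDef v e) (h : D.echain p q e u = D.echain p q e v) :
    D.Rw e u v := by
  refine ⟨he, hu, hv, ?_⟩
  rw [chain_cols hb he hu, chain_cols hb he hv]
  exact echain_move hb hpq hf colAB free_cols he hu hv h

/-- On the empty set all words are equivalent. -/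
theorem Rw.empty (u v : List D.ι) : D.Rw ∅ u v := by
  refine ⟨Def.empty, wdef_empty u, wdef_empty v, ?_⟩
  have key : ∀ (w : List D.ι) (p r q : List Bool), D.chain p r q (∅ : Set S) w = 1 := by
    intro w
    induction w with
    | nil =>
      intro p r q
      show D.sw ∅ p q = 1
      exact sw_empty hb p q
    | cons i w ih =>
      intro p r q
      show D.place i p r * D.chain r p q (D.img i ∅) w * (D.place i p r)⁻¹ = 1
      rw [img_empty, ih, mul_one, mul_inv_cancel]
  rw [key u, key v]

/-- Equivalence is additive in the set. -/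
theorem Rw.union (h : D.Rw e u v) (h' : D.Rw f u v) (hd : Disjoint e f) : D.Rw (e ∪ f) u v := by
  refine Rw.of_echain hb colAB free_cols
    (D.ctx.field_union hb.empty h.df h'.df hd).1 (wdef_union h.left h'.left)
    (wdef_union h.right h'.right) ?_
  rw [echain_union hb h.df h'.df hd, echain_union hb h.df h'.df hd, h.echain_cols hb,
    h'.echain_cols hb]

/-- Equivalence passes to definable subsets. -/
theorem Rw.mono (h : D.Rw e u v) {e' : Set S} (he' : D.Def e') (hsub : e' ⊆ e) :
    D.Rw e' u v := by
  have hC : Apart colC colA ∧ Apart colC colB := ⟨apartAC.symm, apartBC.symm⟩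
  have hfr : Free [colC, colA, colB] := free_three.mono (by simp)
  have key : ∀ z : List D.ι, D.WDef z e →
      D.echain colA colB e z * D.sw e' colA colC * D.echain colA colB e z =
        D.echain colC colB e' z := by
    intro z hz
    have hd : D.Def (e \ e') := h.df.sdiff he'
    have hu := echain_union hb hd he' disjoint_sdiff_self_left colA colB z
    have hu' := echain_union hb he' hd disjoint_sdiff_self_right colA colB z
    rw [Set.sdiff_union_of_subset hsub] at hu
    rw [Set.union_sdiff_cancel hsub] at hu'
    have hc := echain_comm_sw_src hb (p := colA) (q := colB) (a := colA) (b := colC) colAB apartAC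
      colAB.symm apartBC (free_three.mono (by simp)) hd (wdef_mono Set.sdiff_subset hz) he'
      disjoint_sdiff_self_right
    have hi := echain_inv hb colA colB (e \ e') z
    rw [← echain_LB hb (x := colC) colAB hC.1 hC.2 hfr he' (wdef_mono hsub hz)]
    conv_lhs => arg 1; arg 1; rw [hu']
    conv_lhs => arg 2; rw [hu]
    calc D.echain colA colB e' z * D.echain colA colB (e \ e') z * D.sw e' colA colC *
          (D.echain colA colB (e \ e') z * D.echain colA colB e' z)
        = D.echain colA colB e' z * (D.echain colA colB (e \ e') z * D.sw e' colA colC) *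
            D.echain colA colB (e \ e') z * D.echain colA colB e' z := by group
      _ = D.echain colA colB e' z * D.sw e' colA colC *
            (D.echain colA colB (e \ e') z * (D.echain colA colB (e \ e') z)⁻¹) *
              D.echain colA colB e' z := by rw [hc.eq, hi]; group
      _ = _ := by group
  refine Rw.of_echain hb apartBC.symm (free_three.mono (by simp)) he'
    (wdef_mono hsub h.left) (wdef_mono hsub h.right) ?_
  rw [← key u h.left, ← key v h.right, h.echain_cols hb]

/-- Words may be prefixed. -/
theorem Rw.prepend {a : List D.ι} (he : D.Def e) (ha : D.WDef a e)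
    (h : D.Rw (D.wimg a e) u v) : D.Rw e (a ++ u) (a ++ v) := by
  have hu := (wdef_append a u e).2 ⟨ha, h.left⟩
  have hv := (wdef_append a v e).2 ⟨ha, h.right⟩
  refine Rw.of_echain hb colAB free_cols he hu hv ?_
  have hfr : Free [colC, colA, colB] := free_three.mono (by simp)
  rw [← echain_concat hb colAB apartAC.symm apartBC.symm hfr he ha h.left,
    ← echain_concat hb colAB apartAC.symm apartBC.symm hfr he ha h.right,
    h.echain_eq hb apartBC.symm (free_three.mono (by simp))]

/-- Words with one image may be extended. -/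
theorem Rw.append (h : D.Rw e u v) (himg : D.wimg u e = D.wimg v e)
    (hw : D.WDef w (D.wimg u e)) : D.Rw e (u ++ w) (v ++ w) := by
  have hu := (wdef_append u w e).2 ⟨h.left, hw⟩
  have hv := (wdef_append v w e).2 ⟨h.right, himg ▸ hw⟩
  refine Rw.of_echain hb colAB free_cols h.df hu hv ?_
  have hfr : Free [colC, colA, colB] := free_three.mono (by simp)
  rw [← echain_concat hb colAB apartAC.symm apartBC.symm hfr h.df h.left hw,
    ← echain_concat hb colAB apartAC.symm apartBC.symm hfr h.df h.right (himg ▸ hw),
    h.echain_eq hb apartAC (free_three.mono (by simp)), himg]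

/-- Words with one graph on the set may be extended. -/
theorem Rw.append_graph (h : D.Rw e u v)
    (hg : ∀ s ∈ e, ∀ t, (s, t) ∈ D.wgraph u ↔ (s, t) ∈ D.wgraph v)
    (hw : D.WDef w (D.wimg u e)) : D.Rw e (u ++ w) (v ++ w) :=
  h.append hb (wimg_congr hg) hw

/-- A generator followed by its partner cancels. -/
theorem Rw.cancel {i j : D.ι} (hg : D.g j = ginv (D.g i))
    (hG : D.G j = D.φ (vswap colAB) * D.G i * (D.φ (vswap colAB))⁻¹) (he : D.Def e)
    (hdom : e ⊆ gdom (D.g i)) : D.Rw e [i, j] [] := by
  refine ⟨he, ⟨hdom, ⟨?_, trivial⟩⟩, trivial, ?_⟩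
  · rw [gdom_partner hg]; exact img_subset_ran i e
  show D.place i colA colC * (D.place j colC colA * D.sw (D.img j (D.img i e)) colA colB *
      (D.place j colC colA)⁻¹) * (D.place i colA colC)⁻¹ = D.sw e colA colB
  rw [img_partner hg hdom, place_partner hb hG apartAC (free_three.mono (by simp)), place_inv hb,
    ← mul_assoc, ← mul_assoc, place_sq hb, one_mul, mul_assoc, place_sq hb, mul_one]

/-- Every generator has a partner cancelling it. -/
theorem Rw.exists_cancel (i : D.ι) :
    ∃ j, D.g j = ginv (D.g i) ∧ ∀ {e : Set S}, D.Def e → e ⊆ gdom (D.g i) → D.Rw e [i, j] [] := by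
  obtain ⟨j, hg, hG⟩ := hb.inv i
  exact ⟨j, hg, fun he hdom => Rw.cancel hb hg hG he hdom⟩

/-! ### Congruence, with the loop hypothesis -/

omit hb in
theorem Rw.loop (hl : D.Loops) (he : D.Def e) (hw : D.WDef w e)
    (hid : ∀ s ∈ e, (s, s) ∈ D.wgraph w) : D.Rw e w [] := by
  refine ⟨he, hw, trivial, ?_⟩
  rw [hl w e he hw hid]
  exact (sw_eq colAB).symm

/-- Words with one graph on the set are equivalent. -/
theorem Rw.of_graph (hl : D.Loops) (he : D.Def e) (hu : D.WDef u e) (hv : D.WDef v e)
    (hg : ∀ s ∈ e, ∀ t, (s, t) ∈ D.wgraph u ↔ (s, t) ∈ D.wgraph v) : D.Rw e u v := by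
  obtain ⟨v', h1, h2, h3⟩ := exists_rev hb v hv
  have himg := wimg_congr hg
  have hf : D.Def (D.wimg v e) := def_wimg hb he v
  -- `u ++ v'` is a loop on `e`
  have l1 : D.Rw e (u ++ v') [] := by
    refine Rw.loop hl he ((wdef_append _ _ _).2 ⟨hu, himg ▸ h1⟩) fun s hs => ?_
    obtain ⟨t, ht⟩ := wdef_exists hu hs
    exact (mem_wgraph_append _ _).2 ⟨t, ht, h3 s hs t ((hg s hs t).1 ht)⟩
  -- `v' ++ v` is a loop on the image
  have l2 : D.Rw (D.wimg v e) (v' ++ v) [] := by
    refine Rw.loop hl hf ((wdef_append _ _ _).2 ⟨h1, by rw [h2]; exact hv⟩) fun t ht => ?_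
    obtain ⟨s, hs, hst⟩ := (mem_wimg v).1 ht
    exact (mem_wgraph_append _ _).2 ⟨s, h3 s hs t hst, hst⟩
  have e1 : D.wimg (u ++ v') e = e := by rw [wimg_append, himg, h2]
  have r1 : D.Rw e (u ++ v' ++ v) ([] ++ v) := l1.append hb e1 (by rw [e1]; exact hv)
  have r2 : D.Rw e (u ++ (v' ++ v)) (u ++ []) := Rw.prepend hb he hu (by rw [himg]; exact l2)
  rw [List.append_assoc] at r1
  rw [List.append_nil] at r2
  exact r2.symm.trans r1

/-- Words with one graph on the set have equal chains at all pairs of cones with room. -/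
theorem echain_congr (hl : D.Loops) (he : D.Def e) (hu : D.WDef u e) (hv : D.WDef v e)
    (hg : ∀ s ∈ e, ∀ t, (s, t) ∈ D.wgraph u ↔ (s, t) ∈ D.wgraph v) {p q : List Bool}
    (hpq : Apart p q) (hf : Free [p, q]) : D.echain p q e u = D.echain p q e v :=
  (Rw.of_graph hb hl he hu hv hg).echain_eq hb hpq hf

end Setup

end Vale.Agent.P193.Calc
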