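import Vale.Agent.P193.Full.Calc.Bool

/-! The meet of two fields is compatible with every field compatible with both. -/

namespace Vale.Agent.P193.Calc

open scoped commutatorElement

variable {W K : Type} [Group W] [Group K]

/-- Everything generated by the ranges of two fields. -/
def gen2 (h k : W →* K) : Subgroup K := Subgroup.closure (Set.range h ∪ Set.range k)

theorem gen2_left (h k : W →* K) (v : W) : h v ∈ gen2 h k :=
  Subgroup.subset_closure (Or.inl ⟨v, rfl⟩)

theorem gen2_right (h k : W →* K) (v : W) : k v ∈ gen2 h k :=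
  Subgroup.subset_closure (Or.inr ⟨v, rfl⟩)

theorem gen2_commute {h k h' k' : W →* K} (d1 : Disj h h') (d2 : Disj h k') (d3 : Disj k h')
    (d4 : Disj k k') {x y : K} (hx : x ∈ gen2 h k) (hy : y ∈ gen2 h' k') : Commute x y := by
  induction hx using Subgroup.closure_induction with
  | one => simp
  | mul a b _ _ ha hb => exact ha.mul_left hb
  | inv a _ ha => exact ha.inv_left
  | mem x hx =>
    induction hy using Subgroup.closure_induction with
    | one => simp
    | mul a b _ _ ha hb => exact ha.mul_right hb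
    | inv a _ ha => exact ha.inv_right
    | mem y hy =>
      rcases hx with ⟨v, rfl⟩ | ⟨v, rfl⟩ <;> rcases hy with ⟨w, rfl⟩ | ⟨w, rfl⟩
      exacts [d1 v w, d2 v w, d3 v w, d4 v w]

theorem gen2_commute_elem {h k : W →* K} {y : K} (d1 : ∀ v, Commute (h v) y)
    (d2 : ∀ v, Commute (k v) y) {x : K} (hx : x ∈ gen2 h k) : Commute x y := by
  induction hx using Subgroup.closure_induction with
  | one => simp
  | mul a b _ _ ha hb => exact ha.mul_left hb
  | inv a _ ha => exact ha.inv_left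
  | mem x hx => rcases hx with ⟨v, rfl⟩ | ⟨v, rfl⟩; exacts [d1 v, d2 v]

/-- Two homomorphisms that differ by elements commuting with both agree. -/
theorem hom_eq_of_central (hp : commutator W = ⊤) {h k : W →* K}
    (hz : ∀ u u', Commute ((h u)⁻¹ * k u) (h u') ∧
      Commute ((h u)⁻¹ * k u) ((h u')⁻¹ * k u')) : h = k := by
  refine hom_ext_commutators hp fun v w => ?_
  rw [map_commutatorElement, map_commutatorElement]
  set z := (h v)⁻¹ * k v with hz1
  set z' := (h w)⁻¹ * k w with hz2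
  have e1 : k v = h v * z := by rw [hz1]; group
  have e2 : k w = h w * z' := by rw [hz2]; group
  have c1 : Commute z (h w) := (hz v w).1
  have c2 : Commute z' (h v) := (hz w v).1
  have c3 : Commute z z' := (hz v w).2
  rw [e1, e2]
  simp only [commutatorElement_def, mul_inv_rev]
  symm
  calc h v * z * (h w * z') * (z⁻¹ * (h v)⁻¹) * (z'⁻¹ * (h w)⁻¹)
      = h v * (z * (h w * z') * z⁻¹) * (h v)⁻¹ * z'⁻¹ * (h w)⁻¹ := by group
    _ = h v * h w * (z' * (h v)⁻¹ * z'⁻¹) * (h w)⁻¹ := by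
        rw [(c1.mul_right c3).eq]; group
    _ = _ := by rw [c2.inv_right.eq]; group

/-- The complement of a subfield. -/
def diff (M E : W →* K) (hc : ∀ v w, E v * M w * (E v)⁻¹ = M (v * w * v⁻¹)) : W →* K where
  toFun v := (M v)⁻¹ * E v
  map_one' := by simp
  map_mul' v w := by
    have key : (M v)⁻¹ * E v * M w = M w * ((M v)⁻¹ * E v) := by
      have := hc v w
      rw [map_mul, map_mul, map_inv] at this
      calc (M v)⁻¹ * E v * M w = (M v)⁻¹ * (E v * M w * (E v)⁻¹) * E v := by group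
        _ = _ := by rw [this]; group
    rw [map_mul, map_mul]
    calc (M v * M w)⁻¹ * (E v * E w) = (M w)⁻¹ * ((M v)⁻¹ * E v * M w) * ((M w)⁻¹ * E w) := by
          group
      _ = _ := by rw [key]; group

theorem diff_disj (M E : W →* K) (hc : ∀ v w, E v * M w * (E v)⁻¹ = M (v * w * v⁻¹)) :
    Disj M (diff M E hc) := by
  intro w v
  show Commute (M w) ((M v)⁻¹ * E v)
  have := hc v w
  rw [map_mul, map_mul, map_inv] at this
  show M w * ((M v)⁻¹ * E v) = (M v)⁻¹ * E v * M w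
  calc M w * ((M v)⁻¹ * E v) = (M v)⁻¹ * (M v * M w * (M v)⁻¹) * E v := by group
    _ = _ := by rw [← this]; group

theorem conj_comm (g x y : K) : g * ⁅x, y⁆ * g⁻¹ = ⁅g * x * g⁻¹, g * y * g⁻¹⁆ := by
  simp only [commutatorElement_def]; group

theorem Atoms.conj_left {one e f : W →* K} (t : Atoms one e f) (v w : W) :
    f v * t.a w * (f v)⁻¹ = t.a (v * w * v⁻¹) := by
  rw [t.hf, map_mul, map_mul, map_inv, mul_inv_rev]
  calc t.a v * t.c v * t.a w * ((t.c v)⁻¹ * (t.a v)⁻¹)
      = t.a v * (t.c v * t.a w * (t.c v)⁻¹) * (t.a v)⁻¹ := by group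
    _ = _ := by rw [← (t.ac w v).eq]; group

/-- If three fields are pairwise compatible then so are the meet of two and the third. -/
theorem meet_compat (hc : CentralSplit W) (hp : commutator W = ⊤) (hav : Avoids W)
    {one e f g : W →* K} (hoe : Compat one e one)
    (hof : Compat one f one) (tef : Atoms one e f) (tfe : Atoms one f e) (teg : Atoms one e g)
    (tfg : Atoms one f g) : Compat one tef.a g := by
  have x1 : Disj teg.a tfg.b := cross hav teg tfg tef hoe
  have x2 : Disj tfg.a teg.b := cross hav tfg teg tfe hof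
  let Q := gen2 teg.a tfg.a
  let R := gen2 teg.b tfg.b
  have QR : ∀ {x y : K}, x ∈ Q → y ∈ R → Commute x y := fun hx hy =>
    gen2_commute teg.ab x1 x2 tfg.ab hx hy
  let m := tef.a
  have hx0 : ∀ u u', ⁅teg.a u, tfg.a u'⁆ ∈ Q := fun u u' =>
    mul_mem (mul_mem (mul_mem (gen2_left _ _ u) (gen2_right _ _ u'))
      (inv_mem (gen2_left _ _ u))) (inv_mem (gen2_right _ _ u'))
  have hy0 : ∀ u u', (⁅teg.a u, tfg.a u'⁆)⁻¹ * m ⁅u, u'⁆ ∈ R := by
    intro u u'
    have e1 : m ⁅u, u'⁆ = ⁅teg.a u, tfg.a u'⁆ * ⁅teg.b u, tfg.b u'⁆ := by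
      rw [show m ⁅u, u'⁆ = _ from tef.a_comm u u', teg.he, tfg.he]
      simp only [commutatorElement_def, mul_inv_rev]
      have c1 : Commute (teg.b u * tfg.b u' * (teg.b u)⁻¹) (teg.a u)⁻¹ :=
        ((QR (gen2_left _ _ u) (mul_mem (mul_mem (gen2_left _ _ u) (gen2_right _ _ u'))
          (inv_mem (gen2_left _ _ u)))).symm).inv_right
      calc teg.a u * teg.b u * (tfg.a u' * tfg.b u') * ((teg.b u)⁻¹ * (teg.a u)⁻¹) *
            ((tfg.b u')⁻¹ * (tfg.a u')⁻¹)
          = teg.a u * (teg.b u * tfg.a u') * tfg.b u' * (teg.b u)⁻¹ * (teg.a u)⁻¹ *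
            (tfg.b u')⁻¹ * (tfg.a u')⁻¹ := by group
        _ = teg.a u * tfg.a u' * ((teg.b u * tfg.b u' * (teg.b u)⁻¹) * (teg.a u)⁻¹) *
            (tfg.b u')⁻¹ * (tfg.a u')⁻¹ := by
            rw [← (x2 u' u).eq]; group
        _ = teg.a u * tfg.a u' * (teg.a u)⁻¹ *
            ((teg.b u * tfg.b u' * (teg.b u)⁻¹ * (tfg.b u')⁻¹) * (tfg.a u')⁻¹) := by
            rw [c1.eq]; group
        _ = _ := by
            rw [((QR (gen2_right _ _ u') (mul_mem (mul_mem (mul_mem (gen2_left _ _ u)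
              (gen2_right _ _ u')) (inv_mem (gen2_left _ _ u)))
              (inv_mem (gen2_right _ _ u')))).inv_left).symm.eq]
            group
    rw [e1, inv_mul_cancel_left]
    exact mul_mem (mul_mem (mul_mem (gen2_left _ _ u) (gen2_right _ _ u'))
      (inv_mem (gen2_left _ _ u))) (inv_mem (gen2_right _ _ u'))
  let S : Subgroup (W × K) :=
    { carrier := {q | q.2 ∈ Q ∧ q.2⁻¹ * m q.1 ∈ R}
      one_mem' := ⟨one_mem _, by simp⟩
      mul_mem' := by
        rintro ⟨v, x⟩ ⟨v', x'⟩ ⟨hx, hy⟩ ⟨hx', hy'⟩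
        refine ⟨mul_mem hx hx', ?_⟩
        show (x * x')⁻¹ * m (v * v') ∈ R
        have c := (QR hx' hy).inv_left
        rw [map_mul, show (x * x')⁻¹ * (m v * m v') = x'⁻¹ * (x⁻¹ * m v) * m v' by group, c.eq,
          mul_assoc]
        exact mul_mem hy hy'
      inv_mem' := by
        rintro ⟨v, x⟩ ⟨hx, hy⟩
        refine ⟨inv_mem hx, ?_⟩
        show x⁻¹⁻¹ * m v⁻¹ ∈ R
        have c := (QR hx (inv_mem hy)).eq
        rw [inv_inv, map_inv, show x * (m v)⁻¹ = x * ((x⁻¹ * m v)⁻¹) * x⁻¹ by group, c,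
          mul_inv_cancel_right]
        exact inv_mem hy }
  have hsurj : ∀ v, ∃ x, (v, x) ∈ S := by
    intro v
    have hv : v ∈ S.map (MonoidHom.fst W K) := by
      have h : commutator W ≤ S.map (MonoidHom.fst W K) := by
        rw [commutator_eq_closure, Subgroup.closure_le]
        rintro _ ⟨u, u', rfl⟩
        exact ⟨(⁅u, u'⁆, ⁅teg.a u, tfg.a u'⁆), ⟨hx0 u u', hy0 u u'⟩, rfl⟩
      exact h (hp ▸ Subgroup.mem_top v)
    obtain ⟨⟨v', x⟩, h, rfl⟩ := hv
    exact ⟨x, h⟩
  have hker : ∀ x, (1, x) ∈ S → ∀ q ∈ S, Commute x q.2 := by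
    intro x ⟨hx, hy⟩ q hq
    have : x ∈ R := by simpa using inv_mem hy
    exact (QR hq.1 this).symm
  obtain ⟨m1, hm1⟩ := exists_lift hc hp S hsurj hker
  have hm2 : ∀ v, (m1 v)⁻¹ * m v ∈ R := fun v => (hm1 v).2
  let ng : W →* K := join tfg.b tfg.o tfg.bo
  have conjQ : ∀ v x, x ∈ Q → g v * x * (g v)⁻¹ ∈ Q := by
    intro v x hx
    induction hx using Subgroup.closure_induction with
    | one => simp
    | mul a b _ _ ha hb =>
      rw [show g v * (a * b) * (g v)⁻¹ = g v * a * (g v)⁻¹ * (g v * b * (g v)⁻¹) by group]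
      exact mul_mem ha hb
    | inv a _ ha =>
      rw [show g v * a⁻¹ * (g v)⁻¹ = (g v * a * (g v)⁻¹)⁻¹ by group]
      exact inv_mem ha
    | mem x hx =>
      rcases hx with ⟨w, rfl⟩ | ⟨w, rfl⟩
      · rw [teg.conj_left]; exact gen2_left _ _ _
      · rw [tfg.conj_left]; exact gen2_right _ _ _
  have Rg : ∀ {y : K}, y ∈ R → ∀ v, Commute y (g v) := fun hy v =>
    gen2_commute_elem
      (fun u => by rw [teg.hf]; exact (teg.ab v u).symm.mul_right (teg.bc u v))
      (fun u => by rw [tfg.hf]; exact (tfg.ab v u).symm.mul_right (tfg.bc u v)) hy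
  have Qng : ∀ {x : K}, x ∈ Q → ∀ v, Commute x (ng v) := fun hx v =>
    gen2_commute_elem
      (fun u => by
        show Commute (teg.a u) (tfg.b v * tfg.o v)
        rw [tfg.outside, ← teg.outside]
        exact (teg.ab u v).mul_right (teg.ao u v))
      (fun u => (tfg.ab u v).mul_right (tfg.ao u v)) hx
  have gng : Disj g ng := fun v w => by
    show Commute (g v) (tfg.b w * tfg.o w)
    rw [tfg.hf]
    exact ((tfg.ab v w).mul_right (tfg.ao v w)).mul_left
      ((tfg.bc w v).symm.mul_right (tfg.co v w))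
  have hconj : ∀ v w, g v * m1 w * (g v)⁻¹ = m1 (v * w * v⁻¹) := by
    intro v
    let cv : W →* W := (MulAut.conj v).toMonoidHom
    let φ : W →* K := (MulAut.conj (g v)).toMonoidHom.comp m1
    have hd : ∀ u, (φ u)⁻¹ * m (cv u) ∈ R := by
      intro u
      let T : Subgroup W :=
        { carrier := {u | (φ u)⁻¹ * m (cv u) ∈ R}
          one_mem' := by simp
          mul_mem' := by
            intro a b (ha : _ ∈ R) (hb : _ ∈ R)
            show (φ (a * b))⁻¹ * m (cv (a * b)) ∈ R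
            have c := (QR (show φ b ∈ Q from conjQ v _ (hm1 b).1) ha).inv_left
            rw [map_mul, map_mul, map_mul,
              show (φ a * φ b)⁻¹ * (m (cv a) * m (cv b)) =
                (φ b)⁻¹ * ((φ a)⁻¹ * m (cv a)) * m (cv b) by group, c.eq, mul_assoc]
            exact mul_mem ha hb
          inv_mem' := by
            intro a (ha : _ ∈ R)
            show (φ a⁻¹)⁻¹ * m (cv a⁻¹) ∈ R
            have c := (QR (show φ a ∈ Q from conjQ v _ (hm1 a).1) (inv_mem ha)).eq
            rw [map_inv, map_inv, map_inv, inv_inv,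
              show φ a * (m (cv a))⁻¹ = φ a * ((φ a)⁻¹ * m (cv a))⁻¹ * (φ a)⁻¹ by group, c,
              mul_inv_cancel_right]
            exact inv_mem ha }
      suffices h : commutator W ≤ T from h (hp ▸ Subgroup.mem_top u)
      rw [commutator_eq_closure, Subgroup.closure_le]
      rintro _ ⟨u1, u2, rfl⟩
      show (φ ⁅u1, u2⁆)⁻¹ * m (cv ⁅u1, u2⁆) ∈ R
      set x0 := ⁅teg.a u1, tfg.a u2⁆ with hx0'
      set z := x0⁻¹ * m1 ⁅u1, u2⁆ with hz
      have zR : z ∈ R := by
        rw [hz, show x0⁻¹ * m1 ⁅u1, u2⁆ =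
          x0⁻¹ * m ⁅u1, u2⁆ * ((m1 ⁅u1, u2⁆)⁻¹ * m ⁅u1, u2⁆)⁻¹ by group]
        exact mul_mem (hy0 u1 u2) (inv_mem (hm2 _))
      have e : φ ⁅u1, u2⁆ = ⁅teg.a (cv u1), tfg.a (cv u2)⁆ * z := by
        show g v * m1 ⁅u1, u2⁆ * (g v)⁻¹ = _
        have c := (Rg zR v).eq
        rw [show m1 ⁅u1, u2⁆ = x0 * z by rw [hz]; group,
          show g v * (x0 * z) * (g v)⁻¹ = g v * x0 * (g v)⁻¹ * (g v * z * (g v)⁻¹) by group,
          ← c, mul_inv_cancel_right, hx0', conj_comm, teg.conj_left, tfg.conj_left]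
        rfl
      rw [e, map_commutatorElement, mul_inv_rev, mul_assoc]
      exact mul_mem (inv_mem zR) (hy0 _ _)
    have hQR : ∀ u, (φ u)⁻¹ * m1 (cv u) ∈ Q ∧ (φ u)⁻¹ * m1 (cv u) ∈ R := by
      intro u
      refine ⟨mul_mem (inv_mem (conjQ v _ (hm1 u).1)) (hm1 _).1, ?_⟩
      rw [show (φ u)⁻¹ * m1 (cv u) =
        (φ u)⁻¹ * m (cv u) * ((m1 (cv u))⁻¹ * m (cv u))⁻¹ by group]
      exact mul_mem (hd u) (inv_mem (hm2 _))
    have : φ = m1.comp cv := hom_eq_of_central hp fun u u' =>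
      ⟨(QR (conjQ v _ (hm1 u').1) (hQR u).2).symm, (QR (hQR u').1 (hQR u).2).symm⟩
    intro w
    exact DFunLike.congr_fun this w
  have hd12 : ∀ v w, Commute (m1 v) ((m1 w)⁻¹ * m w) := fun v w => QR (hm1 v).1 (hm2 w)
  let m2 : W →* K :=
    { toFun := fun v => (m1 v)⁻¹ * m v
      map_one' := by simp
      map_mul' := fun v w => by
        have c := ((hd12 w v).inv_left).eq
        rw [map_mul, map_mul,
          show (m1 v * m1 w)⁻¹ * (m v * m w) = (m1 w)⁻¹ * ((m1 v)⁻¹ * m v) * m w by group, c,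
          mul_assoc] }
  have hm : ∀ v, m v = m1 v * m2 v := fun v => by
    show m v = m1 v * ((m1 v)⁻¹ * m v)
    group
  have hone2 : ∀ v, one v = g v * ng v := fun v => by
    show one v = g v * (tfg.b v * tfg.o v)
    rw [tfg.outside, mul_inv_cancel_left]
  have mone : ∀ v w, one v * m w * (one v)⁻¹ = m (v * w * v⁻¹) := by
    intro v w
    show one v * tef.a w * (one v)⁻¹ = tef.a (v * w * v⁻¹)
    rw [tef.hone, map_mul, map_mul, map_inv]
    calc tef.a v * tef.b v * tef.c v * tef.o v * tef.a w *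
          (tef.a v * tef.b v * tef.c v * tef.o v)⁻¹
        = tef.a v * (tef.b v * tef.c v * tef.o v * tef.a w *
          (tef.b v * tef.c v * tef.o v)⁻¹) * (tef.a v)⁻¹ := by group
      _ = _ := by
          rw [← (((tef.ab w v).mul_right (tef.ac w v)).mul_right (tef.ao w v)).eq]
          group
  have hconj2 : ∀ v w, ng v * m2 w * (ng v)⁻¹ = m2 (v * w * v⁻¹) := by
    intro v w
    have h := mone v w
    rw [hone2, hm, hm, ← hconj v w,
      show g v * ng v * (m1 w * m2 w) * (g v * ng v)⁻¹ =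
        g v * (ng v * m1 w * (ng v)⁻¹) * ((ng v * m2 w * (ng v)⁻¹) * (g v)⁻¹) by group,
      ← (Qng (hm1 w).1 v).eq, mul_inv_cancel_right] at h
    have c : Commute (ng v * m2 w * (ng v)⁻¹) (g v) :=
      (((gng v v).symm.mul_left (Rg (hm2 w) v)).mul_left (gng v v).symm.inv_left)
    rw [(c.inv_right).eq, ← mul_assoc] at h
    exact mul_left_cancel h
  exact ⟨{
    a := m1
    b := m2
    c := diff m1 g hconj
    o := diff m2 ng hconj2
    ab := fun v w => QR (hm1 v).1 (hm2 w)
    ac := diff_disj _ _ _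
    ao := fun v w => (QR (hm1 v).1 (inv_mem (hm2 w))).mul_right (Qng (hm1 v).1 w)
    bc := fun v w => ((QR (inv_mem (hm1 w).1) (hm2 v)).symm).mul_right (Rg (hm2 v) w)
    bo := diff_disj _ _ _
    co := fun v w =>
      ((QR (inv_mem (hm1 v).1) (inv_mem (hm2 w))).mul_right (Qng (inv_mem (hm1 v).1) w)).mul_left
        (((Rg (inv_mem (hm2 w)) v).symm).mul_right (gng v w))
    he := hm
    hf := fun v => by show g v = m1 v * ((m1 v)⁻¹ * g v); group
    hone := fun v => by
      show one v = m1 v * m2 v * ((m1 v)⁻¹ * g v) * ((m2 v)⁻¹ * ng v)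
      have c1 : Commute (m2 v) ((m1 v)⁻¹ * g v) :=
        (QR (inv_mem (hm1 v).1) (hm2 v)).symm.mul_right (Rg (hm2 v) v)
      rw [hone2, mul_assoc (m1 v) (m2 v), c1.eq]
      group }⟩

end Vale.Agent.P193.Calc
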