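import Vale.Agent.P193.Full.Calc.BaseField

/-! The order on fields. A field is below another when the larger one conjugates it as the inner
action does. Together with commutation of fields on far apart arguments this behaves like the
order on commuting idempotents, and gives compatibility in trees of fields. -/

namespace Vale.Agent.P193.Calc

open scoped commutatorElement

/-- An independence relation on arguments rich enough to generate. -/
structure FarRel (W : Type) [Group W] where
  far : W → W → Prop
  symm : ∀ {x y}, far x y → far y x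
  comm : ∀ {x y}, far x y → Commute x y
  gen : Subgroup.closure
    {y : W | Subgroup.closure {x : W | ∃ a b, x = ⁅a, b⁆ ∧ far a y} = ⊤} = ⊤

variable {W P : Type} [Group W] [Group P]

/-- `f` conjugates `e` as the inner action does: `e` lies below `f`. -/
def Le (e f : W →* P) : Prop := ∀ v w, f v * e w * (f v)⁻¹ = e (v * w * v⁻¹)

/-- Fields commute on far apart arguments. -/
def FarComm (R : FarRel W) (e f : W →* P) : Prop := ∀ x y, R.far x y → Commute (e x) (f y)

theorem Le.refl (e : W →* P) : Le e e := fun v w => by simp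

theorem Le.comm_eq {e f : W →* P} (h : Le e f) (a b : W) : e ⁅a, b⁆ = ⁅e a, f b⁆ := by
  have h' := h b a⁻¹
  calc e ⁅a, b⁆ = e a * e (b * a⁻¹ * b⁻¹) := by
        rw [← map_mul, commutatorElement_def]; simp [mul_assoc]
    _ = e a * (f b * e a⁻¹ * (f b)⁻¹) := by rw [h']
    _ = ⁅e a, f b⁆ := by rw [map_inv, commutatorElement_def]; simp [mul_assoc]

/-- The complement of a field below the full one. -/
abbrev cmpl (φ e : W →* P) (he : Le e φ) : W →* P := quo φ e he

theorem Le.disj_cmpl {φ e f : W →* P} (he : Le e φ) (hf : Le f φ) (h : Le e f) :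
    Disj e (cmpl φ f hf) := by
  intro v w
  show Commute (e v) ((f w)⁻¹ * φ w)
  show e v * ((f w)⁻¹ * φ w) = (f w)⁻¹ * φ w * e v
  have e1 := (he w v).trans (h w v).symm
  calc e v * ((f w)⁻¹ * φ w) = (f w)⁻¹ * (f w * e v * (f w)⁻¹) * φ w := by simp [mul_assoc]
    _ = (f w)⁻¹ * φ w * e v := by rw [← e1]; simp [mul_assoc]

theorem le_of_disj_cmpl {φ e f : W →* P} (he : Le e φ) (hf : Le f φ)
    (h : Disj e (cmpl φ f hf)) : Le e f := by
  intro v w
  have e1 : φ v = f v * cmpl φ f hf v := mul_quo φ f hf v
  rw [← he v w, e1]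
  calc f v * e w * (f v)⁻¹
      = f v * (e w * cmpl φ f hf v) * (f v * cmpl φ f hf v)⁻¹ := by simp [mul_assoc]
    _ = f v * cmpl φ f hf v * e w * (f v * cmpl φ f hf v)⁻¹ := by
        rw [(h w v).eq]; simp [mul_assoc]

theorem cmpl_le {φ f : W →* P} (hf : Le f φ) : Le (cmpl φ f hf) φ := by
  intro v w
  show φ v * ((f w)⁻¹ * φ w) * (φ v)⁻¹ = (f (v * w * v⁻¹))⁻¹ * φ (v * w * v⁻¹)
  rw [← hf v w, map_mul, map_mul, map_inv]
  simp [mul_assoc]

theorem Le.join {φ f g : W →* P} (d : Disj f g) (hf : Le f φ) (hg : Le g φ) :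
    Le (Calc.join f g d) φ := by
  intro v w
  show φ v * (f w * g w) * (φ v)⁻¹ = f (v * w * v⁻¹) * g (v * w * v⁻¹)
  rw [← hf v w, ← hg v w]
  simp [mul_assoc]

theorem le_join_left {f g : W →* P} (d : Disj f g) : Le f (Calc.join f g d) := by
  intro v w
  show f v * g v * f w * (f v * g v)⁻¹ = _
  calc f v * g v * f w * (f v * g v)⁻¹ = f v * (g v * f w) * ((g v)⁻¹ * (f v)⁻¹) := by
        simp [mul_assoc]
    _ = f (v * w * v⁻¹) := by rw [← (d w v).eq]; simp [mul_assoc]

theorem le_join_right {f g : W →* P} (d : Disj f g) : Le g (Calc.join f g d) := by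
  intro v w
  show f v * g v * g w * (f v * g v)⁻¹ = _
  calc f v * g v * g w * (f v * g v)⁻¹ = f v * g (v * w * v⁻¹) * (f v)⁻¹ := by simp [mul_assoc]
    _ = g (v * w * v⁻¹) := by rw [(d v _).eq, mul_inv_cancel_right]

theorem Disj.join {e f g : W →* P} (d : Disj f g) (h1 : Disj e f) (h2 : Disj e g) :
    Disj e (Calc.join f g d) := fun v w => (h1 v w).mul_right (h2 v w)

theorem Le.join_left {e f g : W →* P} (d : Disj f g) (h1 : Le e f) (h2 : Disj e g) :
    Le e (Calc.join f g d) := by
  intro v w
  show f v * g v * e w * (f v * g v)⁻¹ = _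
  calc f v * g v * e w * (f v * g v)⁻¹ = f v * (g v * e w) * ((g v)⁻¹ * (f v)⁻¹) := by
        simp [mul_assoc]
    _ = f v * e w * (f v)⁻¹ := by rw [← (h2 w v).eq]; simp [mul_assoc]
    _ = _ := h1 v w

theorem Le.of_join_left {e f g : W →* P} (d : Disj f g) (h : Le e (Calc.join f g d))
    (h2 : Disj e g) : Le e f := by
  intro v w
  have h' : f v * g v * e w * (f v * g v)⁻¹ = e (v * w * v⁻¹) := h v w
  rw [← h']
  calc f v * e w * (f v)⁻¹ = f v * (e w * g v) * ((g v)⁻¹ * (f v)⁻¹) := by simp [mul_assoc]
    _ = f v * g v * e w * (f v * g v)⁻¹ := by rw [(h2 w v).eq]; simp [mul_assoc]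

/-- Transport along a homomorphism. -/
theorem Le.comp {Q : Type} [Group Q] {e f : W →* P} (h : Le e f) (c : P →* Q) :
    Le (c.comp e) (c.comp f) := fun v w => by
  simp only [MonoidHom.comp_apply, ← map_inv c, ← map_mul c, h v w]

theorem Disj.comp {Q : Type} [Group Q] {e f : W →* P} (h : Disj e f) (c : P →* Q) :
    Disj (c.comp e) (c.comp f) := fun v w => (h v w).map c

/-- Compatibility of a smaller field with a larger one. -/
theorem compat_of_le {φ e f : W →* P} (he : Le e φ) (hf : Le f φ) (h : Le e f) :
    Compat φ e f :=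
  ⟨{ a := e, b := 1, c := quo f e h, o := cmpl φ f hf
     ab := fun _ _ => Commute.one_right _
     ac := quo_disj h
     ao := Le.disj_cmpl he hf h
     bc := fun _ _ => Commute.one_left _
     bo := fun _ _ => Commute.one_left _
     co := fun v w => by
       have h1 : Commute (f v) (cmpl φ f hf w) := quo_disj hf v w
       exact ((Le.disj_cmpl he hf h v w).inv_left).mul_left h1
     he := fun v => (mul_one _).symm
     hf := fun v => mul_quo f e h v
     hone := fun v => by
       show φ v = e v * 1 * quo f e h v * cmpl φ f hf v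
       rw [mul_one, ← mul_quo f e h v]
       exact mul_quo φ f hf v }⟩

/-- Compatibility of disjoint fields. -/
theorem compat_of_disj {φ e f : W →* P} (he : Le e φ) (hf : Le f φ) (h : Disj e f) :
    Compat φ e f := by
  have hj : Le (Calc.join e f h) φ := Le.join h he hf
  exact ⟨{ a := 1, b := e, c := f, o := cmpl φ (Calc.join e f h) hj
           ab := fun _ _ => Commute.one_left _
           ac := fun _ _ => Commute.one_left _
           ao := fun _ _ => Commute.one_left _
           bc := h
           bo := Le.disj_cmpl he hj (le_join_left h)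
           co := Le.disj_cmpl hf hj (le_join_right h)
           he := fun v => (one_mul _).symm
           hf := fun v => (one_mul _).symm
           hone := fun v => by
             show φ v = 1 * e v * f v * cmpl φ (Calc.join e f h) hj v
             rw [one_mul]
             exact mul_quo φ (Calc.join e f h) hj v }⟩

section Far

variable {R : FarRel W}

theorem FarComm.symm {e f : W →* P} (h : FarComm R e f) : FarComm R f e :=
  fun x y hxy => (h y x (R.symm hxy)).symm

theorem farComm_full {φ e : W →* P} (he : Le e φ) : FarComm R e φ := by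
  intro x y hxy
  have h := he y x
  rw [(R.comm hxy).symm.eq, mul_inv_cancel_right, mul_inv_eq_iff_eq_mul] at h
  exact h.symm

theorem farComm_cmpl {φ e f : W →* P} (he : Le e φ) (hf : Le f φ) (h : FarComm R e f) :
    FarComm R e (cmpl φ f hf) :=
  fun x y hxy => ((h x y hxy).inv_right).mul_right (farComm_full he x y hxy)

theorem farComm_join {e f g : W →* P} (d : Disj f g) (h1 : FarComm R e f) (h2 : FarComm R e g) :
    FarComm R e (Calc.join f g d) :=
  fun x y hxy => (h1 x y hxy).mul_right (h2 x y hxy)

/-- A field below one disjoint from `g` is disjoint from `g`. -/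
theorem Le.disj {e f g : W →* P} (h : Le e f) (d : Disj f g) (c : FarComm R e g) : Disj e g := by
  intro v y
  have hy : y ∈ Subgroup.closure
      {y : W | Subgroup.closure {x : W | ∃ a b, x = ⁅a, b⁆ ∧ R.far a y} = ⊤} := by
    rw [R.gen]; exact Subgroup.mem_top y
  induction hy using Subgroup.closure_induction generalizing v with
  | mem y hy =>
    have hv : v ∈ Subgroup.closure {x : W | ∃ a b, x = ⁅a, b⁆ ∧ R.far a y} :=
      (hy : Subgroup.closure {x : W | ∃ a b, x = ⁅a, b⁆ ∧ R.far a y} = ⊤) ▸ Subgroup.mem_top v
    induction hv using Subgroup.closure_induction with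
    | mem x hx =>
      obtain ⟨a, b, rfl, hab⟩ := hx
      rw [h.comm_eq, commutatorElement_def]
      exact (((c a y hab).mul_left (d b y)).mul_left (c a y hab).inv_left).mul_left (d b y).inv_left
    | one => simp
    | mul a b _ _ ha hb => rw [map_mul]; exact ha.mul_left hb
    | inv a _ ha => rw [map_inv]; exact ha.inv_left
  | one => simp
  | mul a b _ _ ha hb => rw [map_mul]; exact (ha v).mul_right (hb v)
  | inv a _ ha => rw [map_inv]; exact (ha v).inv_right

theorem Le.trans {φ e f g : W →* P} (he : Le e φ) (hf : Le f φ) (hg : Le g φ) (h1 : Le e f)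
    (h2 : Le f g) (c : FarComm R e g) : Le e g :=
  le_of_disj_cmpl he hg (h1.disj (Le.disj_cmpl hf hg h2) (farComm_cmpl he hg c))

theorem Disj.of_join_left {e f g : W →* P} (d : Disj f g) (h : Disj e (Calc.join f g d))
    (c : FarComm R e f) : Disj e f :=
  ((le_join_left d).disj h.symm c.symm).symm

theorem Disj.of_join_right {e f g : W →* P} (d : Disj f g) (h : Disj e (Calc.join f g d))
    (c : FarComm R e g) : Disj e g :=
  ((le_join_right d).disj h.symm c.symm).symm

/-- Fields on the valid words of a tree: one-letter words are disjoint, two-letter words lie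
below their first letter, and prepending a letter preserves the order and disjointness. -/
structure TreeFields (R : FarRel W) (φ : W →* P) (L : Type*) where
  Ok : List L → Prop
  K : List L → (W →* P)
  nil : ¬ Ok []
  tail : ∀ {a b r}, Ok (a :: b :: r) → Ok (b :: r)
  head : ∀ {a r}, Ok (a :: r) → Ok [a]
  two : ∀ {a b r}, Ok (a :: b :: r) → Ok [a, b]
  full : ∀ {w}, Ok w → Le (K w) φ
  far : ∀ {w v}, Ok w → Ok v → FarComm R (K w) (K v)
  base_disj : ∀ {a b}, Ok [a] → Ok [b] → a ≠ b → Disj (K [a]) (K [b])
  base_le : ∀ {a b}, Ok [a, b] → Le (K [a, b]) (K [a])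
  push_le : ∀ {a w v}, Ok (a :: w) → Ok (a :: v) → Ok w → Ok v →
    Le (K v) (K w) → Le (K (a :: v)) (K (a :: w))
  push_disj : ∀ {a w v}, Ok (a :: w) → Ok (a :: v) → Ok w → Ok v →
    Disj (K w) (K v) → Disj (K (a :: w)) (K (a :: v))

namespace TreeFields

variable {φ : W →* P} {L : Type*} (T : TreeFields R φ L)

theorem le_head : ∀ (r : List L) (a : L), T.Ok (a :: r) → Le (T.K (a :: r)) (T.K [a])
  | [], _, _ => Le.refl _
  | b :: r, a, h => by
    have hb := T.tail h
    have h2 := T.two h
    have h3 := T.push_le h2 h (T.head hb) hb (le_head r b hb)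
    exact Le.trans (T.full h) (T.full h2) (T.full (T.head h)) h3 (T.base_le h2)
      (T.far h (T.head h))

theorem disj_heads {a b : L} {r s : List L} (h : T.Ok (a :: r)) (h' : T.Ok (b :: s)) (hab : a ≠ b) :
    Disj (T.K (a :: r)) (T.K (b :: s)) := by
  have d := T.base_disj (T.head h) (T.head h') hab
  have d1 : Disj (T.K (a :: r)) (T.K [b]) := (T.le_head r a h).disj d (T.far h (T.head h'))
  exact ((T.le_head s b h').disj d1.symm (T.far h' h)).symm

/-- Longer words lie below their initial segments; the others are disjoint. -/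
theorem le_and_disj : ∀ (w v : List L), T.Ok w → T.Ok v →
    (w <+: v → Le (T.K v) (T.K w)) ∧ (¬ w <+: v → ¬ v <+: w → Disj (T.K w) (T.K v))
  | [], _, h, _ => absurd h T.nil
  | _ :: _, [], _, h => absurd h T.nil
  | a :: r, b :: s, h, h' => by
    classical
    by_cases hab : a = b
    · subst hab
      cases r with
      | nil =>
        refine ⟨fun _ => T.le_head s a h', fun h1 _ => absurd ?_ h1⟩
        exact ⟨s, rfl⟩
      | cons c r =>
        cases s with
        | nil =>
          refine ⟨fun h1 => ?_, fun _ h2 => absurd ⟨c :: r, rfl⟩ h2⟩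
          have := h1.length_le
          simp at this
        | cons e s =>
          have ih := le_and_disj (c :: r) (e :: s) (T.tail h) (T.tail h')
          refine ⟨fun h1 => ?_, fun h1 h2 => ?_⟩
          · exact T.push_le h h' (T.tail h) (T.tail h') (ih.1 (List.cons_prefix_cons.1 h1).2)
          · exact T.push_disj h h' (T.tail h) (T.tail h')
              (ih.2 (fun x => h1 (List.cons_prefix_cons.2 ⟨rfl, x⟩))
                fun x => h2 (List.cons_prefix_cons.2 ⟨rfl, x⟩))
    · exact ⟨fun h1 => absurd (List.cons_prefix_cons.1 h1).1 hab,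
        fun _ _ => T.disj_heads h h' hab⟩

/-- All fields of a tree are pairwise compatible. -/
theorem compat {w v : List L} (h : T.Ok w) (h' : T.Ok v) : Compat φ (T.K w) (T.K v) := by
  classical
  by_cases h1 : w <+: v
  · obtain ⟨t⟩ := compat_of_le (T.full h') (T.full h) ((T.le_and_disj w v h h').1 h1)
    exact ⟨t.flip⟩
  · by_cases h2 : v <+: w
    · exact compat_of_le (T.full h) (T.full h') ((T.le_and_disj v w h' h).1 h2)
    · exact compat_of_disj (T.full h) (T.full h') ((T.le_and_disj w v h h').2 h1 h2)

/-- A field below which all one-letter words lie is above the whole tree. -/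
theorem le_root {g : W →* P} (hg : Le g φ) (h1 : ∀ a, T.Ok [a] → Le (T.K [a]) g)
    (hc : ∀ w, T.Ok w → FarComm R (T.K w) g) : ∀ w, T.Ok w → Le (T.K w) g
  | [], h => absurd h T.nil
  | a :: r, h => Le.trans (T.full h) (T.full (T.head h)) hg (T.le_head r a h)
      (h1 a (T.head h)) (hc _ h)

/-- A field disjoint from all one-letter words is disjoint from the whole tree. -/
theorem disj_root {g : W →* P} (h1 : ∀ a, T.Ok [a] → Disj (T.K [a]) g)
    (hc : ∀ w, T.Ok w → FarComm R (T.K w) g) : ∀ w, T.Ok w → Disj (T.K w) g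
  | [], h => absurd h T.nil
  | a :: r, h => (T.le_head r a h).disj (h1 a (T.head h)) (hc _ h)

end TreeFields

end Far

end Vale.Agent.P193.Calc
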