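import Vale.Agent.P193.Full.Calc.Space
import Vale.Agent.P193.Full.Calc.Eval
import Vale.Agent.P193.Full.Injective

/-! The data and hypotheses of the map calculus: a group `P` over the swap group in which
fields, generators and their elementary compatibilities are given. -/

namespace Vale.Agent.P193.Calc

open Classical

variable (S : Type)

/-- The swap group with trivial coefficients. -/
abbrev Vgrp : Type := ↥(swapGroup (coeffOf (S := S) ∅))

variable {S}

/-- A permutation of `Sp S` restricted to the fibres over a set. -/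
def ActsOn (e : Set S) (v σ : Equiv.Perm (Sp S)) : Prop :=
  ∀ x, σ x = if x.2 ∈ e then v x else x

/-- Four standard colours. -/
def colA : List Bool := [false, false]
/-- Second colour. -/
def colB : List Bool := [false, true]
/-- Third colour. -/
def colC : List Bool := [true, false]

theorem colAB : Apart colA colB := by simp [Apart, colA, colB]

/-- The swap of two cones. -/
noncomputable def vswap {p q : List Bool} (h : Apart p q) : Vgrp S :=
  ⟨swapPerm (simpleBis (M := coeffOf (S := S) ∅) h (coeffOf ∅).one_mem),
    Subgroup.subset_closure ⟨_, rfl⟩⟩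

/-- A trivial-coefficient element is the identity on the cone of `u`. -/
def FixCone (u : List Bool) (v : Vgrp S) : Prop :=
  ∀ x, (v : Equiv.Perm (Sp S)) ((hv S).pre u x) = (hv S).pre u x

/-- A trivial-coefficient element moves nothing outside the cone of `u`. -/
def InCone (u : List Bool) (v : Vgrp S) : Prop :=
  ∀ y, (¬ ∃ x, y = (hv S).pre u x) → (v : Equiv.Perm (Sp S)) y = y

/-- A trivial-coefficient element carries the cone of `u` prefix-wise to the cone of `w`. -/
def MapsCone (u w : List Bool) (v : Vgrp S) : Prop :=
  ∀ x, (v : Equiv.Perm (Sp S)) ((hv S).pre u x) = (hv S).pre w x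

/-- The data of the map calculus. -/
structure Setup (S : Type) where
  ι : Type
  fin_ι : Finite ι
  g : ι → Set (S × S)
  g_pb : ∀ i, IsPB (g i)
  P : Type
  group : Group P
  π : P →* Equiv.Perm (Sp S)
  φ : Vgrp S →* P
  π_φ : ∀ v, π (φ v) = v
  G : ι → P
  π_G : ∀ i, ∀ b : Bis (coeffOf (Set.range g)),
    b.1 = piece (hv S) colA colB (lift (g i)) → π (G i) = swapPerm b
  κ : Type
  set : κ → Set S
  fld : κ → (Vgrp S →* P)
  π_fld : ∀ k (v : Vgrp S), ActsOn (set k) v.1 (π (fld k v))
  split : CentralSplit (Vgrp S)
  avoids : Avoids (Vgrp S)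
  perfectV : commutator (Vgrp S) = ⊤
  one_one : Compat φ φ φ
  fld_one : ∀ k, Compat φ (fld k) φ
  pair : ∀ k l, Compat φ (fld k) (fld l)

attribute [instance] Setup.group

namespace Setup

variable (D : Setup S)

/-- The algebra of fields. -/
def ctx : Ctx (Vgrp S) D.P where
  one := D.φ
  ι := D.κ
  x := D.fld
  S := S
  set := D.set
  split := D.split
  perfect := D.perfectV
  avoids := D.avoids
  one_one := D.one_one
  x_one := D.fld_one
  pair := D.pair

/-- Definable sets. -/
def Def (e : Set S) : Prop := D.ctx.Definable e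

/-- The field of a definable set. -/
noncomputable def h (e : Set S) : Vgrp S →* D.P := D.ctx.field e

/-- Image of a set under a generator. -/
def img (i : D.ι) (e : Set S) : Set S := {t | ∃ s ∈ e, (s, t) ∈ D.g i}

/-- The hypotheses of the map calculus on fields and generators. -/
structure Base : Prop where
  empty : D.ctx.EmptyTrivial
  dom : ∀ i, D.Def (gdom (D.g i))
  ran : ∀ i, D.Def (gran (D.g i))
  invol : ∀ i, D.G i * D.G i = 1
  inv : ∀ i, ∃ j, D.g j = ginv (D.g i) ∧
    D.G j = D.φ (vswap colAB) * D.G i * (D.φ (vswap colAB))⁻¹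
  img_def : ∀ i k, D.Def (D.img i (D.set k))
  cov : ∀ i k (v : Vgrp S), InCone colA v →
    D.G i * D.h (D.set k ∩ gdom (D.g i)) v * (D.G i)⁻¹ =
      D.h (D.img i (D.set k)) (vswap colAB * v * vswap colAB)
  cov_dom : ∀ i (v : Vgrp S), InCone colA v →
    D.G i * D.h (gdom (D.g i)) v * (D.G i)⁻¹ =
      D.h (gran (D.g i)) (vswap colAB * v * vswap colAB)
  comm_dom : ∀ i (e : Set S), D.Def e → Disjoint e (gdom (D.g i)) → ∀ v, FixCone colB v →
    Commute (D.G i) (D.h e v)
  comm_ran : ∀ i (e : Set S), D.Def e → Disjoint e (gran (D.g i)) → ∀ v, FixCone colA v →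
    Commute (D.G i) (D.h e v)
  comm_off : ∀ i (e : Set S), D.Def e → ∀ v, FixCone colA v → FixCone colB v →
    Commute (D.G i) (D.h e v)
  halve : ∀ i (k₀ k₁ : Vgrp S),
    MapsCone colA (colA ++ [false]) k₀ → MapsCone colB (colB ++ [false]) k₀ →
    MapsCone colA (colA ++ [true]) k₁ → MapsCone colB (colB ++ [true]) k₁ →
    D.G i = D.φ k₀ * D.G i * (D.φ k₀)⁻¹ * (D.φ k₁ * D.G i * (D.φ k₁)⁻¹)
  disj : ∀ i j (k₀ k₁ : Vgrp S),
    MapsCone colA [false, false, false] k₀ → MapsCone colB [false, false, true] k₀ →
    MapsCone colA [false, true, false] k₁ → MapsCone colB [false, true, true] k₁ →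
    Commute (D.φ k₀ * D.G i * (D.φ k₀)⁻¹) (D.φ k₁ * D.G j * (D.φ k₁)⁻¹)

/-- A generator placed at two cones (junk value if they cannot be reached). -/
noncomputable def place (i : D.ι) (p q : List Bool) : D.P :=
  if hk : ∃ k : Vgrp S, MapsCone colA p k ∧ MapsCone colB q k then
    D.φ hk.choose * D.G i * (D.φ hk.choose)⁻¹
  else 1

/-- The domain of a word of generators. -/
def wimg : List D.ι → Set S → Set S
  | [], e => e
  | i :: w, e => wimg w (D.img i e)

/-- A word is defined everywhere on a set. -/
def WDef : List D.ι → Set S → Prop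
  | [], _ => True
  | i :: w, e => e ⊆ gdom (D.g i) ∧ WDef w (D.img i e)

/-- The graph of a word. -/
def wgraph : List D.ι → Set (S × S)
  | [] => gid Set.univ
  | i :: w => gcomp (D.g i) (wgraph w)

/-- The transported transposition: the cone `p` over `e` is carried along the word (alternating
with the spare cone `r`) and exchanged with the cone `q`. -/
noncomputable def chain : (p r q : List Bool) → Set S → List D.ι → D.P
  | p, _, q, e, [] => if hpq : Apart p q then D.h e (vswap hpq) else 1
  | p, r, q, e, i :: w =>
    D.place i p r * chain r p q (D.img i e) w * (D.place i p r)⁻¹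

/-- Words acting as the identity give the plain transposition. -/
def Loops : Prop :=
  ∀ (w : List D.ι) (e : Set S), D.Def e → D.WDef w e →
    (∀ s ∈ e, (s, s) ∈ D.wgraph w) →
    D.chain colA colC colB e w = D.h e (vswap colAB)

/-- The conclusion of the map calculus. -/
def KernelCentral : Prop := D.π.ker ≤ Subgroup.center D.P

/-- `P` is generated by the trivial-coefficient part and the generators. -/
def Generated : Prop := Subgroup.closure (Set.range D.φ ∪ Set.range D.G) = ⊤

end Setup

end Vale.Agent.P193.Calc
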