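import Vale.Agent.P193.Full.Sys
import Mathlib.Logic.Equiv.Prod

/-! The space `Cn × S`: eventually false bit streams tensored with a set of points. -/

namespace Vale.Agent.P193.Calc

/-- Bit streams that are eventually `false`. -/
def Cn : Type := {f : ℕ → Bool // ∃ N, ∀ n, N ≤ n → f n = false}

/-- Prepend a bit. -/
def cnCons (c : Bool) (f : Cn) : Cn :=
  ⟨fun n => Nat.casesOn n c f.1, by
    obtain ⟨N, hN⟩ := f.2
    refine ⟨N + 1, fun n hn => ?_⟩
    cases n with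
    | zero => omega
    | succ n => exact hN n (by omega)⟩

/-- Drop the first bit. -/
def cnTail (f : Cn) : Cn :=
  ⟨fun n => f.1 (n + 1), by
    obtain ⟨N, hN⟩ := f.2
    exact ⟨N, fun n hn => hN (n + 1) (by omega)⟩⟩

/-- A stream is its first bit and its tail. -/
def cnSplit : Bool × Cn ≃ Cn where
  toFun p := cnCons p.1 p.2
  invFun f := (f.1 0, cnTail f)
  left_inv _ := rfl
  right_inv f := Subtype.ext (funext fun n => by cases n <;> rfl)

/-- The points. -/
abbrev Sp (S : Type) := Cn × S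

/-- The halving of `Sp S`. -/
def hv (S : Type) : Halving (Sp S) where
  cons := (Equiv.prodAssoc Bool Cn S).symm.trans (cnSplit.prodCongr (Equiv.refl S))

@[simp] theorem hv_cons (S : Type) (c : Bool) (f : Cn) (s : S) :
    (hv S).cons (c, (f, s)) = (cnCons c f, s) := rfl

theorem hv_pre_snd (S : Type) (u : List Bool) (x : Sp S) : ((hv S).pre u x).2 = x.2 := by
  induction u with
  | nil => rfl
  | cons c u ih => exact ih

/-- A graph on points, acting trivially on the streams. -/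
def lift {S : Type} (m : Set (S × S)) : Set (Sp S × Sp S) :=
  {p | p.1.1 = p.2.1 ∧ (p.1.2, p.2.2) ∈ m}

/-- Closure of a family of graphs under the operations of a coefficient monoid. -/
inductive InMon {S : Type} (G : Set (Set (S × S))) : Set (Sp S × Sp S) → Prop
  | one : InMon G (gid Set.univ)
  | of {m} : m ∈ G → IsPB m → InMon G (lift m)
  | inv {m} : InMon G m → InMon G (ginv m)
  | comp {m n} : InMon G m → InMon G n → InMon G (gcomp m n)
  | compl {m} : InMon G m → InMon G (gid (gdom m)ᶜ)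
  | union {m n} : InMon G m → InMon G n → Disjoint (gdom m) (gdom n) →
      Disjoint (gran m) (gran n) → InMon G (m ∪ n)

theorem InMon.pb {S : Type} {G : Set (Set (S × S))} {m : Set (Sp S × Sp S)} (h : InMon G m) :
    IsPB m := by
  induction h with
  | one => exact ⟨fun x y z h h' => h.1.symm.trans h'.1, fun x y z h h' => h.1.trans h'.1.symm⟩
  | of _ hp =>
    exact ⟨fun x y z h h' => Prod.ext (h.1.symm.trans h'.1) (hp.1 _ _ _ h.2 h'.2),
      fun x y z h h' => Prod.ext (h.1.trans h'.1.symm) (hp.2 _ _ _ h.2 h'.2)⟩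
  | inv _ ih =>
    exact ⟨fun x y z h h' => ih.2 y z x h h', fun x y z h h' => ih.1 z x y h h'⟩
  | comp _ _ ihm ihn =>
    exact ⟨fun x y z ⟨a, h1, h2⟩ ⟨b, h3, h4⟩ => ihn.1 a y z h2 (ihm.1 x a b h1 h3 ▸ h4),
      fun x y z ⟨a, h1, h2⟩ ⟨b, h3, h4⟩ => ihm.2 x y a h1 (ihn.2 a b z h2 h4 ▸ h3)⟩
  | compl _ => exact ⟨fun x y z h h' => h.1.symm.trans h'.1, fun x y z h h' => h.1.trans h'.1.symm⟩
  | union _ _ hd hr ihm ihn =>
    refine ⟨fun x y z h h' => ?_, fun x y z h h' => ?_⟩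
    · rcases h with h | h <;> rcases h' with h' | h'
      exacts [ihm.1 x y z h h', absurd ⟨z, h'⟩ (Set.disjoint_left.1 hd ⟨y, h⟩),
        absurd ⟨y, h⟩ (Set.disjoint_left.1 hd ⟨z, h'⟩), ihn.1 x y z h h']
    · rcases h with h | h <;> rcases h' with h' | h'
      exacts [ihm.2 x y z h h', absurd ⟨y, h'⟩ (Set.disjoint_left.1 hr ⟨x, h⟩),
        absurd ⟨x, h⟩ (Set.disjoint_left.1 hr ⟨y, h'⟩), ihn.2 x y z h h']

theorem InMon.bit {S : Type} {G : Set (Set (S × S))} {m : Set (Sp S × Sp S)} (h : InMon G m) :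
    ∀ c d x y, ((hv S).cons (c, x), (hv S).cons (d, y)) ∈ m ↔ c = d ∧ (x, y) ∈ m := by
  have hd : ∀ {m : Set (Sp S × Sp S)}, (∀ c d x y, ((hv S).cons (c, x), (hv S).cons (d, y)) ∈ m ↔
      c = d ∧ (x, y) ∈ m) → ∀ c x, (hv S).cons (c, x) ∈ gdom m ↔ x ∈ gdom m := by
    intro m hm c x
    constructor
    · rintro ⟨y, hy⟩
      obtain ⟨⟨d, y⟩, rfl⟩ := (hv S).cons.surjective y
      exact ⟨y, ((hm _ _ _ _).1 hy).2⟩
    · rintro ⟨y, hy⟩
      exact ⟨(hv S).cons (c, y), (hm _ _ _ _).2 ⟨rfl, hy⟩⟩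
  induction h with
  | one =>
    intro c d x y
    constructor
    · intro h
      obtain ⟨e1, e2⟩ := Prod.mk.inj ((hv S).cons.injective h.1)
      exact ⟨e1, e2, trivial⟩
    · rintro ⟨rfl, h, -⟩
      obtain rfl : x = y := h
      exact ⟨rfl, trivial⟩
  | @of m _ _ =>
    intro c d ⟨f, s⟩ ⟨g, t⟩
    constructor
    · rintro ⟨h1, h2⟩
      have := cnSplit.injective (a₁ := (c, f)) (a₂ := (d, g)) h1
      obtain ⟨rfl, rfl⟩ := Prod.mk.inj this
      exact ⟨rfl, rfl, h2⟩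
    · rintro ⟨rfl, h1, h2⟩
      exact ⟨congrArg (cnCons c) h1, h2⟩
  | inv _ ih => intro c d x y; exact (ih d c y x).trans ⟨fun h => ⟨h.1.symm, h.2⟩, fun h => ⟨h.1.symm, h.2⟩⟩
  | comp _ _ ihm ihn =>
    intro c d x y
    constructor
    · rintro ⟨z, h1, h2⟩
      obtain ⟨⟨e, z⟩, rfl⟩ := (hv S).cons.surjective z
      obtain ⟨e1, k1⟩ := (ihm c e x z).1 h1
      obtain ⟨e2, k2⟩ := (ihn e d z y).1 h2
      exact ⟨e1.trans e2, z, k1, k2⟩
    · rintro ⟨rfl, z, h1, h2⟩
      exact ⟨(hv S).cons (c, z), (ihm _ _ _ _).2 ⟨rfl, h1⟩, (ihn _ _ _ _).2 ⟨rfl, h2⟩⟩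
  | compl _ ih =>
    intro c d x y
    constructor
    · rintro ⟨h1, h2⟩
      obtain ⟨e1, e2⟩ := Prod.mk.inj ((hv S).cons.injective h1)
      exact ⟨e1, e2, fun hx => h2 ((hd ih c x).2 hx)⟩
    · rintro ⟨rfl, h, h2⟩
      obtain rfl : x = y := h
      exact ⟨rfl, fun hx => h2 ((hd ih c x).1 hx)⟩
  | union _ _ _ _ ihm ihn =>
    intro c d x y
    rw [Set.mem_union, ihm, ihn, Set.mem_union, and_or_left]

/-- The coefficient monoid generated by a family of graphs. -/
def coeffOf {S : Type} (G : Set (Set (S × S))) : Coeff (hv S) where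
  mem := InMon G
  pb _ h := h.pb
  bit _ h := h.bit
  one_mem := .one
  inv_mem _ h := .inv h
  comp_mem _ _ h h' := .comp h h'
  compl_mem _ h := .compl h
  union_mem _ _ h h' h1 h2 := .union h h' h1 h2

end Vale.Agent.P193.Calc
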