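import Vale.Agent.P193.Full.Core.CovBase
import Vale.Agent.P193.Full.Calc.VFacts

/-! The facts on the trivial-coefficient group used by the map calculus on fields (`VOK`): the
subgroups supported in a cone, or fixing a cone pointwise, are images of the whole group, hence
finitely generated, spanned by their commutators, and normally generated by their elements inside
the spare cone. -/

namespace Vale.Agent.P193.Calc

open Classical
open scoped commutatorElement

variable {S : Type}

theorem iMap_apply (g : Vgrp S) (c : Bool) (z : Sp S) :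
    (iMap (coeffOf (S := S) ∅) false g : Equiv.Perm (Sp S)) ((hv S).pre [c] z) =
      if c = false then (hv S).pre [c] ((g : Equiv.Perm (Sp S)) z) else (hv S).pre [c] z := by
  show (hv S).behind false (g : Equiv.Perm (Sp S)) ((hv S).cons (c, z)) = _
  rw [Halving.behind_apply_cons]
  cases c <;> rfl

theorem inCone_iMap {u : List Bool} {g : Vgrp S} (hg : InCone u g) :
    InCone ([false] ++ u) (iMap (coeffOf (S := S) ∅) false g) := fun y hy => by
  obtain ⟨c, z, rfl⟩ := sp_cases y
  rw [iMap_apply]
  cases c with
  | true => exact if_neg (by decide)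
  | false => rw [if_pos rfl, hg z fun ⟨x, hx⟩ => hy ⟨x, by rw [hx, pre_append]⟩]

/-- The elements supported in the first half are the translates of the whole group. -/
theorem mem_iMap_range [Nonempty S] {v : Vgrp S} :
    v ∈ (iMap (coeffOf (S := S) ∅) false).range ↔ InCone [false] v := by
  have := nonempty_sp (S := S)
  constructor
  · rintro ⟨g, rfl⟩ y hy
    exact inCone_iMap (u := []) (g := g) (fun y hy => absurd ⟨y, rfl⟩ hy) y hy
  · intro h
    obtain ⟨g, hg, he⟩ := VFP.exists_lp (coeffOf_empty_trivial (S := S)) v.2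
      (h.fixCone (apart_heads (by decide) [] []))
    refine ⟨⟨g, hg⟩, Subtype.ext (Equiv.ext fun x => ?_)⟩
    obtain ⟨c, z, rfl⟩ := sp_cases x
    rw [he, iMap_apply]
    cases c with
    | false => rw [if_pos rfl, lp_pre]
    | true =>
      rw [if_neg (by decide), lp_out]
      rintro ⟨z', hz⟩
      exact incomp_bits z' z hz.symm

/-- Fixing a cone is, after carrying it to the second half, being supported in the first half. -/
theorem fixCone_iff_inCone {u : List Bool} {k : Vgrp S} (hk : MapsCone u [true] k) {v : Vgrp S} :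
    FixCone u v ↔ InCone [false] (k * v * k⁻¹) := by
  constructor
  · intro h y hy
    obtain ⟨c, z, rfl⟩ := sp_cases y
    cases c with
    | false => exact absurd ⟨z, rfl⟩ hy
    | true =>
      rw [Subgroup.coe_mul, Subgroup.coe_mul, Equiv.Perm.mul_apply, Equiv.Perm.mul_apply,
        hk.inv z, h z, hk z]
  · intro h x
    have := h.fixCone (w := [true]) (apart_heads (by decide) [] []) x
    rw [Subgroup.coe_mul, Subgroup.coe_mul, Equiv.Perm.mul_apply, Equiv.Perm.mul_apply,
      hk.inv x, ← hk x] at this
    exact (k : Equiv.Perm (Sp S)).injective this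

theorem range_subset_closure_commutators {G : Type*} [Group G] (hG : commutator G = ⊤)
    {H : Type*} [Group H] (f : G →* H) : SelfComm (f.range : Set H) := by
  rintro _ ⟨g, rfl⟩
  have hg : g ∈ Subgroup.closure (commutatorSet G) := by
    rw [← commutator_eq_closure, hG]; exact Subgroup.mem_top g
  induction hg using Subgroup.closure_induction with
  | mem y hy =>
    obtain ⟨a, b, rfl⟩ := hy
    exact Subgroup.subset_closure ⟨f a, ⟨a, rfl⟩, f b, ⟨b, rfl⟩, map_commutatorElement f a b⟩
  | one => rw [map_one]; exact one_mem _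
  | mul a b _ _ ha hb => rw [map_mul]; exact mul_mem ha hb
  | inv a _ ha => rw [map_inv]; exact inv_mem ha

/-- The elements fixing a cone that leaves room with the spare cone: finitely generated, and
normally generated by those inside the spare cone. -/
theorem fixSub_facts [Nonempty S] {u : List Bool} (hu : Apart u colC) (hf : Free [u, colC]) :
    (fixSub S u).FG ∧ NormBy (fixSub S u) colC := by
  obtain ⟨k, hk⟩ := exists_maps (S := S) (ps := [u, colC]) (qs := [[true], [false, false]]) rfl
    ⟨by simp [hu], hf⟩ ⟨by simp [Apart], [false, true], by simp [Apart]⟩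
  have hku : MapsCone u [true] k := hk 0 (by simp)
  have hkc : MapsCone colC [false, false] k := hk 1 (by simp)
  let f : Vgrp S →* Vgrp S :=
    (MulAut.conj k⁻¹).toMonoidHom.comp (iMap (coeffOf (S := S) ∅) false)
  have hf' : ∀ g : Vgrp S, f g = k⁻¹ * iMap (coeffOf (S := S) ∅) false g * k := fun g => by
    simp [f]
  have hK : fixSub S u = f.range := by
    ext v
    show FixCone u v ↔ _
    rw [fixCone_iff_inCone hku, ← mem_iMap_range]
    constructor
    · rintro ⟨g, hg⟩
      exact ⟨g, by rw [hf', hg]; group⟩
    · rintro ⟨g, rfl⟩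
      exact ⟨g, by rw [hf']; group⟩
  refine ⟨?_, ?_⟩
  · have := vgrp_fg (S := S)
    rw [hK]
    exact (Group.fg_iff_subgroup_fg _).1 (Group.fg_of_surjective f.rangeRestrict_surjective)
  set T : Set (Vgrp S) :=
    {y | ∃ a ∈ fixSub S u, ∃ x, InCone colC x ∧ y = a * x * a⁻¹}
  have hn : ((Subgroup.closure T).comap f).Normal := ⟨fun x hx g => by
    have hg : f g ∈ fixSub S u := by rw [hK]; exact ⟨g, rfl⟩
    have hle : Subgroup.closure T ≤
        (Subgroup.closure T).comap (MulAut.conj (f g)).toMonoidHom := by
      refine (Subgroup.closure_le _).2 ?_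
      rintro _ ⟨a, ha, x, hx, rfl⟩
      exact Subgroup.subset_closure ⟨f g * a, mul_mem hg ha, x, hx, by
        show f g * (a * x * a⁻¹) * (f g)⁻¹ = _
        group⟩
    show f (g * x * g⁻¹) ∈ Subgroup.closure T
    rw [map_mul, map_mul, map_inv]
    exact hle hx⟩
  have hmem : (vswap (S := S) (apart_bits [false]) : Vgrp S) ∈
      (Subgroup.closure T).comap f := by
    refine Subgroup.subset_closure ⟨1, one_mem _, _, ?_, by rw [one_mul, inv_one, mul_one]⟩
    have hw : InCone ([false] ++ [false]) (iMap (coeffOf (S := S) ∅) false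
        (vswap (S := S) (apart_bits [false]))) :=
      inCone_iMap (inCone_vswap _ ⟨[false], rfl⟩ ⟨[true], rfl⟩)
    have := inCone_conj hkc.inv hw
    rwa [inv_inv, ← hf'] at this
  have htop := normal_eq_top hn (apart_bits [false]) ⟨[true], by simp [Apart]⟩ hmem
  intro v hv'
  obtain ⟨g, rfl⟩ : v ∈ f.range := hK ▸ hv'
  exact (htop ▸ Subgroup.mem_top g : g ∈ (Subgroup.closure T).comap f)

theorem fixBoth_eq_fixSub : Frame.fixBoth S = fixSub S [false] := by
  ext v
  rw [mem_fixBoth_iff]
  refine ⟨fun h => h.fixCone (apart_heads (by decide) [] []), fun h y hy => ?_⟩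
  obtain ⟨c, z, rfl⟩ := sp_cases y
  cases c with
  | true => exact absurd ⟨z, rfl⟩ hy
  | false => exact h z

/-- The facts on the trivial-coefficient group used by the map calculus on fields. -/
theorem vok [Nonempty S] : VOK S := by
  obtain ⟨f, hf⟩ := exists_cone_hom (S := S) (u := colC) (List.cons_ne_nil _ _)
  obtain ⟨hA, hA'⟩ := fixSub_facts (S := S) (u := colA) (by simp [Apart, colA, colC])
    ⟨[false, true], by simp [Apart, colA, colC]⟩
  obtain ⟨hB, hB'⟩ := fixSub_facts (S := S) (u := colB) (by simp [Apart, colB, colC])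
    ⟨[false, false], by simp [Apart, colB, colC]⟩
  obtain ⟨-, hN⟩ := fixSub_facts (S := S) (u := [false]) (by simp [Apart, colC])
    ⟨[true, true], by simp [Apart, colC]⟩
  refine ⟨?_, inCone_fg (List.cons_ne_nil _ _) fun _ => Iff.rfl, hA, hB, fixBoth_fg, hA', hB',
    fixBoth_eq_fixSub (S := S) ▸ hN⟩
  rw [show {v : Vgrp S | InCone colC v} = (f.range : Set (Vgrp S)) from
    Set.ext fun v => (hf v).symm]
  exact range_subset_closure_commutators vgrp_perfect f

end Vale.Agent.P193.Calc
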