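import Vale.Agent.P193.Full.Calc.Eval
import Mathlib.Order.Filter.Ultrafilter.Basic
import Mathlib.Order.Filter.AtTopBot.Basic

/-! Valuations of an algebra of fields: the signings of the generators all whose finite patterns
have non-trivial fields. Every non-trivial pattern extends to a valuation, identities of fields
hold at every valuation, and valuations move along transports of fields. -/

namespace Vale.Agent.P193.Calc.Ctx

open scoped commutatorElement
open Classical
open Filter

variable {W K : Type} [Group W] [Group K] (C : Ctx W K)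

/-- The signed pattern of a list at a signing. -/
def pat (ν : C.ι → Bool) (L : List C.ι) : List (C.ι × Bool) := L.map fun i => (i, ν i)

/-- Valuations: every finite pattern is non-trivial. -/
def IsVal (ν : C.ι → Bool) : Prop := ∀ L : List C.ι, C.atom (C.pat ν L) ≠ 1

/-- The valuations. -/
abbrev Val := {ν : C.ι → Bool // C.IsVal ν}

/-- The value of a term at a signing. -/
def Holds (ν : C.ι → Bool) : Term C.ι → Prop
  | .full => True
  | .var i => ν i = true
  | .inter a b => Holds ν a ∧ Holds ν b
  | .diff a b => Holds ν a ∧ ¬ Holds ν b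

theorem trivial_meet (h : W →* K) : C.meet 1 h = 1 := by
  by_cases hc : Compat C.one 1 h
  · obtain ⟨t⟩ := hc
    rw [C.meet_eq t]
    refine hom_ext_commutators C.perfect fun v w => ?_
    rw [t.a_comm]; simp
  · rw [meet, dif_neg hc]

/-- A pattern absorbs the patterns it contains. -/
theorem meet_atom_of_subset {l m : List (C.ι × Bool)} (h : ∀ p ∈ l, p ∈ m) :
    C.meet (C.atom l) (C.atom m) = C.atom m := by
  induction l with
  | nil => rw [atom, C.meet_comm C.fld_one (C.fld_atom m), C.meet_one (C.fld_atom m)]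
  | cons p l ih =>
    obtain ⟨i, b⟩ := p
    rw [atom, C.meet_assoc' (C.fld_lit i b) (C.fld_atom l) (C.fld_atom m),
      ih fun q hq => h q (List.mem_cons_of_mem _ hq)]
    exact (C.mem_pattern (h _ List.mem_cons_self)).1

theorem atom_ne_of_subset {l m : List (C.ι × Bool)} (h : ∀ p ∈ l, p ∈ m) (hm : C.atom m ≠ 1) :
    C.atom l ≠ 1 := fun hl => hm <| by
  rw [← C.meet_atom_of_subset h, hl, C.trivial_meet]

theorem atom_sign_unique {l : List (C.ι × Bool)} (hl : C.atom l ≠ 1) {i : C.ι} {b c : Bool}
    (hb : (i, b) ∈ l) (hc : (i, c) ∈ l) : b = c := by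
  by_contra hne
  obtain ⟨ht, hf⟩ : (i, true) ∈ l ∧ (i, false) ∈ l := by
    cases b <;> cases c <;> first | exact absurd rfl hne | exact ⟨hc, hb⟩ | exact ⟨hb, hc⟩
  refine hl ?_
  have h1 := (C.mem_pattern ht).1
  have h2 := (C.mem_pattern hf).1
  simp only [if_true, Bool.false_eq_true, if_false] at h1 h2
  rw [← h1, ← h2, ← C.meet_assoc' (C.fld_x i) (C.fld_compl (C.fld_x i)) (C.fld_atom l),
    C.meet_compl_self (C.fld_x i), C.trivial_meet]

theorem exists_sign {l : List (C.ι × Bool)} (hl : C.atom l ≠ 1) (i : C.ι) :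
    ∃ b, C.atom ((i, b) :: l) ≠ 1 := by
  by_contra h
  push Not at h
  refine hl (MonoidHom.ext fun v => ?_)
  have h1 : C.meet (C.atom l) (C.x i) = 1 := by
    rw [C.meet_comm (C.fld_atom l) (C.fld_x i)]; exact h true
  have h2 : C.meet (C.atom l) (C.compl (C.x i)) = 1 := by
    rw [C.meet_comm (C.fld_atom l) (C.fld_compl (C.fld_x i))]; exact h false
  rw [C.meet_split (C.fld_atom l) (C.fld_x i) v, h1, h2]
  simp

theorem exists_cover {l : List (C.ι × Bool)} (hl : C.atom l ≠ 1) (L : List C.ι) :
    ∃ l', (∀ p ∈ l, p ∈ l') ∧ (∀ i ∈ L, ∃ b, (i, b) ∈ l') ∧ C.atom l' ≠ 1 := by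
  induction L with
  | nil => exact ⟨l, fun p hp => hp, by simp, hl⟩
  | cons i L ih =>
    obtain ⟨l', h1, h2, h3⟩ := ih
    obtain ⟨b, hb⟩ := C.exists_sign h3 i
    refine ⟨(i, b) :: l', fun p hp => List.mem_cons_of_mem _ (h1 p hp), fun j hj => ?_, hb⟩
    rcases List.mem_cons.1 hj with rfl | hj
    · exact ⟨b, List.mem_cons_self⟩
    · exact (h2 j hj).imp fun c hc => List.mem_cons_of_mem _ hc

/-- A non-trivial pattern is part of a valuation. -/
theorem exists_val {l : List (C.ι × Bool)} (hl : C.atom l ≠ 1) :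
    ∃ ν : C.Val, ∀ p ∈ l, ν.1 p.1 = p.2 := by
  choose g hg1 hg2 hg3 using fun s : Finset C.ι => C.exists_cover hl s.toList
  let νs : Finset C.ι → C.ι → Bool := fun s i => decide ((i, true) ∈ g s)
  have hνs : ∀ s i b, (i, b) ∈ g s → νs s i = b := fun s i b hb => by
    cases b
    · exact decide_eq_false fun ht => Bool.noConfusion (C.atom_sign_unique (hg3 s) hb ht)
    · exact decide_eq_true hb
  let U : Ultrafilter (Finset C.ι) := Ultrafilter.of atTop
  let ν : C.ι → Bool := fun i => decide (∀ᶠ s in (U : Filter (Finset C.ι)), νs s i = true)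
  have hev : ∀ i, ∀ᶠ s in (U : Filter (Finset C.ι)), νs s i = ν i ∧ i ∈ s := fun i => by
    have hi : ∀ᶠ s in (U : Filter (Finset C.ι)), i ∈ s :=
      Ultrafilter.of_le atTop (by
        filter_upwards [eventually_ge_atTop ({i} : Finset C.ι)] with s hs
        exact hs (Finset.mem_singleton_self i))
    refine Eventually.and ?_ hi
    by_cases h : ∀ᶠ s in (U : Filter (Finset C.ι)), νs s i = true
    · exact h.mono fun s hs => by rw [hs]; exact (decide_eq_true h).symm
    · exact (Ultrafilter.eventually_not.2 h).mono fun s hs => by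
        rw [Bool.eq_false_iff.2 hs]; exact (decide_eq_false h).symm
  refine ⟨⟨ν, fun L => ?_⟩, fun p hp => ?_⟩
  · have hall : ∀ᶠ s in (U : Filter (Finset C.ι)), ∀ i ∈ L, νs s i = ν i ∧ i ∈ s := by
      induction L with
      | nil => exact Eventually.of_forall fun s => by simp
      | cons i L ih =>
        filter_upwards [hev i, ih] with s h1 h2
        exact List.forall_mem_cons.2 ⟨h1, h2⟩
    obtain ⟨s, hs⟩ := hall.exists
    refine C.atom_ne_of_subset (fun p hp => ?_) (hg3 s)
    obtain ⟨i, hi, rfl⟩ := List.mem_map.1 hp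
    obtain ⟨h1, h2⟩ := hs i hi
    obtain ⟨b, hb⟩ := hg2 s i (Finset.mem_toList.2 h2)
    rw [← h1, hνs s i b hb]
    exact hb
  · obtain ⟨s, hs, -⟩ := (hev p.1).exists
    exact hs.symm.trans (hνs s p.1 p.2 (hg1 s p hp))

theorem mem_aset {s : C.S} {l : List (C.ι × Bool)} :
    s ∈ C.aset l ↔ ∀ p ∈ l, (s ∈ C.set p.1 ↔ p.2 = true) := by
  induction l with
  | nil => simp [aset]
  | cons p l ih =>
    obtain ⟨i, b⟩ := p
    rw [aset, Set.mem_inter_iff, ih, List.forall_mem_cons]
    cases b <;> simp

/-- Valuations realised by points give trivial fields on empty patterns. -/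
theorem emptyTrivial_of (h : ∀ ν : C.Val, ∀ L : List C.ι,
    ∃ s : C.S, ∀ i ∈ L, (s ∈ C.set i ↔ ν.1 i = true)) : C.EmptyTrivial := by
  intro l hl
  by_contra hne
  obtain ⟨ν, hν⟩ := C.exists_val hne
  obtain ⟨s, hs⟩ := h ν (l.map Prod.fst)
  refine (Set.eq_empty_iff_forall_notMem.1 hl s) (C.mem_aset.2 fun p hp => ?_)
  rw [hs p.1 (List.mem_map_of_mem hp), hν p hp]

/-- The algebra with one point: the signing itself. -/
def point (ν : C.ι → Bool) : Ctx W K :=
  { C with S := Unit, set := fun i => {_u | ν i = true} }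

theorem point_atom (ν : C.ι → Bool) (l : List (C.ι × Bool)) :
    (C.point ν).atom l = C.atom l := by
  induction l with
  | nil => rfl
  | cons p l ih =>
    obtain ⟨i, b⟩ := p
    show C.meet (if b then C.x i else C.compl (C.x i)) ((C.point ν).atom l) = _
    rw [ih]
    rfl

theorem point_tfld (ν : C.ι → Bool) (t : Term C.ι) : (C.point ν).tfld t = C.tfld t := by
  induction t with
  | full => rfl
  | var i => rfl
  | inter a b ha hb =>
    show C.meet ((C.point ν).tfld a) ((C.point ν).tfld b) = _
    rw [ha, hb]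
    rfl
  | diff a b ha hb =>
    show C.meet ((C.point ν).tfld a) (C.compl ((C.point ν).tfld b)) = _
    rw [ha, hb]
    rfl

theorem mem_point_tset (ν : C.ι → Bool) (t : Term C.ι) :
    (() : Unit) ∈ (C.point ν).tset t ↔ C.Holds ν t := by
  induction t with
  | full => exact ⟨fun _ => trivial, fun _ => trivial⟩
  | var i => exact Iff.rfl
  | inter a b ha hb => exact and_congr ha hb
  | diff a b ha hb => exact and_congr ha (not_congr hb)

/-- A term met with a pattern covering it is decided by the signing. -/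
theorem meet_pat (ν : C.ι → Bool) (t : Term C.ι) {L : List C.ι} (hL : ∀ i ∈ C.vars t, i ∈ L) :
    C.meet (C.tfld t) (C.atom (C.pat ν L)) =
      if C.Holds ν t then C.atom (C.pat ν L) else 1 := by
  have hmem : (() : Unit) ∈ (C.point ν).aset (C.pat ν L) := by
    refine (C.point ν).mem_aset.2 fun p hp => ?_
    obtain ⟨i, -, rfl⟩ := List.mem_map.1 hp
    exact Iff.rfl
  have hv : (C.point ν).vars t = C.vars t := by
    clear hL
    induction t with
    | full => rfl
    | var i => rfl
    | inter a b ha hb =>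
      show (C.point ν).vars a ++ (C.point ν).vars b = _
      rw [ha, hb]
      rfl
    | diff a b ha hb =>
      show (C.point ν).vars a ++ (C.point ν).vars b = _
      rw [ha, hb]
      rfl
  have h := (C.point ν).term_pattern t (l := C.pat ν L) fun i hi =>
    ⟨ν i, List.mem_map.2 ⟨i, hL i (hv ▸ hi), rfl⟩⟩
  rw [C.point_tfld, C.point_atom] at h
  rcases h with ⟨h1, h2⟩ | ⟨h1, h2⟩
  · rw [if_pos ((C.mem_point_tset ν t).1 (h2 hmem))]; exact h1
  · rw [if_neg fun ht => h2.subset ⟨hmem, (C.mem_point_tset ν t).2 ht⟩]; exact h1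

/-- Meeting every pattern that covers it detects a term that holds. -/
theorem holds_iff_meet_ne (ν : C.Val) (t : Term C.ι) {L : List C.ι}
    (hL : ∀ i ∈ C.vars t, i ∈ L) :
    C.Holds ν.1 t ↔ C.meet (C.tfld t) (C.atom (C.pat ν.1 L)) ≠ 1 := by
  rw [C.meet_pat ν.1 t hL]
  by_cases h : C.Holds ν.1 t
  · simp [h, ν.2 L]
  · simp [h]

theorem not_holds_of_eq_one (ν : C.Val) {t : Term C.ι} (h : C.tfld t = 1) :
    ¬ C.Holds ν.1 t := fun ht =>
  (C.holds_iff_meet_ne ν t fun _ hi => hi).1 ht (by rw [h, C.trivial_meet])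

theorem holds_congr (ν : C.Val) {a b : Term C.ι} (h : C.tfld a = C.tfld b) :
    C.Holds ν.1 a ↔ C.Holds ν.1 b := by
  rw [C.holds_iff_meet_ne ν a (L := C.vars a ++ C.vars b) fun _ hi => List.mem_append_left _ hi,
    C.holds_iff_meet_ne ν b (L := C.vars a ++ C.vars b) fun _ hi => List.mem_append_right _ hi, h]

/-- An inclusion of fields holds at every valuation. -/
theorem holds_of_meet_eq (ν : C.Val) {a b : Term C.ι}
    (h : C.meet (C.tfld a) (C.tfld b) = C.tfld a) (ha : C.Holds ν.1 a) : C.Holds ν.1 b :=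
  ((C.holds_congr ν (a := .inter a b) (b := a) h).2 ha).2

/-- A field that holds at no valuation is trivial. -/
theorem tfld_eq_one_of_forall {t : Term C.ι} (h : ∀ ν : C.Val, ¬ C.Holds ν.1 t) :
    C.tfld t = 1 := by
  have key : ∀ (L : List C.ι) (l : List (C.ι × Bool)),
      (∀ i ∈ C.vars t, i ∈ L ∨ ∃ b, (i, b) ∈ l) → C.meet (C.tfld t) (C.atom l) = 1 := by
    intro L
    induction L with
    | nil =>
      intro l hl
      by_cases hl1 : C.atom l = 1
      · rw [hl1, C.meet_trivial]
      obtain ⟨ν, hν⟩ := C.exists_val hl1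
      have hsub : ∀ p ∈ C.pat ν.1 (C.vars t), p ∈ l := by
        intro p hp
        obtain ⟨i, hi, rfl⟩ := List.mem_map.1 hp
        obtain ⟨b, hb⟩ := (hl i hi).resolve_left (by simp)
        rwa [hν _ hb]
      rw [← C.meet_atom_of_subset hsub, ← C.meet_assoc' (C.fld_tfld t) (C.fld_atom _)
        (C.fld_atom _), C.meet_pat ν.1 t fun _ hi => hi, if_neg (h ν), C.trivial_meet]
    | cons i L ih =>
      intro l hl
      have step : ∀ b, C.meet (C.tfld t) (C.atom ((i, b) :: l)) = 1 := fun b => ih _ fun j hj => by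
        rcases hl j hj with h | ⟨c, hc⟩
        · rcases List.mem_cons.1 h with rfl | h
          · exact Or.inr ⟨b, List.mem_cons_self⟩
          · exact Or.inl h
        · exact Or.inr ⟨c, List.mem_cons_of_mem _ hc⟩
      have hx := C.fld_x i
      have hal := C.fld_atom l
      have htf := C.fld_tfld t
      have e1 := step true
      have e2 := step false
      simp only [atom, if_true, Bool.false_eq_true, if_false] at e1 e2
      rw [C.meet_comm hx hal, ← C.meet_assoc' htf hal hx] at e1
      rw [C.meet_comm (C.fld_compl hx) hal, ← C.meet_assoc' htf hal (C.fld_compl hx)] at e2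
      ext v
      rw [C.meet_split (C.fld_meet htf hal) hx v, e1, e2]
      simp
  have h0 := key (C.vars t) [] fun i hi => Or.inl hi
  rwa [atom, C.meet_one (C.fld_tfld t)] at h0

/-! ### Transport -/

/-- The term of a pattern. -/
def patTerm : List (C.ι × Bool) → Term C.ι
  | [] => .full
  | (i, b) :: l => .inter (if b then .var i else .diff .full (.var i)) (patTerm l)

theorem tfld_patTerm (l : List (C.ι × Bool)) : C.tfld (C.patTerm l) = C.atom l := by
  induction l with
  | nil => rfl
  | cons p l ih =>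
    obtain ⟨i, b⟩ := p
    rw [patTerm, tfld, ih, atom]
    cases b
    · simp only [Bool.false_eq_true, if_false, tfld]
      rw [C.meet_comm C.fld_one (C.fld_compl (C.fld_x i)), C.meet_one (C.fld_compl (C.fld_x i))]
    · simp only [if_true, tfld]

theorem holds_patTerm (ν : C.ι → Bool) (l : List (C.ι × Bool)) :
    C.Holds ν (C.patTerm l) ↔ ∀ p ∈ l, ν p.1 = p.2 := by
  induction l with
  | nil => simp [patTerm, Holds]
  | cons p l ih =>
    obtain ⟨i, b⟩ := p
    cases b <;> simp [patTerm, Holds, ih]

/-- Replace each generator by a term and the full set by `R`. -/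
def tsub (R : Term C.ι) (k : C.ι → Term C.ι) : Term C.ι → Term C.ι
  | .full => R
  | .var i => .inter R (k i)
  | .inter a b => .inter (tsub R k a) (tsub R k b)
  | .diff a b => .diff (tsub R k a) (tsub R k b)

theorem holds_tsub {ν : C.ι → Bool} {R : Term C.ι} (k : C.ι → Term C.ι) (hR : C.Holds ν R)
    (t : Term C.ι) :
    C.Holds ν (C.tsub R k t) ↔ C.Holds (fun i => decide (C.Holds ν (k i))) t := by
  induction t with
  | full => exact ⟨fun _ => trivial, fun _ => hR⟩
  | var i => simp [tsub, Holds, hR]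
  | inter a b ha hb => exact and_congr ha hb
  | diff a b ha hb => exact and_congr ha (not_congr hb)

variable {D R : Term C.ι} {k : C.ι → Term C.ι} {c : K →* K} {s s' : W →* W}

/-- A transport of the generators below `D` is one of all terms. -/
theorem transport_term
    (hD : ∀ v, c (C.tfld D (s v)) = C.tfld R (s' v))
    (hk : ∀ i v, c (C.tfld (.inter D (.var i)) (s v)) = C.tfld (.inter R (k i)) (s' v))
    (t : Term C.ι) : ∀ v, c (C.tfld (.inter D t) (s v)) = C.tfld (C.tsub R k t) (s' v) := by
  have hd := C.fld_tfld D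
  have hmeet : ∀ {e f e' f' : W →* K}, Compat C.one e f → Compat C.one e' f' →
      (∀ v, c (e (s v)) = e' (s' v)) → (∀ v, c (f (s v)) = f' (s' v)) →
      ∀ v, c (C.meet e f (s v)) = C.meet e' f' (s' v) := by
    intro e f e' f' ⟨t1⟩ ⟨t2⟩ he hf
    have : (c.comp ((C.meet e f).comp s)) = (C.meet e' f').comp s' :=
      hom_ext_commutators C.perfect fun v w => by
        simp only [MonoidHom.comp_apply, map_commutatorElement s, map_commutatorElement s',
          C.meet_eq t1, C.meet_eq t2, t1.a_comm, t2.a_comm]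
        simp only [map_commutatorElement, he, hf]
    exact fun v => DFunLike.congr_fun this v
  induction t with
  | full =>
    intro v
    show c (C.meet (C.tfld D) C.one (s v)) = _
    rw [C.meet_one hd]
    exact hD v
  | var i => exact hk i
  | inter a b ha hb =>
    intro v
    have hfa := C.fld_tfld a
    have hfb := C.fld_tfld b
    have e : C.tfld (.inter D (.inter a b)) =
        C.meet (C.tfld (.inter D a)) (C.tfld (.inter D b)) := by
      simp only [tfld]
      rw [C.meet_assoc' hd hfa (C.fld_meet hd hfb), ← C.meet_assoc' hfa hd hfb,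
        C.meet_comm hfa hd, C.meet_assoc' hd hfa hfb, ← C.meet_assoc' hd hd (C.fld_meet hfa hfb),
        C.meet_self hd]
    rw [e]
    exact hmeet (C.compat (C.fld_tfld _) (C.fld_tfld _)) (C.compat (C.fld_tfld _) (C.fld_tfld _))
      ha hb v
  | diff a b ha hb =>
    intro v
    have hfa := C.fld_tfld a
    have hfb := C.fld_tfld b
    have e : C.tfld (.inter D (.diff a b)) =
        C.meet (C.tfld (.inter D a)) (C.compl (C.tfld b)) := by
      simp only [tfld]
      rw [C.meet_assoc' hd hfa (C.fld_compl hfb)]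
    have e' : C.meet (C.tfld (.inter D a)) (C.tfld b) =
        C.meet (C.tfld (.inter D a)) (C.tfld (.inter D b)) := by
      simp only [tfld]
      rw [← C.meet_assoc' (C.fld_meet hd hfa) hd hfb, C.meet_comm (C.fld_meet hd hfa) hd,
        ← C.meet_assoc' hd hd hfa, C.meet_self hd]
    have h1 : c (C.meet (C.tfld (.inter D a)) (C.tfld b) (s v)) =
        C.meet (C.tfld (C.tsub R k a)) (C.tfld (C.tsub R k b)) (s' v) := by
      rw [e']
      exact hmeet (C.compat (C.fld_tfld _) (C.fld_tfld _)) (C.compat (C.fld_tfld _) (C.fld_tfld _))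
        ha hb v
    have h2 := ha v
    rw [C.meet_split (C.fld_tfld (.inter D a)) hfb (s v), map_mul, h1,
      C.meet_split (C.fld_tfld (C.tsub R k a)) (C.fld_tfld (C.tsub R k b)) (s' v), ← e] at h2
    exact mul_left_cancel h2

/-- Valuations in the range of a transport move to valuations in its domain. -/
theorem val_move
    (hD : ∀ v, c (C.tfld D (s v)) = C.tfld R (s' v))
    (hk : ∀ i v, c (C.tfld (.inter D (.var i)) (s v)) = C.tfld (.inter R (k i)) (s' v))
    (hs : ∀ f : W →* K, C.Fld f → (∀ v, f (s' v) = 1) → f = 1)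
    (ν : C.Val) (hR : C.Holds ν.1 R) :
    ∃ μ : C.Val, C.Holds μ.1 D ∧
      ∀ t, (C.Holds μ.1 t ↔ C.Holds ν.1 (C.tsub R k t)) := by
  let f : C.ι → Bool := fun i => decide (C.Holds ν.1 (k i))
  have hzero : ∀ t, C.tfld (.inter D t) = 1 → ¬ C.Holds f t := fun t ht hh => by
    refine C.not_holds_of_eq_one ν ?_ ((C.holds_tsub k hR t).2 hh)
    refine hs _ (C.fld_tfld _) fun v => ?_
    rw [← C.transport_term hD hk t v, ht]
    simp
  have hval : C.IsVal f := fun L hL => by
    refine hzero (C.patTerm (C.pat f L)) ?_ ?_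
    · show C.meet (C.tfld D) (C.tfld (C.patTerm (C.pat f L))) = 1
      rw [C.tfld_patTerm, hL, C.meet_trivial]
    · refine (C.holds_patTerm f _).2 fun p hp => ?_
      obtain ⟨i, -, rfl⟩ := List.mem_map.1 hp
      rfl
  refine ⟨⟨f, hval⟩, ?_, fun t => (C.holds_tsub k hR t).symm⟩
  by_contra hDf
  refine hzero (.diff .full D) ?_ ⟨trivial, hDf⟩
  show C.meet (C.tfld D) (C.meet C.one (C.compl (C.tfld D))) = 1
  rw [C.meet_comm C.fld_one (C.fld_compl (C.fld_tfld D)), C.meet_one (C.fld_compl (C.fld_tfld D)),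
    C.meet_compl_self (C.fld_tfld D)]

end Vale.Agent.P193.Calc.Ctx
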